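import Vale.Agent.Lib.P346.FnSpace

/-!
Squarefree coefficients of polynomials whose coefficients depend on a point.
-/

noncomputable section

open MvPolynomial Finset

namespace Vale.Agent.Lib.P346

section cf

variable {K : Type} [Field K] {J : Type} [DecidableEq J]

/-- Exponent vector of the squarefree monomial on `β`. -/
def ind (β : Finset J) : J →₀ ℕ :=
  Finsupp.onFinset β (fun j => if j ∈ β then 1 else 0) (by simp)

lemma ind_apply (β : Finset J) (j : J) : ind β j = if j ∈ β then 1 else 0 := rfl

lemma ind_empty : ind (∅ : Finset J) = 0 := by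
  ext j; simp [ind_apply]

lemma ind_eq_zero_iff (β : Finset J) : ind β = 0 ↔ β = ∅ := by
  constructor
  · intro h
    ext j
    have := DFunLike.congr_fun h j
    simp only [ind_apply, Finsupp.coe_zero, Pi.zero_apply] at this
    by_cases hj : j ∈ β
    · simp [hj] at this
    · simp [hj]
  · rintro rfl; exact ind_empty

lemma ind_support (β : Finset J) : (ind β).support = β := by
  ext j
  simp [ind_apply]

/-- The coefficient of the squarefree monomial on `β`. -/
def cf (β : Finset J) (p : MvPolynomial J K) : K := coeff (ind β) p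

lemma cf_add (β : Finset J) (p r : MvPolynomial J K) : cf β (p + r) = cf β p + cf β r := by
  simp [cf]

lemma cf_C_mul (β : Finset J) (a : K) (p : MvPolynomial J K) : cf β (C a * p) = a * cf β p := by
  simp [cf, coeff_C_mul]

lemma cf_sum {τ : Type} (s : Finset τ) (β : Finset J) (f : τ → MvPolynomial J K) :
    cf β (∑ i ∈ s, f i) = ∑ i ∈ s, cf β (f i) := by
  simp [cf, coeff_sum]

lemma cf_zero (β : Finset J) : cf β (0 : MvPolynomial J K) = 0 := by
  simp [cf]

lemma cf_empty_eq (p : MvPolynomial J K) : cf ∅ p = constantCoeff p := by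
  rw [cf, ind_empty, constantCoeff_eq]

lemma cf_mul (β : Finset J) (p r : MvPolynomial J K) :
    cf β (p * r) = ∑ β' ∈ β.powerset, cf β' p * cf (β \ β') r := by
  unfold cf
  rw [coeff_mul]
  refine Finset.sum_nbij' (fun x => x.1.support) (fun β' => (ind β', ind (β \ β')))
    ?_ ?_ ?_ ?_ ?_
  · intro x hx
    rw [Finset.HasAntidiagonal.mem_antidiagonal] at hx
    rw [Finset.mem_powerset]
    intro j hj
    have h1 := DFunLike.congr_fun hx j
    rw [Finsupp.add_apply, ind_apply] at h1
    rw [Finsupp.mem_support_iff] at hj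
    by_contra hcon
    rw [if_neg hcon] at h1
    omega
  · intro β' hβ'
    rw [Finset.mem_powerset] at hβ'
    rw [Finset.HasAntidiagonal.mem_antidiagonal]
    ext j
    simp only [Finsupp.add_apply, ind_apply, Finset.mem_sdiff]
    by_cases h1 : j ∈ β' <;> by_cases h2 : j ∈ β <;> simp [h1, h2]
    exact h2 (hβ' h1)
  · intro x hx
    rw [Finset.HasAntidiagonal.mem_antidiagonal] at hx
    have h0 : ∀ j, x.1 j + x.2 j = if j ∈ β then 1 else 0 := by
      intro j
      have h1 := DFunLike.congr_fun hx j
      rwa [Finsupp.add_apply, ind_apply] at h1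
    ext j
    · simp only [ind_apply, Finsupp.mem_support_iff]
      have := h0 j
      split_ifs at this ⊢ <;> omega
    · simp only [ind_apply, Finsupp.mem_support_iff, Finset.mem_sdiff, not_not]
      have := h0 j
      by_cases h3 : j ∈ β <;> by_cases h4 : x.1 j = 0 <;> simp [h3, h4] at this ⊢ <;> omega
  · intro β' hβ'
    simp [ind_support]
  · intro x hx
    rw [Finset.HasAntidiagonal.mem_antidiagonal] at hx
    have h0 : ∀ j, x.1 j + x.2 j = if j ∈ β then 1 else 0 := by
      intro j
      have h1 := DFunLike.congr_fun hx j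
      rwa [Finsupp.add_apply, ind_apply] at h1
    have h1 : ind x.1.support = x.1 := by
      ext j
      simp only [ind_apply, Finsupp.mem_support_iff]
      have := h0 j
      split_ifs at this ⊢ <;> omega
    have h2 : ind (β \ x.1.support) = x.2 := by
      ext j
      simp only [ind_apply, Finsupp.mem_support_iff, Finset.mem_sdiff, not_not]
      have := h0 j
      by_cases h3 : j ∈ β <;> by_cases h4 : x.1 j = 0 <;> simp [h3, h4] at this ⊢ <;> omega
    rw [h1, h2]

lemma cf_mul_split (β : Finset J) (p r : MvPolynomial J K) :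
    cf β (p * r) = cf ∅ p * cf β r +
      ∑ β' ∈ β.powerset.erase ∅, cf β' p * cf (β \ β') r := by
  rw [cf_mul, ← Finset.add_sum_erase _ _ (Finset.empty_mem_powerset β), Finset.sdiff_empty]

lemma cf_C_add_empty (y : K) (L : MvPolynomial J K) (hL : constantCoeff L = 0) :
    cf ∅ (C y + L) = y := by
  rw [cf_empty_eq, map_add, hL, constantCoeff_C, add_zero]

lemma cf_C_add_nonempty (y : K) (L : MvPolynomial J K) {β : Finset J} (hβ : β ≠ ∅) :
    cf β (C y + L) = cf β L := by
  have h1 : ind β ≠ 0 := fun h => hβ ((ind_eq_zero_iff β).1 h)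
  rw [cf_add, cf, coeff_C, if_neg (Ne.symm h1), zero_add]

lemma card_sdiff_lt_of_nonempty {β β' : Finset J} (h : β' ∈ β.powerset.erase ∅) :
    (β \ β').card < β.card := by
  rw [Finset.mem_erase, Finset.mem_powerset] at h
  have h1 : β \ β' ⊂ β := by
    refine Finset.sdiff_ssubset h.2 (Finset.nonempty_iff_ne_empty.2 h.1)
  exact Finset.card_lt_card h1

lemma card_add_card_sdiff {β β' : Finset J} (h : β' ⊆ β) :
    β'.card + (β \ β').card = β.card := by
  rw [add_comm]
  exact Finset.card_sdiff_add_card_eq_card h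

/-- If more factors have vanishing constant term than the size of `β`, the coefficient dies. -/
lemma cf_prod_eq_zero {τ : Type} [DecidableEq τ] (M : Finset τ) (y : τ → K)
    (L : τ → MvPolynomial J K) (hL : ∀ u, constantCoeff (L u) = 0) (β : Finset J)
    (Z : Finset τ) (hZM : Z ⊆ M) (hZ : ∀ u ∈ Z, y u = 0) (h : β.card < Z.card) :
    cf β (∏ u ∈ M, (C (y u) + L u)) = 0 := by
  induction M using Finset.induction_on generalizing β Z with
  | empty =>
    have : Z = ∅ := Finset.subset_empty.1 hZM
    simp [this] at h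
  | insert u M hu ih =>
    rw [Finset.prod_insert hu, cf_mul_split]
    have hsum : ∑ β' ∈ β.powerset.erase ∅,
        cf β' (C (y u) + L u) * cf (β \ β') (∏ u ∈ M, (C (y u) + L u)) = 0 := by
      refine Finset.sum_eq_zero fun β' hβ' => ?_
      have h1 := card_sdiff_lt_of_nonempty hβ'
      have h3 : Z.erase u ⊆ M := by
        intro v hv
        have h4 := Finset.mem_erase.1 hv
        exact (Finset.mem_insert.1 (hZM h4.2)).resolve_left h4.1
      have h2 : (β \ β').card < (Z.erase u).card := by
        have h5 := Finset.pred_card_le_card_erase (s := Z) (a := u)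
        omega
      rw [ih _ _ h3 (fun v hv => hZ v (Finset.mem_of_mem_erase hv)) h2, mul_zero]
    rw [hsum, add_zero, cf_C_add_empty _ _ (hL u)]
    by_cases hy : u ∈ Z
    · rw [hZ u hy, zero_mul]
    · have h3 : Z ⊆ M := by
        intro v hv
        refine (Finset.mem_insert.1 (hZM hv)).resolve_left ?_
        rintro rfl
        exact hy hv
      rw [ih _ _ h3 hZ h, mul_zero]

end cf

section CfDeg

variable {K : Type} [Field K] {J : Type} [DecidableEq J] {ι : Type}

/-- All squarefree coefficients of the point-dependent polynomial have degree at most `D`. -/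
def CfDeg (P : (ι → K) → MvPolynomial J K) (D : ℕ) : Prop :=
  ∀ β : Finset J, (fun x => cf β (P x)) ∈ VV K ι D

lemma CfDeg.mono {P : (ι → K) → MvPolynomial J K} {a b : ℕ} (h : CfDeg P a) (hab : a ≤ b) :
    CfDeg P b := fun β => VV_mono hab (h β)

lemma CfDeg.mul {P Q : (ι → K) → MvPolynomial J K} {a b : ℕ} (hP : CfDeg P a) (hQ : CfDeg Q b) :
    CfDeg (fun x => P x * Q x) (a + b) := by
  intro β
  simp only [cf_mul]
  exact sum_mem_VV _ fun β' _ => mul_mem_VV (hP β') (hQ _)

lemma cfDeg_one (D : ℕ) : CfDeg (J := J) (fun _ : ι → K => (1 : MvPolynomial J K)) D :=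
  fun β => const_mem_VV _ _

lemma CfDeg.prod {τ : Type} (M : Finset τ) {P : τ → (ι → K) → MvPolynomial J K} {d : τ → ℕ}
    (hP : ∀ u ∈ M, CfDeg (P u) (d u)) :
    CfDeg (fun x => ∏ u ∈ M, P u x) (∑ u ∈ M, d u) := by
  classical
  induction M using Finset.induction_on with
  | empty => simpa using cfDeg_one (K := K) (J := J) (ι := ι) 0
  | insert a s ha ih =>
    have h1 := ih fun u hu => hP u (mem_insert_of_mem hu)
    have h2 := (hP a (mem_insert_self a s)).mul h1
    simpa [prod_insert ha, sum_insert ha] using h2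

lemma cfDeg_C_add {y : (ι → K) → K} {d : ℕ} (hy : y ∈ VV K ι d) (L : MvPolynomial J K)
    (hL : constantCoeff L = 0) : CfDeg (fun x => C (y x) + L) d := by
  intro β
  by_cases hβ : β = ∅
  · subst hβ
    simpa [cf_C_add_empty _ _ hL] using hy
  · simpa [cf_C_add_nonempty _ _ hβ] using const_mem_VV (K := K) (ι := ι) (cf β L) d

/-- Agreement off a set with a function of degree at most `d`. -/
def AgreeOff (Bad : Set (ι → K)) (d : ℕ) (f : (ι → K) → K) : Prop :=
  ∃ p ∈ VV K ι d, ∀ x, x ∉ Bad → f x = p x

lemma AgreeOff.mono {Bad : Set (ι → K)} {a b : ℕ} {f : (ι → K) → K} (h : AgreeOff Bad a f)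
    (hab : a ≤ b) : AgreeOff Bad b f := by
  obtain ⟨p, hp, hf⟩ := h
  exact ⟨p, VV_mono hab hp, hf⟩

lemma AgreeOff.of_mem {Bad : Set (ι → K)} {a : ℕ} {f : (ι → K) → K} (h : f ∈ VV K ι a) :
    AgreeOff Bad a f := ⟨f, h, fun _ _ => rfl⟩

lemma AgreeOff.add {Bad : Set (ι → K)} {a : ℕ} {f g : (ι → K) → K} (hf : AgreeOff Bad a f)
    (hg : AgreeOff Bad a g) : AgreeOff Bad a (fun x => f x + g x) := by
  obtain ⟨p, hp, hf⟩ := hf
  obtain ⟨r, hr, hg⟩ := hg
  exact ⟨fun x => p x + r x, add_mem_VV hp hr, fun x hx => by
    show f x + g x = p x + r x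
    rw [hf x hx, hg x hx]⟩

lemma AgreeOff.mul {Bad : Set (ι → K)} {a b : ℕ} {f g : (ι → K) → K} (hf : AgreeOff Bad a f)
    (hg : AgreeOff Bad b g) : AgreeOff Bad (a + b) (fun x => f x * g x) := by
  obtain ⟨p, hp, hf⟩ := hf
  obtain ⟨r, hr, hg⟩ := hg
  exact ⟨fun x => p x * r x, mul_mem_VV hp hr, fun x hx => by
    show f x * g x = p x * r x
    rw [hf x hx, hg x hx]⟩

lemma AgreeOff.sum {Bad : Set (ι → K)} {τ : Type} (s : Finset τ) {a : ℕ}
    {f : τ → (ι → K) → K} (hf : ∀ i ∈ s, AgreeOff Bad a (f i)) :
    AgreeOff Bad a (fun x => ∑ i ∈ s, f i x) := by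
  classical
  induction s using Finset.induction_on with
  | empty => simpa using AgreeOff.of_mem (Bad := Bad) (const_mem_VV (K := K) (ι := ι) 0 a)
  | insert u s hu ih =>
    have h1 := ih fun i hi => hf i (mem_insert_of_mem hi)
    have h2 := (hf u (mem_insert_self u s)).add h1
    simpa [sum_insert hu] using h2

lemma AgreeOff.cmul {Bad : Set (ι → K)} {a : ℕ} {f : (ι → K) → K} (c : K)
    (hf : AgreeOff Bad a f) : AgreeOff Bad a (fun x => c * f x) := by
  obtain ⟨p, hp, hf⟩ := hf
  exact ⟨fun x => c * p x, cmul_mem_VV c hp, fun x hx => by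
    show c * f x = c * p x
    rw [hf x hx]⟩

/-- Expansion of a product of blocks: nonempty pieces of `β` have controlled degree,
empty pieces contribute the constant terms of the blocks. -/
lemma cf_prod_blocks {B : Type} [DecidableEq B] (G : B → (ι → K) → MvPolynomial J K)
    (Bad : Set (ι → K)) (r : ℕ)
    (hG : ∀ b, ∀ β : Finset J, β ≠ ∅ → AgreeOff Bad (β.card * r) (fun x => cf β (G b x)))
    (Bs : Finset B) (β : Finset J) :
    ∃ q : Finset B → (ι → K) → K, (∀ T, q T ∈ VV K ι (β.card * r)) ∧
      ∀ x, x ∉ Bad → cf β (∏ b ∈ Bs, G b x) =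
        ∑ T ∈ Bs.powerset, (∏ b ∈ Bs \ T, cf ∅ (G b x)) * q T x := by
  induction Bs using Finset.induction_on generalizing β with
  | empty =>
    refine ⟨fun _ => fun _ => cf β (1 : MvPolynomial J K), fun T => const_mem_VV _ _, fun x _ => ?_⟩
    simp
  | insert b₀ Bs hb₀ ih =>
    choose q hq1 hq2 using ih
    have hp : ∀ β' : Finset J, ∃ p : (ι → K) → K, β' ≠ ∅ →
        (p ∈ VV K ι (β'.card * r) ∧ ∀ x, x ∉ Bad → cf β' (G b₀ x) = p x) := by
      intro β'
      by_cases hβ' : β' = ∅
      · exact ⟨0, fun h => absurd hβ' h⟩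
      · obtain ⟨p, hp1, hp2⟩ := hG b₀ β' hβ'
        exact ⟨p, fun _ => ⟨hp1, hp2⟩⟩
    choose p hp using hp
    let q' : Finset B → (ι → K) → K := fun T x =>
      if b₀ ∈ T then ∑ β' ∈ β.powerset.erase ∅, p β' x * q (β \ β') (T.erase b₀) x
      else q β T x
    refine ⟨q', fun T => ?_, fun x hx => ?_⟩
    · by_cases hT : b₀ ∈ T
      · have : q' T = fun x => ∑ β' ∈ β.powerset.erase ∅, p β' x * q (β \ β') (T.erase b₀) x := by
          funext x; simp [q', hT]
        rw [this]
        refine sum_mem_VV _ fun β' hβ' => ?_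
        have h1 := Finset.mem_erase.1 hβ'
        have h2 := mul_mem_VV (hp β' h1.1).1 (hq1 (β \ β') (T.erase b₀))
        have h3 : β'.card * r + (β \ β').card * r = β.card * r := by
          rw [← add_mul, card_add_card_sdiff (Finset.mem_powerset.1 h1.2)]
        rwa [h3] at h2
      · have : q' T = q β T := by
          funext x; simp [q', hT]
        rw [this]
        exact hq1 β T
    · rw [Finset.prod_insert hb₀, cf_mul_split, Finset.sum_powerset_insert hb₀, hq2 β x hx]
      have h1 : ∀ β' ∈ β.powerset.erase ∅,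
          cf β' (G b₀ x) * cf (β \ β') (∏ b ∈ Bs, G b x) =
            ∑ T ∈ Bs.powerset, (∏ b ∈ Bs \ T, cf ∅ (G b x)) *
              (p β' x * q (β \ β') T x) := by
        intro β' hβ'
        have h1 := Finset.mem_erase.1 hβ'
        rw [(hp β' h1.1).2 x hx, hq2 _ x hx, Finset.mul_sum]
        refine Finset.sum_congr rfl fun T _ => ?_
        ring
      rw [Finset.sum_congr rfl h1, Finset.sum_comm, Finset.mul_sum]
      congr 1
      · refine Finset.sum_congr rfl fun T hT => ?_
        have hbT : b₀ ∉ T := fun h => hb₀ (Finset.mem_powerset.1 hT h)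
        have h2 : insert b₀ Bs \ T = insert b₀ (Bs \ T) := by
          rw [Finset.insert_sdiff_of_notMem _ hbT]
        have h3 : b₀ ∉ Bs \ T := fun h => hb₀ (Finset.mem_sdiff.1 h).1
        rw [h2, Finset.prod_insert h3]
        simp only [q', if_neg hbT]
        ring
      · refine Finset.sum_congr rfl fun T hT => ?_
        have hbT : b₀ ∉ T := fun h => hb₀ (Finset.mem_powerset.1 hT h)
        have h2 : insert b₀ Bs \ insert b₀ T = Bs \ T := by
          ext c
          simp only [Finset.mem_sdiff, Finset.mem_insert]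
          constructor
          · rintro ⟨hc1 | hc1, hc3⟩
            · exact absurd (Or.inl hc1) hc3
            · exact ⟨hc1, fun h => hc3 (Or.inr h)⟩
          · rintro ⟨hc1, hc3⟩
            refine ⟨Or.inr hc1, ?_⟩
            rintro (hc | h)
            · exact hb₀ (hc ▸ hc1)
            · exact hc3 h
        rw [h2]
        simp only [q', if_pos (Finset.mem_insert_self b₀ T), Finset.erase_insert hbT]
        rw [Finset.mul_sum]

end CfDeg

/-- Greedy grouping of weighted items into consecutive blocks. -/
lemma exists_buckets {τ : Type} [DecidableEq τ] (R : ℕ) (hR : 0 < R) (d : τ → ℕ) (I : Finset τ) :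
    ∃ g : τ → ℕ, (∀ u ∈ I, g u ≤ (∑ u ∈ I, d u) / R) ∧
      (∀ b, b ≠ (∑ u ∈ I, d u) / R → (I.filter fun u => g u = b) = ∅ ∨
        ∃ v ∈ I.filter (fun u => g u = b),
          ∑ u ∈ (I.filter fun u => g u = b).erase v, d u < R) ∧
      (∑ u ∈ I.filter (fun u => g u = (∑ u ∈ I, d u) / R), d u) ≤ (∑ u ∈ I, d u) % R := by
  induction I using Finset.induction_on with
  | empty =>
    refine ⟨fun _ => 0, by simp, fun b _ => Or.inl (by simp), by simp⟩
  | insert a I ha ih =>
    obtain ⟨g, hg1, hg2, hg3⟩ := ih
    set D := ∑ u ∈ I, d u with hD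
    have hD' : ∑ u ∈ insert a I, d u = d a + D := by rw [sum_insert ha]
    let g' : τ → ℕ := fun u => if u = a then D / R else g u
    have hfilter : ∀ b, (insert a I).filter (fun u => g' u = b) =
        if D / R = b then insert a (I.filter fun u => g u = b)
        else I.filter fun u => g u = b := by
      intro b
      ext u
      by_cases hua : u = a
      · subst hua
        by_cases hb : D / R = b
        · simp [g', hb]
        · simp [g', hb, ha]
      · by_cases hb : D / R = b
        · simp [g', hb, hua]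
        · simp [g', hb, hua]
    have hmod : ∑ u ∈ I.filter (fun u => g u = D / R), d u < R :=
      lt_of_le_of_lt hg3 (Nat.mod_lt _ hR)
    have hmem : a ∉ I.filter fun u => g u = D / R := fun h => ha (Finset.mem_filter.1 h).1
    refine ⟨g', ?_, ?_, ?_⟩
    · intro u hu
      rw [hD']
      rcases Finset.mem_insert.1 hu with rfl | hu
      · simp only [g', if_true]
        exact Nat.div_le_div_right (by omega)
      · have hne : u ≠ a := fun h => ha (h ▸ hu)
        simp only [g', if_neg hne]
        exact (hg1 u hu).trans (Nat.div_le_div_right (by omega))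
    · intro b hb
      rw [hD'] at hb
      rw [hfilter b]
      split_ifs with h1
      · subst h1
        right
        refine ⟨a, Finset.mem_insert_self _ _, ?_⟩
        rw [Finset.erase_insert hmem]
        exact hmod
      · by_cases h2 : b = D / R
        · exact absurd h2.symm h1
        · exact hg2 b h2
    · rw [hD', hfilter]
      by_cases h1 : D / R = (d a + D) / R
      · rw [if_pos h1, ← h1, Finset.sum_insert hmem]
        have h4 := Nat.div_add_mod D R
        have h5 := Nat.div_add_mod (d a + D) R
        rw [← h1] at h5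
        have h6 : (d a + D) % R = d a + D % R := by
          have : R * (D / R) + (d a + D) % R = d a + (R * (D / R) + D % R) := by omega
          omega
        rw [h6]
        omega
      · rw [if_neg h1]
        have h2 : (I.filter fun u => g u = (d a + D) / R) = ∅ := by
          rw [Finset.filter_eq_empty_iff]
          intro u hu hcon
          have h3 := hg1 u hu
          have h4 : D / R ≤ (d a + D) / R := Nat.div_le_div_right (by omega)
          omega
        rw [h2]
        simp

end Vale.Agent.Lib.P346
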