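import Vale.Agent.Lib.P346.HomDefs
import Vale.Agent.Lib.P346.Coef

/-!
Functional decomposition of a homogeneous five-layer circuit under an affine substitution.
-/

noncomputable section

open MvPolynomial Finset

set_option linter.unusedSectionVars false
set_option linter.unusedSimpArgs false
set_option linter.unusedVariables false

namespace Vale.Agent.Lib.P346

section dichotomy

variable {K : Type} [Field K] [Fintype K] {ι : Type} [Fintype ι]

/-- Either there are `R` independent vectors in a family, or all of them are controlled by fewer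
than `R` linear forms. -/
lemma rank_dichotomy {τ : Type} (a : τ → ι → K) (R : ℕ) :
    ∃ s : Option (Fin R → τ),
      (∀ s₀, s = some s₀ → LinearIndependent K (fun h => a (s₀ h))) ∧
      (s = none → ∃ r, r < R ∧ ∃ T : (ι → K) → Fin r → K, (∀ h, (fun x => T x h) ∈ VV K ι 1) ∧
        ∀ x x', T x = T x' → ∀ u, ∑ i, a u i * x i = ∑ i, a u i * x' i) := by
  classical
  obtain ⟨f, hf1, hf2, hf3⟩ := Submodule.exists_fun_fin_finrank_span_eq K (Set.range a)
  choose g hg using hf1
  by_cases hR : R ≤ Module.finrank K (Submodule.span K (Set.range a))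
  · refine ⟨some fun h => g (Fin.castLE hR h), ?_, by simp⟩
    rintro s₀ hs₀
    have h1 : s₀ = fun h => g (Fin.castLE hR h) := (Option.some.inj hs₀).symm
    subst h1
    have h2 := hf3.comp (Fin.castLE hR) (Fin.castLE_injective hR)
    have h3 : (fun h => a (g (Fin.castLE hR h))) = f ∘ Fin.castLE hR := by
      funext h
      simp [hg]
    rw [h3]
    exact h2
  · refine ⟨none, by simp, fun _ => ⟨_, not_le.1 hR, fun x h => ∑ i, f h i * x i, fun h => ?_, ?_⟩⟩
    · simpa using aff_mem_VV (f h) (0 : K)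
    · intro x x' hT u
      have h1 : a u ∈ Submodule.span K (Set.range f) := by
        rw [hf2]
        exact Submodule.subset_span ⟨u, rfl⟩
      obtain ⟨c, hc⟩ := (Submodule.mem_span_range_iff_exists_fun K).1 h1
      have h2 : ∀ y : ι → K, ∑ i, a u i * y i = ∑ h, c h * ∑ i, f h i * y i := by
        intro y
        rw [← hc]
        simp only [Finset.sum_apply, Pi.smul_apply, smul_eq_mul, Finset.sum_mul, Finset.mul_sum]
        rw [Finset.sum_comm]
        exact Finset.sum_congr rfl fun _ _ => Finset.sum_congr rfl fun _ _ => by ring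
      rw [h2 x, h2 x']
      refine Finset.sum_congr rfl fun h _ => ?_
      have h3 := congrFun hT h
      simp only at h3
      rw [h3]

end dichotomy

/-- The number of vectors in `K^R` with at most `b` zero coordinates. -/
def wcnt (K : Type) [Field K] [Fintype K] (R b : ℕ) : ℕ := by
  classical
  exact (univ.filter fun z : Fin R → K => (univ.filter fun h => z h = 0).card ≤ b).card

/-- Functions of degree at most `e` vanishing off `Bad`. -/
def KerOff {K : Type} [Field K] {ι : Type} (Bad : Set (ι → K)) (e : ℕ) :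
    Submodule K ((ι → K) → K) where
  carrier := {h | h ∈ VV K ι e ∧ ∀ x, x ∉ Bad → h x = 0}
  add_mem' := by
    rintro f g ⟨h1, h2⟩ ⟨h3, h4⟩
    exact ⟨Submodule.add_mem _ h1 h3, fun x hx => by simp [h2 x hx, h4 x hx]⟩
  zero_mem' := ⟨Submodule.zero_mem _, fun _ _ => rfl⟩
  smul_mem' := by
    rintro c f ⟨h1, h2⟩
    exact ⟨Submodule.smul_mem _ c h1, fun x hx => by simp [h2 x hx]⟩

section circuit

variable {K : Type} [Field K] {W ι J : Type} [Fintype ι] [Fintype J] [DecidableEq J]

/-- The substitution: a variable `v` goes to the value of an affine function at `x` plus a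
linear form in the cut variables. -/
def rho (σ : W → (ι → K) → K) (c : W → J → K) (x : ι → K) :
    MvPolynomial W K →ₐ[K] MvPolynomial J K :=
  aeval fun v => C (σ v x) + ∑ j, C (c v j) * X j

lemma constantCoeff_rho (σ : W → (ι → K) → K) (c : W → J → K) (x : ι → K)
    (p : MvPolynomial W K) :
    constantCoeff (rho σ c x p) = eval (fun v => σ v x) p := by
  induction p using MvPolynomial.induction_on with
  | C a => simp [rho]
  | add p r hp hr => simp [hp, hr]
  | mul_X p v hp =>
    rw [map_mul (rho σ c x), map_mul constantCoeff, hp, map_mul (eval _)]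
    simp [rho]

variable (D : SPSPSCircuit K W)

/-- The constant part of a bottom gate at `x`. -/
def yy (σ : W → (ι → K) → K) (j : D.S1) (x : ι → K) : K :=
  eval (fun v => σ v x) (D.poly1 j)

/-- The cut part of a leaf. -/
def leafL (c : W → J → K) (l : D.Leaf) : MvPolynomial J K :=
  match D.leaf l with
  | Sum.inl v => ∑ j, C (c v j) * X j
  | Sum.inr _ => 0

/-- The cut part of a bottom gate. -/
def LL (c : W → J → K) (j : D.S1) : MvPolynomial J K :=
  ∑ l, C (D.a1 j l) * leafL D c l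

lemma constantCoeff_leafL (c : W → J → K) (l : D.Leaf) : constantCoeff (leafL D c l) = 0 := by
  unfold leafL
  cases D.leaf l with
  | inl v => simp
  | inr a => simp

lemma constantCoeff_LL (c : W → J → K) (j : D.S1) : constantCoeff (LL D c j) = 0 := by
  simp [LL, constantCoeff_leafL]

lemma rho_leaf (σ : W → (ι → K) → K) (c : W → J → K) (x : ι → K) (l : D.Leaf) :
    rho σ c x (D.leafPoly l) = C (eval (fun v => σ v x) (D.leafPoly l)) + leafL D c l := by
  unfold SPSPSCircuit.leafPoly leafL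
  cases D.leaf l with
  | inl v => simp [rho]
  | inr a => simp [rho]

lemma rho_poly1 (σ : W → (ι → K) → K) (c : W → J → K) (x : ι → K) (j : D.S1) :
    rho σ c x (D.poly1 j) = C (yy D σ j x) + LL D c j := by
  unfold yy LL SPSPSCircuit.poly1
  simp only [map_sum, map_mul, rho_leaf, algHom_C, eval_C, mul_add, Finset.sum_add_distrib,
    algebraMap_eq, C_mul]

/-- Instances of inputs of a lower product gate. -/
abbrev Inst2 (i : D.P2) : Type := Σ j : D.S1, Fin (D.m2 i j)

/-- Instances of inputs of an upper product gate. -/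
abbrev Inst4 (i : D.P4) : Type := Σ j : D.S3, Fin (D.m4 i j)

lemma poly2_eq (i : D.P2) : D.poly2 i = ∏ u : Inst2 D i, D.poly1 u.1 := by
  unfold SPSPSCircuit.poly2
  rw [Fintype.prod_sigma]
  simp

lemma poly4_eq (i : D.P4) : D.poly4 i = ∏ u : Inst4 D i, D.poly3 u.1 := by
  unfold SPSPSCircuit.poly4
  rw [Fintype.prod_sigma]
  simp

lemma rho_poly2 (σ : W → (ι → K) → K) (c : W → J → K) (x : ι → K) (i : D.P2) :
    rho σ c x (D.poly2 i) = ∏ u : Inst2 D i, (C (yy D σ u.1 x) + LL D c u.1) := by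
  rw [poly2_eq, map_prod]
  exact Finset.prod_congr rfl fun u _ => rho_poly1 D σ c x u.1

lemma rho_poly3 (σ : W → (ι → K) → K) (c : W → J → K) (x : ι → K) (j : D.S3) :
    rho σ c x (D.poly3 j) = ∑ i, C (D.a3 j i) * rho σ c x (D.poly2 i) := by
  unfold SPSPSCircuit.poly3
  simp [map_sum, map_mul]

/-- A function is an affine form. -/
def IsAff (f : (ι → K) → K) : Prop := ∃ (a : ι → K) (b : K), ∀ x, f x = ∑ i, a i * x i + b

lemma cmul_mem_VV' {K ι : Type} [Field K] {d : ℕ} {f : (ι → K) → K} (c : K)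
    (hf : c ≠ 0 → f ∈ VV K ι d) : (fun x => c * f x) ∈ VV K ι d := by
  by_cases hc : c = 0
  · subst hc
    simpa using const_mem_VV (K := K) (ι := ι) 0 d
  · exact cmul_mem_VV c (hf hc)

lemma IsAff.const (b : K) : IsAff (fun _ : ι → K => b) :=
  ⟨0, b, fun x => by simp⟩

lemma IsAff.add {f g : (ι → K) → K} (hf : IsAff f) (hg : IsAff g) :
    IsAff (fun x => f x + g x) := by
  obtain ⟨a, b, hf⟩ := hf
  obtain ⟨a', b', hg⟩ := hg
  refine ⟨a + a', b + b', fun x => ?_⟩
  simp only [hf, hg, Pi.add_apply, add_mul, Finset.sum_add_distrib]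
  ring

lemma IsAff.cmul {f : (ι → K) → K} (c : K) (hf : IsAff f) : IsAff (fun x => c * f x) := by
  obtain ⟨a, b, hf⟩ := hf
  refine ⟨c • a, c * b, fun x => ?_⟩
  simp only [hf, Pi.smul_apply, smul_eq_mul, mul_add, Finset.mul_sum, mul_assoc]

lemma IsAff.sum {τ : Type} (s : Finset τ) {f : τ → (ι → K) → K} (hf : ∀ i ∈ s, IsAff (f i)) :
    IsAff (fun x => ∑ i ∈ s, f i x) := by
  classical
  induction s using Finset.induction_on with
  | empty => simpa using IsAff.const (ι := ι) (0 : K)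
  | insert u s hu ih =>
    have h1 := ih fun i hi => hf i (mem_insert_of_mem hi)
    have h2 := (hf u (mem_insert_self u s)).add h1
    simpa [sum_insert hu] using h2

lemma IsAff.mem_VV {f : (ι → K) → K} (hf : IsAff f) : f ∈ VV K ι 1 := by
  obtain ⟨a, b, hf⟩ := hf
  have : f = fun x => ∑ i, a i * x i + b := funext hf
  rw [this]
  exact aff_mem_VV a b

lemma yy_eq (σ : W → (ι → K) → K) (j : D.S1) (x : ι → K) :
    yy D σ j x = ∑ l, D.a1 j l * eval (fun v => σ v x) (D.leafPoly l) := by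
  unfold yy SPSPSCircuit.poly1
  simp [map_sum, map_mul]

lemma isAff_leaf (σ : W → (ι → K) → K) (hσ : ∀ v, IsAff (σ v)) (l : D.Leaf) :
    IsAff (fun x => eval (fun v => σ v x) (D.leafPoly l)) := by
  unfold SPSPSCircuit.leafPoly
  cases D.leaf l with
  | inl v => simpa using hσ v
  | inr a => simpa using IsAff.const (ι := ι) a

lemma isAff_yy (σ : W → (ι → K) → K) (hσ : ∀ v, IsAff (σ v)) (j : D.S1) :
    IsAff (yy D σ j) := by
  have : yy D σ j = fun x => ∑ l, D.a1 j l * eval (fun v => σ v x) (D.leafPoly l) :=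
    funext (yy_eq D σ j)
  rw [this]
  exact IsAff.sum _ fun l _ => (isAff_leaf D σ hσ l).cmul _


/-- Formal degrees of the gates, with top degree `n`. -/
structure Degs (n : ℕ) where
  d1 : D.S1 → ℕ
  d2 : D.P2 → ℕ
  d3 : D.S3 → ℕ
  h1 : ∀ i l, D.a1 i l ≠ 0 → d1 i = D.leafDeg l
  h2 : ∀ i, d2 i = ∑ j, D.m2 i j * d1 j
  h3 : ∀ i j, D.a3 i j ≠ 0 → d3 i = d2 j
  h5 : ∀ i, D.a5 i ≠ 0 → ∑ j, D.m4 i j * d3 j = n

variable {D}

lemma yy_mem_VV {n : ℕ} (dg : Degs D n) (σ : W → (ι → K) → K) (hσ : ∀ v, IsAff (σ v)) (j : D.S1) :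
    yy D σ j ∈ VV K ι (dg.d1 j) := by
  have : yy D σ j = fun x => ∑ l, D.a1 j l * eval (fun v => σ v x) (D.leafPoly l) :=
    funext (yy_eq D σ j)
  rw [this]
  refine sum_mem_VV _ fun l _ => cmul_mem_VV' _ ?_
  intro hne
  have h1 := dg.h1 j l hne
  unfold SPSPSCircuit.leafDeg at h1
  unfold SPSPSCircuit.leafPoly
  cases hl : D.leaf l with
  | inl v =>
    rw [hl] at h1
    simp only at h1
    rw [h1]
    simpa using (hσ v).mem_VV
  | inr a =>
    simpa using const_mem_VV (K := K) (ι := ι) a _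

lemma cfDeg_poly1 {n : ℕ} (dg : Degs D n) (σ : W → (ι → K) → K) (hσ : ∀ v, IsAff (σ v))
    (c : W → J → K) (j : D.S1) :
    CfDeg (fun x => rho σ c x (D.poly1 j)) (dg.d1 j) := by
  simp only [rho_poly1]
  exact cfDeg_C_add (yy_mem_VV dg σ hσ j) _ (constantCoeff_LL D c j)

lemma cfDeg_poly2 {n : ℕ} (dg : Degs D n) (σ : W → (ι → K) → K) (hσ : ∀ v, IsAff (σ v))
    (c : W → J → K) (i : D.P2) :
    CfDeg (fun x => rho σ c x (D.poly2 i)) (dg.d2 i) := by
  simp only [poly2_eq, map_prod]
  have h1 := CfDeg.prod (univ : Finset (Inst2 D i)) (d := fun u => dg.d1 u.1)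
    (P := fun u x => rho σ c x (D.poly1 u.1)) (fun u _ => cfDeg_poly1 dg σ hσ c u.1)
  convert h1 using 1
  rw [dg.h2, Fintype.sum_sigma]
  simp

lemma cfDeg_poly3 {n : ℕ} (dg : Degs D n) (σ : W → (ι → K) → K) (hσ : ∀ v, IsAff (σ v))
    (c : W → J → K) (j : D.S3) :
    CfDeg (fun x => rho σ c x (D.poly3 j)) (dg.d3 j) := by
  intro β
  simp only [rho_poly3, cf_sum, cf_C_mul]
  refine sum_mem_VV _ fun i _ => cmul_mem_VV' _ ?_
  intro hne
  rw [dg.h3 j i hne]
  exact cfDeg_poly2 dg σ hσ c i β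

/-- The exceptional set defined by a selection of independent instances. -/
def BadSet {R : ℕ → ℕ} (σ : W → (ι → K) → K)
    (sel : ∀ (i : D.P2) (b : ℕ), Option (Fin (R b) → Inst2 D i)) : Set (ι → K) := by
  classical
  exact {x | ∃ (i : D.P2) (b : ℕ), b ≤ Fintype.card J ∧ ∃ s₀, sel i b = some s₀ ∧
    (univ.filter fun h => yy D σ (s₀ h).1 x = 0).card ≤ b}

end circuit

section agree

variable {K : Type} [Field K] [Fintype K] {W ι J : Type} [Fintype ι] [Fintype J] [DecidableEq J]
variable {D : SPSPSCircuit K W}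

/-- Selection data: independence of chosen instances, or few linear forms control everything. -/
structure SelData (R : ℕ → ℕ) (A : D.S1 → ι → K) where
  sel : ∀ (i : D.P2) (b : ℕ), Option (Fin (R b) → Inst2 D i)
  indep : ∀ i b s₀, sel i b = some s₀ → LinearIndependent K (fun h => A (s₀ h).1)
  few : ∀ i b, sel i b = none → ∃ r, r < R b ∧ ∃ T : (ι → K) → Fin r → K,
    (∀ h, (fun x => T x h) ∈ VV K ι 1) ∧
    ∀ x x', T x = T x' → ∀ u : Inst2 D i, ∑ l, A u.1 l * x l = ∑ l, A u.1 l * x' l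

lemma exists_selData (R : ℕ → ℕ) (A : D.S1 → ι → K) : Nonempty (SelData (D := D) R A) := by
  have h := fun (i : D.P2) (b : ℕ) => rank_dichotomy (fun u : Inst2 D i => A u.1) (R b)
  choose sel h1 h2 using h
  exact ⟨⟨sel, h1, h2⟩⟩

lemma agree_poly2 {R : ℕ → ℕ} {σ : W → (ι → K) → K} {A : D.S1 → ι → K} {B : D.S1 → K}
    (hAB : ∀ j x, yy D σ j x = ∑ l, A j l * x l + B j) (sd : SelData (D := D) R A)
    (c : W → J → K) (i : D.P2) (β : Finset J) :
    AgreeOff (BadSet (J := J) σ sd.sel) ((Fintype.card K - 1) * R β.card)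
      (fun x => cf β (rho σ c x (D.poly2 i))) := by
  classical
  have hb : β.card ≤ Fintype.card J := by
    exact Finset.card_le_univ β
  cases hs : sd.sel i β.card with
  | none =>
    obtain ⟨r, hr, T, hT1, hT2⟩ := sd.few i _ hs
    refine AgreeOff.of_mem (VV_mono (Nat.mul_le_mul_left _ hr.le) ?_)
    refine mem_VV_of_factor T hT1 _ fun x x' hxx => ?_
    have h1 : rho σ c x (D.poly2 i) = rho σ c x' (D.poly2 i) := by
      rw [rho_poly2, rho_poly2]
      refine Finset.prod_congr rfl fun u _ => ?_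
      rw [hAB, hAB, hT2 x x' hxx u]
    rw [h1]
  | some s₀ =>
    refine ⟨0, Submodule.zero_mem _, fun x hx => ?_⟩
    have hzeros : β.card < (univ.filter fun h => yy D σ (s₀ h).1 x = 0).card := by
      by_contra hcon
      apply hx
      have hcon' := not_lt.1 hcon
      refine ⟨i, β.card, hb, s₀, hs, ?_⟩
      convert hcon'
    have hinj : Function.Injective s₀ := by
      have h1 := (sd.indep i _ s₀ hs).injective
      exact Function.Injective.of_comp (f := fun u : Inst2 D i => A u.1) h1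
    show cf β (rho σ c x (D.poly2 i)) = 0
    rw [rho_poly2]
    refine cf_prod_eq_zero univ (fun u : Inst2 D i => yy D σ u.1 x) (fun u => LL D c u.1)
      (fun u => constantCoeff_LL D c u.1) β
      ((univ.filter fun h => yy D σ (s₀ h).1 x = 0).image s₀) (Finset.subset_univ _) ?_ ?_
    · intro u hu
      obtain ⟨h, hh, rfl⟩ := Finset.mem_image.1 hu
      exact (Finset.mem_filter.1 hh).2
    · rw [Finset.card_image_of_injective _ hinj]
      exact hzeros

lemma agree_poly3 {R : ℕ → ℕ} {σ : W → (ι → K) → K} {A : D.S1 → ι → K} {B : D.S1 → K}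
    (hAB : ∀ j x, yy D σ j x = ∑ l, A j l * x l + B j) (sd : SelData (D := D) R A)
    (c : W → J → K) (j : D.S3) (β : Finset J) :
    AgreeOff (BadSet (J := J) σ sd.sel) ((Fintype.card K - 1) * R β.card)
      (fun x => cf β (rho σ c x (D.poly3 j))) := by
  simp only [rho_poly3, cf_sum, cf_C_mul]
  exact AgreeOff.sum _ fun i _ => (agree_poly2 hAB sd c i β).cmul _

open scoped Classical in
lemma agree_block {n R₀ : ℕ} (dg : Degs D n) {σ : W → (ι → K) → K} (hσ : ∀ v, IsAff (σ v))
    {A : D.S1 → ι → K} {B : D.S1 → K}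
    (hAB : ∀ j x, yy D σ j x = ∑ l, A j l * x l + B j)
    (sd : SelData (D := D) (fun b => R₀ + 4 * Fintype.card K * b) A)
    (c : W → J → K) (i : D.P4) (M : Finset (Inst4 D i))
    (hM : M = ∅ ∨ ∃ v ∈ M, ∑ u ∈ M.erase v, dg.d3 u.1 < R₀)
    (β : Finset J) (hβ : β ≠ ∅) :
    AgreeOff (BadSet (J := J) σ sd.sel)
      (β.card * (Fintype.card K * R₀ + 4 * Fintype.card K * (Fintype.card K - 1)))
      (fun x => cf β (∏ u ∈ M, rho σ c x (D.poly3 u.1))) := by
  classical
  rcases hM with rfl | ⟨v, hv, hsum⟩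
  · simpa using AgreeOff.of_mem (Bad := BadSet (J := J) σ sd.sel)
      (const_mem_VV (K := K) (ι := ι) (cf β (1 : MvPolynomial J K)) _)
  · have h1 : ∀ x, ∏ u ∈ M, rho σ c x (D.poly3 u.1) =
        rho σ c x (D.poly3 v.1) * ∏ u ∈ M.erase v, rho σ c x (D.poly3 u.1) := fun x =>
      (Finset.mul_prod_erase M _ hv).symm
    simp only [h1, cf_mul]
    refine AgreeOff.sum _ fun β' hβ' => ?_
    have hsub : β' ⊆ β := Finset.mem_powerset.1 hβ'
    have h2 := agree_poly3 hAB sd c v.1 β'
    have h3 := CfDeg.prod (M.erase v) (d := fun u => dg.d3 u.1)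
      (P := fun u x => rho σ c x (D.poly3 u.1)) (fun u _ => cfDeg_poly3 dg σ hσ c u.1) (β \ β')
    have h4 := h2.mul (AgreeOff.of_mem h3)
    refine h4.mono ?_
    have hq : 1 ≤ Fintype.card K := Fintype.card_pos
    obtain ⟨q', hq'⟩ : ∃ q', Fintype.card K = q' + 1 := ⟨Fintype.card K - 1, by omega⟩
    rw [hq']
    simp only [Nat.add_sub_cancel]
    have h5 : β'.card ≤ β.card := Finset.card_le_card hsub
    have h6 : 1 ≤ β.card := Finset.card_pos.2 (Finset.nonempty_iff_ne_empty.2 hβ)
    obtain ⟨b', hb'⟩ : ∃ b', β.card = b' + 1 := ⟨β.card - 1, by omega⟩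
    rw [hb'] at h5 ⊢
    have h7 : q' * (R₀ + 4 * (q' + 1) * β'.card) ≤ q' * (R₀ + 4 * (q' + 1) * (b' + 1)) :=
      Nat.mul_le_mul_left _ (by nlinarith)
    have h8 : ∑ u ∈ M.erase v, dg.d3 u.1 ≤ R₀ := hsum.le
    nlinarith [Nat.zero_le (b' * ((q' + 1) * R₀)), Nat.zero_le (q' * R₀)]

end agree

section main

variable {K : Type} [Field K] [Fintype K] {W ι J : Type} [Fintype ι] [Fintype J] [DecidableEq J]
variable {D : SPSPSCircuit K W}

lemma rho_output (σ : W → (ι → K) → K) (c : W → J → K) (x : ι → K) :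
    rho σ c x D.output = ∑ i, C (D.a5 i) * ∏ u : Inst4 D i, rho σ c x (D.poly3 u.1) := by
  unfold SPSPSCircuit.output
  simp only [map_sum, map_mul, algHom_C, poly4_eq, map_prod, algebraMap_eq]

open scoped Classical in
lemma exists_block_map {n : ℕ} (dg : Degs D n) (R₀ m : ℕ) (hR₀ : 0 < R₀) (hm : n / R₀ < m)
    (i : D.P4) :
    ∃ g : Inst4 D i → Fin m, D.a5 i ≠ 0 → ∀ b : Fin m,
      (univ.filter fun u => g u = b) = ∅ ∨ ∃ v ∈ univ.filter (fun u => g u = b),
        ∑ u ∈ (univ.filter fun u => g u = b).erase v, dg.d3 u.1 < R₀ := by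
  classical
  by_cases ha : D.a5 i ≠ 0
  · have hsum : ∑ u : Inst4 D i, dg.d3 u.1 = n := by
      have h0 := dg.h5 i ha
      rw [Fintype.sum_sigma]
      simpa using h0
    obtain ⟨g, hg1, hg2, hg3⟩ := exists_buckets R₀ hR₀ (fun u : Inst4 D i => dg.d3 u.1) univ
    rw [hsum] at hg1 hg2 hg3
    have hlt : ∀ u : Inst4 D i, g u < m := fun u => lt_of_le_of_lt (hg1 u (mem_univ _)) hm
    refine ⟨fun u => ⟨g u, hlt u⟩, fun _ b => ?_⟩
    have hf : (univ.filter fun u => (⟨g u, hlt u⟩ : Fin m) = b) = univ.filter fun u => g u = b := by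
      ext u
      simp [Fin.ext_iff]
    rw [hf]
    by_cases hb : (b : ℕ) = n / R₀
    · by_cases he : (univ.filter fun u => g u = (b : ℕ)) = ∅
      · exact Or.inl he
      · obtain ⟨v, hv⟩ := Finset.nonempty_iff_ne_empty.2 he
        refine Or.inr ⟨v, hv, ?_⟩
        have h1 : ∑ u ∈ (univ.filter fun u => g u = (b : ℕ)).erase v, dg.d3 u.1 ≤
            ∑ u ∈ univ.filter (fun u => g u = (b : ℕ)), dg.d3 u.1 :=
          Finset.sum_le_sum_of_subset (Finset.erase_subset _ _)
        rw [hb] at h1 hv ⊢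
        exact lt_of_le_of_lt (h1.trans hg3) (Nat.mod_lt _ hR₀)
    · exact hg2 b hb
  · exact ⟨fun _ => ⟨0, lt_of_le_of_lt (Nat.zero_le _) hm⟩, fun h => absurd h ha⟩

/-- The weighted count of the fibres. -/
lemma kerOff_le {R : ℕ → ℕ} {σ : W → (ι → K) → K} {A : D.S1 → ι → K} {B : D.S1 → K}
    (hAB : ∀ j x, yy D σ j x = ∑ l, A j l * x l + B j) (sd : SelData (D := D) R A) (e : ℕ) :
    Module.finrank K (KerOff (BadSet (J := J) σ sd.sel) e) ≤
      Fintype.card D.P2 * ∑ b ∈ range (Fintype.card J + 1),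
        wcnt K (R b) b * cnt K (Fin (Fintype.card ι - R b)) e := by
  classical
  let Z : ℕ → Type := fun b => {z : Fin (R b) → K // (univ.filter fun h => z h = 0).card ≤ b}
  let α : Type := D.P2 × (Σ b : Fin (Fintype.card J + 1), Z b)
  have hfib : ∀ (i : D.P2) (b : ℕ) (z : Fin (R b) → K),
      ∃ ψ : (Fin (Fintype.card ι - R b) → K) → (ι → K),
        (∀ l, (fun y => ψ y l) ∈ VV K (Fin (Fintype.card ι - R b)) 1) ∧
        ∀ s₀, sd.sel i b = some s₀ → ∀ x, (∀ h, yy D σ (s₀ h).1 x = z h) → ∃ y, ψ y = x := by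
    intro i b z
    cases hs : sd.sel i b with
    | none =>
      exact ⟨fun _ _ => 0, fun l => const_mem_VV (K := K) 0 1, fun s₀ h0 => by simp at h0⟩
    | some s₁ =>
      have hLI : LinearIndependent K (Matrix.of fun h l => A (s₁ h).1 l).row := sd.indep i b s₁ hs
      obtain ⟨ψ, h1, h2⟩ := fiber_param (Matrix.of fun h l => A (s₁ h).1 l) hLI
        (fun h => B (s₁ h).1) z
      refine ⟨ψ, h1, fun s₀ h0 x hx => ?_⟩
      have h3 : s₀ = s₁ := (Option.some.inj h0).symm
      subst h3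
      refine h2 x fun h => ?_
      have := hx h
      rw [hAB] at this
      simpa using this
  choose ψ hψ1 hψ2 using hfib
  have h1 := finrank_le_sum_of_cover (K := K) (ι := ι) (α := α)
    (fun a => Fintype.card ι - R a.2.1)
    (fun a => ψ a.1 a.2.1 a.2.2.1) (fun a l => hψ1 a.1 a.2.1 a.2.2.1 l) e
    (KerOff (BadSet (J := J) σ sd.sel) e) (fun h hh => hh.1) (by
      intro h hh hzero
      funext x
      by_cases hx : x ∈ BadSet (J := J) σ sd.sel
      · obtain ⟨i, b, hb, s₀, hs, hcard⟩ := hx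
        have hz : (univ.filter fun h => (fun h => yy D σ (s₀ h).1 x) h = 0).card ≤ b := by
          convert hcard
        obtain ⟨y, hy⟩ := hψ2 i b (fun h => yy D σ (s₀ h).1 x) s₀ hs x (fun _ => rfl)
        have := hzero (i, ⟨⟨b, Nat.lt_succ_of_le hb⟩, ⟨fun h => yy D σ (s₀ h).1 x, hz⟩⟩) y
        simp only at this
        rw [hy] at this
        exact this
      · exact hh.2 x hx)
  refine h1.trans (le_of_eq ?_)
  have e1 : ∀ (Y : Type) [Fintype Y] (f : Y → ℕ),
      ∑ a : D.P2 × Y, f a.2 = Fintype.card D.P2 * ∑ y, f y := by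
    intro Y _ f
    rw [Fintype.sum_prod_type]
    simp
  have e2 : ∀ (k : ℕ) (Z' : ℕ → Type) [∀ b, Fintype (Z' b)] (f : ℕ → ℕ),
      ∑ y : (Σ b : Fin k, Z' b), f y.1 = ∑ b ∈ range k, Fintype.card (Z' b) * f b := by
    intro k Z' _ f
    rw [Fintype.sum_sigma, ← Fin.sum_univ_eq_sum_range (fun b => Fintype.card (Z' b) * f b)]
    simp
  refine (e1 (Σ b : Fin (Fintype.card J + 1), Z b)
    (fun y => cnt K (Fin (Fintype.card ι - R y.1)) e)).trans ?_
  congr 1
  refine (e2 (Fintype.card J + 1) Z (fun b => cnt K (Fin (Fintype.card ι - R b)) e)).trans ?_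
  refine Finset.sum_congr rfl fun b _ => ?_
  congr 1
  simp only [Z, Fintype.card_subtype, wcnt]

/-- The decomposition of a homogeneous circuit under the substitution. -/
theorem circuit_decomposition {n : ℕ} (dg : Degs D n) (σ : W → (ι → K) → K)
    (hσ : ∀ v, IsAff (σ v)) (R₀ m : ℕ) (hR₀ : 0 < R₀) (hm : n / R₀ < m) :
    ∃ (Bad : Set (ι → K)) (G : D.P4 × Finset (Fin m) → (ι → K) → K),
      (∀ e, Module.finrank K (KerOff Bad e) ≤
        Fintype.card D.P2 * ∑ b ∈ range (Fintype.card J + 1),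
          wcnt K (R₀ + 4 * Fintype.card K * b) b *
            cnt K (Fin (Fintype.card ι - (R₀ + 4 * Fintype.card K * b))) e) ∧
      ∀ c : W → J → K, ∃ q : D.P4 × Finset (Fin m) → (ι → K) → K,
        (∀ a, q a ∈ VV K ι (Fintype.card J *
          (Fintype.card K * R₀ + 4 * Fintype.card K * (Fintype.card K - 1)))) ∧
        ∀ x, x ∉ Bad → cf univ (rho σ c x D.output) = ∑ a, G a x * q a x := by
  classical
  have hy := fun j => isAff_yy D σ hσ j
  choose A B hAB using hy
  obtain ⟨sd⟩ := exists_selData (D := D) (ι := ι) (fun b => R₀ + 4 * Fintype.card K * b) A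
  choose g hg using fun i => exists_block_map dg R₀ m hR₀ hm i
  refine ⟨BadSet (J := J) σ sd.sel,
    fun a x => D.a5 a.1 * ∏ b ∈ univ \ a.2,
      eval (fun v => σ v x) (∏ u ∈ univ.filter (fun u => g a.1 u = b), D.poly3 u.1),
    fun e => kerOff_le hAB sd e, fun c => ?_⟩
  have key : ∀ i : D.P4, ∃ q : Finset (Fin m) → (ι → K) → K,
      (∀ T, q T ∈ VV K ι (Fintype.card J *
          (Fintype.card K * R₀ + 4 * Fintype.card K * (Fintype.card K - 1)))) ∧
      ∀ x, x ∉ BadSet (J := J) σ sd.sel → D.a5 i ≠ 0 →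
        cf univ (∏ u : Inst4 D i, rho σ c x (D.poly3 u.1)) =
          ∑ T : Finset (Fin m), (∏ b ∈ univ \ T,
            eval (fun v => σ v x) (∏ u ∈ univ.filter (fun u => g i u = b), D.poly3 u.1)) *
              q T x := by
    intro i
    by_cases ha : D.a5 i ≠ 0
    · have h1 := cf_prod_blocks (B := Fin m)
        (fun b x => ∏ u ∈ univ.filter (fun u => g i u = b), rho σ c x (D.poly3 u.1))
        (BadSet (J := J) σ sd.sel)
        (Fintype.card K * R₀ + 4 * Fintype.card K * (Fintype.card K - 1))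
        (fun b β hβ => agree_block dg hσ hAB sd c i _ (hg i ha b) β hβ) univ univ
      obtain ⟨q, hq1, hq2⟩ := h1
      refine ⟨q, ?_, fun x hx _ => ?_⟩
      · intro T
        have := hq1 T
        simpa using this
      · have h2 := hq2 x hx
        have h3 : ∏ u : Inst4 D i, rho σ c x (D.poly3 u.1) = ∏ b : Fin m,
            ∏ u ∈ univ.filter (fun u => g i u = b), rho σ c x (D.poly3 u.1) :=
          (Finset.prod_fiberwise _ _ _).symm
        rw [h3, h2, Finset.powerset_univ]
        refine Finset.sum_congr rfl fun T _ => ?_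
        congr 1
        refine Finset.prod_congr rfl fun b _ => ?_
        rw [cf_empty_eq, ← map_prod, constantCoeff_rho]
    · exact ⟨fun _ _ => 0, fun _ => Submodule.zero_mem _, fun x _ h => absurd h ha⟩
  choose q hq1 hq2 using key
  refine ⟨fun a => q a.1 a.2, fun a => hq1 a.1 a.2, fun x hx => ?_⟩
  rw [rho_output, cf_sum, Fintype.sum_prod_type]
  refine Finset.sum_congr rfl fun i _ => ?_
  rw [cf_C_mul]
  by_cases ha : D.a5 i ≠ 0
  · rw [hq2 i x hx ha, Finset.mul_sum]
    refine Finset.sum_congr rfl fun T _ => ?_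
    ring
  · have h0 : D.a5 i = 0 := not_not.1 ha
    simp [h0]

end main


end Vale.Agent.Lib.P346
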