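import Mathlib

/-!
# Depth-five circuits and iterated matrix multiplication

Definitions for problem P346: the polynomial `IMM_{w,d}` and sum-product-sum-product-sum circuits
(five layers, edges only between consecutive layers, bottom sums reading leaves), with size equal
to the number of vertices.
-/

namespace Vale.Agent.Lib.P346

open MvPolynomial

/-- The variables `x^{(k)}_{i,j}` of `IMM_{w,d}`: `k : Fin d`, `i j : Fin w`. -/
abbrev ImmVar (w d : ℕ) : Type := Fin d × Fin w × Fin w

/-- The generic matrix `X^{(k)}` of `IMM_{w,d}`. -/
noncomputable def immMatrix (K : Type) [Field K] (w d : ℕ) (k : Fin d) :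
    Matrix (Fin w) (Fin w) (MvPolynomial (ImmVar w d) K) :=
  fun i j => X (k, i, j)

/-- The polynomial `IMM_{w,d} = (X^{(1)} ⋯ X^{(d)})_{1,1}`; the first index is `⟨0, hw⟩`. -/
noncomputable def imm (K : Type) [Field K] (w d : ℕ) (hw : 0 < w) :
    MvPolynomial (ImmVar w d) K :=
  (List.ofFn (immMatrix K w d)).prod ⟨0, hw⟩ ⟨0, hw⟩

/-- A five-layer circuit of type `+, ×, +, ×, +` from the output down, over the field `K`, on the
variables `V`. A coefficient `0` or a multiplicity `0` means that the edge is absent; the top
sum gate (the output) has the gates of `P4` as inputs. No homogeneity is required. -/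
structure SPSPSCircuit (K : Type) [Field K] (V : Type) where
  /-- leaves -/
  Leaf : Type
  /-- bottom sum gates -/
  S1 : Type
  /-- lower product gates -/
  P2 : Type
  /-- middle sum gates -/
  S3 : Type
  /-- upper product gates -/
  P4 : Type
  [fintypeLeaf : Fintype Leaf]
  [fintypeS1 : Fintype S1]
  [fintypeP2 : Fintype P2]
  [fintypeS3 : Fintype S3]
  [fintypeP4 : Fintype P4]
  /-- each leaf is a variable or a field element -/
  leaf : Leaf → V ⊕ K
  /-- coefficients of the bottom sums -/
  a1 : S1 → Leaf → K
  /-- multiplicities of the inputs of the lower product gates -/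
  m2 : P2 → S1 → ℕ
  /-- coefficients of the middle sums -/
  a3 : S3 → P2 → K
  /-- multiplicities of the inputs of the upper product gates -/
  m4 : P4 → S3 → ℕ
  /-- coefficients of the top sum -/
  a5 : P4 → K

attribute [instance] SPSPSCircuit.fintypeLeaf SPSPSCircuit.fintypeS1 SPSPSCircuit.fintypeP2
  SPSPSCircuit.fintypeS3 SPSPSCircuit.fintypeP4

namespace SPSPSCircuit

variable {K : Type} [Field K] {V : Type} (D : SPSPSCircuit K V)

/-- The polynomial at a leaf. -/
noncomputable def leafPoly (l : D.Leaf) : MvPolynomial V K :=
  match D.leaf l with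
  | Sum.inl v => X v
  | Sum.inr c => C c

/-- The polynomial at a bottom sum gate. -/
noncomputable def poly1 (i : D.S1) : MvPolynomial V K :=
  ∑ l, C (D.a1 i l) * D.leafPoly l

/-- The polynomial at a lower product gate. -/
noncomputable def poly2 (i : D.P2) : MvPolynomial V K :=
  ∏ j, D.poly1 j ^ D.m2 i j

/-- The polynomial at a middle sum gate. -/
noncomputable def poly3 (i : D.S3) : MvPolynomial V K :=
  ∑ j, C (D.a3 i j) * D.poly2 j

/-- The polynomial at an upper product gate. -/
noncomputable def poly4 (i : D.P4) : MvPolynomial V K :=
  ∏ j, D.poly3 j ^ D.m4 i j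

/-- The polynomial computed by the circuit (the top sum gate). -/
noncomputable def output : MvPolynomial V K :=
  ∑ i, C (D.a5 i) * D.poly4 i

/-- The size: the number of vertices (leaves, gates of the four lower layers, the output gate). -/
noncomputable def size : ℕ :=
  Fintype.card D.Leaf + Fintype.card D.S1 + Fintype.card D.P2 + Fintype.card D.S3 +
    Fintype.card D.P4 + 1

end SPSPSCircuit

end Vale.Agent.Lib.P346
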