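import Vale.Agent.Lib.P346.FinalNum

/-!
Assembly of the lower bound.
-/

noncomputable section

open Finset

set_option linter.unusedSectionVars false
set_option linter.unusedSimpArgs false
set_option linter.unusedVariables false

namespace Vale.Agent.Lib.P346

lemma final_contra {l q Ks m : ℕ} {E₁ s T : ℝ} (hE0 : 0 ≤ E₁) (hE1 : E₁ ≤ l)
    (hE2 : 8 * (l : ℝ) ≤ Real.exp (E₁ / 2)) (hs0 : 0 ≤ s) (hs : s ≤ Real.exp (E₁ / 4))
    (hT0 : 0 ≤ T)
    (hA : Real.exp (-(E₁ / 4)) ≤ l * (s * 2 ^ m * T + s * (4 * Real.exp (-E₁))))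
    (hT : T ≤ (1 / 2) ^ (6 * q * Ks)) (hm : 3 * l + m + 2 ≤ 6 * q * Ks) (hl : 1 ≤ l) : False := by
  have hlR : (1 : ℝ) ≤ l := by exact_mod_cast hl
  set X := Real.exp (E₁ / 4) with hX
  have hX0 : 0 < X := Real.exp_pos _
  have hXX : X * X = Real.exp (E₁ / 2) := by
    rw [hX, ← Real.exp_add]
    congr 1
    ring
  have h1 : Real.exp (-(E₁ / 4)) * X = 1 := by
    rw [hX, ← Real.exp_add]
    simp
  have h2 : Real.exp (-E₁) * (X * X) * (X * X) = 1 := by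
    rw [hXX, mul_assoc, ← Real.exp_add, ← Real.exp_add]
    have : E₁ / 2 + E₁ / 2 + -E₁ = 0 := by ring
    have h3 : -E₁ + (E₁ / 2 + E₁ / 2) = 0 := by ring
    rw [h3]
    simp
  have hA2 : 1 ≤ X * (l * (s * 2 ^ m * T + s * (4 * Real.exp (-E₁)))) := by
    have := mul_le_mul_of_nonneg_left hA hX0.le
    rw [mul_comm X, h1] at this
    exact this
  have hee : 0 < Real.exp (-E₁) := Real.exp_pos _
  have hexp : Real.exp (E₁ / 2) ≤ 2 ^ (2 * l) := by
    have h3 : Real.exp (E₁ / 2) ≤ Real.exp l := Real.exp_le_exp.2 (by linarith)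
    have h4 : Real.exp l = Real.exp 1 ^ l := by
      rw [← Real.exp_nat_mul]
      simp
    have h5 : Real.exp 1 ≤ 4 := by
      have := Real.exp_one_lt_d9
      linarith
    have h6 : Real.exp 1 ^ l ≤ 4 ^ l := pow_le_pow_left₀ (Real.exp_pos _).le h5 l
    have h7 : (2 : ℝ) ^ (2 * l) = 4 ^ l := by
      rw [pow_mul]
      norm_num
    rw [h7]
    linarith
  have hlpow : (l : ℝ) ≤ 2 ^ l := by
    have : l < 2 ^ l := Nat.lt_two_pow_self
    exact_mod_cast this.le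
  -- first term
  have hterm1 : X * (l * (s * 2 ^ m * T)) ≤ 1 / 4 := by
    have h3 : s * X ≤ X * X := by
      rw [mul_comm s X]
      exact mul_le_mul_of_nonneg_left hs hX0.le
    have h4 : X * (l * (s * 2 ^ m * T)) = (s * X) * (l * 2 ^ m * T) := by ring
    rw [h4]
    have h5 : (s * X) * (l * 2 ^ m * T) ≤ (2 ^ (2 * l)) * (2 ^ l * 2 ^ m * (1 / 2) ^ (6 * q * Ks)) := by
      refine mul_le_mul (h3.trans (hXX ▸ hexp)) ?_ (by positivity) (by positivity)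
      refine mul_le_mul (mul_le_mul_of_nonneg_right hlpow (by positivity)) hT hT0 (by positivity)
    refine h5.trans ?_
    have h6 : (2 : ℝ) ^ (2 * l) * (2 ^ l * 2 ^ m) = 2 ^ (3 * l + m) := by
      rw [← pow_add, ← pow_add]
      congr 1
      ring
    have h7 : (2 : ℝ) ^ (2 * l) * (2 ^ l * 2 ^ m * (1 / 2) ^ (6 * q * Ks)) =
        2 ^ (3 * l + m) * (1 / 2) ^ (6 * q * Ks) := by
      rw [← h6]
      ring
    rw [h7]
    obtain ⟨d, hd⟩ : ∃ d, 6 * q * Ks = 3 * l + m + 2 + d := ⟨6 * q * Ks - (3 * l + m + 2), by omega⟩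
    have hd2 : (1 / 2 : ℝ) ^ (6 * q * Ks) = (1 / 2) ^ (3 * l + m) * (1 / 2) ^ 2 * (1 / 2) ^ d := by
      rw [hd, pow_add, pow_add]
    rw [hd2]
    have h8 : (2 : ℝ) ^ (3 * l + m) * (1 / 2) ^ (3 * l + m) = 1 := by
      rw [← mul_pow]
      norm_num
    have h9 : (1 / 2 : ℝ) ^ d ≤ 1 := pow_le_one₀ (by norm_num) (by norm_num)
    have h10 : (2 : ℝ) ^ (3 * l + m) * ((1 / 2) ^ (3 * l + m) * (1 / 2) ^ 2 * (1 / 2) ^ d) =
        ((2 : ℝ) ^ (3 * l + m) * (1 / 2) ^ (3 * l + m)) * (1 / 4) * (1 / 2) ^ d := by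
      norm_num
      ring
    rw [h10, h8]
    nlinarith
  -- second term
  have hterm2 : X * (l * (s * (4 * Real.exp (-E₁)))) ≤ 1 / 2 := by
    have h3 : s * X ≤ X * X := by
      rw [mul_comm s X]
      exact mul_le_mul_of_nonneg_left hs hX0.le
    have h4 : X * (l * (s * (4 * Real.exp (-E₁)))) = (s * X) * (4 * l * Real.exp (-E₁)) := by ring
    rw [h4]
    have h5 : (s * X) * (4 * l * Real.exp (-E₁)) ≤ (X * X) * (4 * l * Real.exp (-E₁)) :=
      mul_le_mul_of_nonneg_right h3 (by positivity)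
    refine h5.trans ?_
    have h6 : 8 * (l : ℝ) ≤ X * X := by rw [hXX]; exact hE2
    have h7 : (X * X) * (4 * l * Real.exp (-E₁)) = 4 * l * (Real.exp (-E₁) * (X * X)) := by ring
    rw [h7]
    have h8 : Real.exp (-E₁) * (X * X) * (X * X) = 1 := h2
    set Y := Real.exp (-E₁) * (X * X) with hY
    have hY0 : 0 < Y := by positivity
    have h9 : Y * (8 * l) ≤ Y * (X * X) := mul_le_mul_of_nonneg_left h6 hY0.le
    rw [h8] at h9
    nlinarith
  have htotal : X * (l * (s * 2 ^ m * T + s * (4 * Real.exp (-E₁)))) =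
      X * (l * (s * 2 ^ m * T)) + X * (l * (s * (4 * Real.exp (-E₁)))) := by ring
  rw [htotal] at hA2
  linarith

lemma a_times_P {q : ℕ} (hq : 2 ≤ q) :
    ((2 / 3 : ℝ) ^ (100 * q)) * ((100 * q * (33 * 2 ^ (36 * q + 1)) : ℕ) : ℝ) ≤ 1 / 4 := by
  push_cast
  have h1 : ((2 / 3 : ℝ) ^ 100 * 2 ^ 36) ≤ 1 / 2 ^ 22 := by norm_num
  have h2 : (2 / 3 : ℝ) ^ (100 * q) * 2 ^ (36 * q) ≤ (1 / 2 ^ 22) ^ q := by
    rw [pow_mul, pow_mul, ← mul_pow]
    exact pow_le_pow_left₀ (by positivity) h1 q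
  have h3 : ((q : ℝ)) ≤ 2 ^ q := by
    have : q < 2 ^ q := Nat.lt_two_pow_self
    exact_mod_cast this.le
  have h4 : (2 / 3 : ℝ) ^ (100 * q) * (100 * q * (33 * 2 ^ (36 * q + 1))) =
      6600 * (q : ℝ) * ((2 / 3 : ℝ) ^ (100 * q) * 2 ^ (36 * q)) := by
    rw [pow_succ]
    ring
  rw [h4]
  have h5 : 6600 * (q : ℝ) * ((2 / 3 : ℝ) ^ (100 * q) * 2 ^ (36 * q)) ≤
      6600 * 2 ^ q * (1 / 2 ^ 22) ^ q := by
    refine mul_le_mul (mul_le_mul_of_nonneg_left h3 (by norm_num)) h2 (by positivity) (by positivity)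
  refine h5.trans ?_
  have h6 : (6600 : ℝ) * 2 ^ q * (1 / 2 ^ 22) ^ q = 6600 * (1 / 2 ^ 21) ^ q := by
    rw [mul_assoc, ← mul_pow]
    norm_num
  rw [h6]
  have h7 : ((1 : ℝ) / 2 ^ 21) ^ q ≤ (1 / 2 ^ 21) ^ 2 :=
    pow_le_pow_of_le_one (by norm_num) (by norm_num) hq
  have h8 : (6600 : ℝ) * (1 / 2 ^ 21) ^ 2 ≤ 1 / 4 := by norm_num
  linarith

lemma exp_lower_of_a {a Ks : ℝ} (ha0 : 0 ≤ a) (ha : a ≤ 1 / 2) :
    Real.exp (-(2 * a)) ≤ 1 - a := by
  rw [Real.exp_neg, ← one_div, div_le_iff₀ (Real.exp_pos _)]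
  have h1 : 2 * a + 1 ≤ Real.exp (2 * a) := Real.add_one_le_exp _
  have h2 : 0 ≤ 1 - a := by linarith
  nlinarith [mul_le_mul_of_nonneg_left h1 h2, mul_nonneg ha0 (by linarith : 0 ≤ 1 - 2 * a)]

section pieces

variable {K : Type} [Field K] [Fintype K]

open Classical in
lemma nuOf_le_one {q L w : ℕ} [NeZero w] {p : Fin q → ℝ} (hp : ∑ a, p a = 1) (hp0 : ∀ a, 0 ≤ p a)
    (O : Fin L → Fin w → Fin w) : nuOf p O ≤ 1 := by
  unfold nuOf
  have h1 : ∑ env : Fin L → Fin w → Fin w → Fin q, wPi (wL p) env = 1 :=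
    wPi_sum (sum_wL hp)
  calc _ ≤ ∑ env : Fin L → Fin w → Fin w → Fin q, wPi (wL p) env := by
        refine Finset.sum_le_sum fun env _ => ?_
        have h2 : 0 ≤ wPi (wL p) env :=
          wPi_nonneg (fun b => wPi_nonneg (fun b' => wPi_nonneg hp0 _) _) _
        split_ifs
        · simp
        · simp [h2]
    _ = 1 := h1

lemma wPi_pθ {Ks t L w : ℕ} {θ : ℝ} (B : Var Ks t L w → Fin (Fintype.card K)) :
    wPi (pθ (Fintype.card K) θ) B =
      θ ^ dg K _ B / sig (Fintype.card K) θ ^ Fintype.card (Var Ks t L w) := by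
  simp only [wPi, pθ]
  rw [Finset.prod_div_distrib, Finset.prod_pow_eq_pow_sum, Finset.prod_const, Finset.card_univ]
  rfl

/-- Lower bound for the weight of the good set. -/
lemma weight_lower {Ks t L w : ℕ} [NeZero w] {θ : ℝ} (hθ0 : 0 < θ)
    (O : Fin L → Fin w → Fin w) (hν : (1 / 3 : ℝ) ≤ nuOf (pθ (Fintype.card K) θ) O) :
    (1 - (2 / 3 : ℝ) ^ t) ^ Ks ≤
      (∑ B ∈ goodSet (Fintype.card K) Ks t O, θ ^ dg K _ B) /
        sig (Fintype.card K) θ ^ Fintype.card (Var Ks t L w) := by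
  have hq : 2 ≤ Fintype.card K := Fintype.one_lt_card
  have hweight := goodSet_weight (q := Fintype.card K) (Ks := Ks) (t := t) (L := L) (w := w)
    (sum_pθ hq hθ0) O
  simp only [wPi_pθ] at hweight
  rw [← Finset.sum_div] at hweight
  rw [hweight]
  have hν1 := nuOf_le_one (q := Fintype.card K) (sum_pθ hq hθ0) (pθ_nonneg hθ0 hq) O
  have h1 : (1 - nuOf (pθ (Fintype.card K) θ) O) ^ t ≤ (2 / 3 : ℝ) ^ t :=
    pow_le_pow_left₀ (by linarith) (by linarith) t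
  have h2 : (2 / 3 : ℝ) ^ t ≤ 1 := pow_le_one₀ (by norm_num) (by norm_num)
  exact pow_le_pow_left₀ (by linarith) (by linarith) Ks

/-- Upper bound from the main inequality. -/
lemma weight_upper {N Ks m c₀ l R₀ : ℕ} {θ A : ℝ} {P4 P2 s : ℕ}
    (hl : 4 * (Fintype.card K * Fintype.card K) ≤ l) (hθ : θ = 1 - 1 / (l : ℝ)) (hθ0 : 0 < θ)
    (hs4 : P4 ≤ s) (hs2 : P2 ≤ s)
    (hRN : ∀ b ∈ range (Ks + 2), R₀ + 4 * Fintype.card K * b ≤ N)
    (hmain : A ≤ ((P4 : ℝ) * 2 ^ m * θ ^ c₀ * sig (Fintype.card K) θ ^ N +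
        (P2 : ℝ) * ∑ b ∈ range (Ks + 2), (wcnt K (R₀ + 4 * Fintype.card K * b) b : ℝ) *
          sig (Fintype.card K) θ ^ (N - (R₀ + 4 * Fintype.card K * b))) / (1 - θ)) :
    A / sig (Fintype.card K) θ ^ N ≤ (l : ℝ) * ((s : ℝ) * 2 ^ m * θ ^ c₀ +
      (s : ℝ) * (4 * Real.exp (-((R₀ : ℝ) / (4 * Fintype.card K))))) := by
  have hq : 2 ≤ Fintype.card K := Fintype.one_lt_card
  have hς0 := sig_pos hq hθ0
  set ς := sig (Fintype.card K) θ with hς
  have hςN : 0 < ς ^ N := pow_pos hς0 N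
  have hl0 : 0 < l := by
    have : 0 < Fintype.card K * Fintype.card K := Nat.mul_pos (by omega) (by omega)
    omega
  have hlR : (0 : ℝ) < l := by exact_mod_cast hl0
  have h1θ : 1 / (1 - θ) = l := by
    rw [hθ]
    field_simp
    ring
  have hsum1 : ∑ b ∈ range (Ks + 2), (wcnt K (R₀ + 4 * Fintype.card K * b) b : ℝ) *
      ς ^ (N - (R₀ + 4 * Fintype.card K * b)) ≤
      ς ^ N * (4 * Real.exp (-((R₀ : ℝ) / (4 * Fintype.card K)))) := by
    have h1 : ∀ b ∈ range (Ks + 2), (wcnt K (R₀ + 4 * Fintype.card K * b) b : ℝ) *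
        ς ^ (N - (R₀ + 4 * Fintype.card K * b)) ≤
        ς ^ N * (Real.exp (-((R₀ : ℝ) / (4 * Fintype.card K))) * (2 * Real.exp (-1)) ^ b) := by
      intro b hb
      have h2 : ς ^ N = ς ^ (N - (R₀ + 4 * Fintype.card K * b)) *
          ς ^ (R₀ + 4 * Fintype.card K * b) := by
        rw [← pow_add, Nat.sub_add_cancel (hRN b hb)]
      have h3 := wcnt_div_sig (K := K) (l := l) hl R₀ b
      rw [← hθ, ← hς, div_le_iff₀ (pow_pos hς0 _)] at h3
      rw [h2]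
      have h4 : (0 : ℝ) < ς ^ (N - (R₀ + 4 * Fintype.card K * b)) := pow_pos hς0 _
      calc (wcnt K (R₀ + 4 * Fintype.card K * b) b : ℝ) * ς ^ (N - (R₀ + 4 * Fintype.card K * b))
          ≤ (Real.exp (-((R₀ : ℝ) / (4 * Fintype.card K))) * (2 * Real.exp (-1)) ^ b *
              ς ^ (R₀ + 4 * Fintype.card K * b)) *
              ς ^ (N - (R₀ + 4 * Fintype.card K * b)) := mul_le_mul_of_nonneg_right h3 h4.le
        _ = _ := by ring
    refine (Finset.sum_le_sum h1).trans ?_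
    rw [← Finset.mul_sum, ← Finset.mul_sum]
    refine mul_le_mul_of_nonneg_left ?_ hςN.le
    have h2 := sum_geom_two_exp (Ks + 2)
    have h3 := Real.exp_pos (-((R₀ : ℝ) / (4 * Fintype.card K)))
    nlinarith
  have hθc : 0 ≤ θ ^ c₀ := by positivity
  have hs4' : (P4 : ℝ) ≤ s := by exact_mod_cast hs4
  have hs2' : (P2 : ℝ) ≤ s := by exact_mod_cast hs2
  have hs0 : (0 : ℝ) ≤ s := Nat.cast_nonneg _
  rw [div_le_iff₀ hςN]
  refine hmain.trans ?_
  rw [div_eq_mul_one_div, h1θ, mul_comm _ (l : ℝ)]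
  have h1 : ((l : ℝ) * ((s : ℝ) * 2 ^ m * θ ^ c₀ +
      (s : ℝ) * (4 * Real.exp (-((R₀ : ℝ) / (4 * Fintype.card K)))))) * ς ^ N =
      (l : ℝ) * ((s : ℝ) * 2 ^ m * θ ^ c₀ * ς ^ N +
        (s : ℝ) * (ς ^ N * (4 * Real.exp (-((R₀ : ℝ) / (4 * Fintype.card K)))))) := by ring
  rw [h1]
  refine mul_le_mul_of_nonneg_left ?_ hlR.le
  refine add_le_add ?_ ?_
  · refine mul_le_mul_of_nonneg_right ?_ hςN.le
    refine mul_le_mul_of_nonneg_right ?_ hθc
    exact mul_le_mul_of_nonneg_right hs4' (by positivity)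
  · exact mul_le_mul hs2' hsum1 (Finset.sum_nonneg fun b _ => by positivity) hs0

/-- The arithmetic of the parameters. -/
lemma param_facts {q l W n : ℕ} (hq : 2 ≤ q) (hl : 200 * (q * q) ≤ l) (hW1 : 1 ≤ W)
    (hn1 : 100 * q * W * (l * l) ≤ n) :
    let L := 12 * q * l
    let Ks := (n - 1) / (L + 1)
    let R₀ := 3 * l - 4 * (q - 1)
    Ks * (L + 1) + 1 ≤ n ∧ 4 * l + 6 ≤ Ks ∧ 14 * l ≤ 5 * R₀ ∧ R₀ ≤ 3 * l ∧ 0 < R₀ ∧
    q * R₀ + 4 * q * (q - 1) = 3 * q * l ∧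
    (Ks + 1) * (q * R₀ + 4 * q * (q - 1)) ≤ Ks * L ∧
    6 * q * Ks * l ≤ Ks * L - (Ks + 1) * (q * R₀ + 4 * q * (q - 1)) ∧
    3 * l + (n / R₀ + 1) + 2 ≤ 6 * q * Ks := by
  intro L Ks R₀
  have hqq : q ≤ q * q := Nat.le_mul_of_pos_left _ (by omega)
  have hqq4 : 4 ≤ q * q := Nat.mul_le_mul hq hq
  have hl800 : 800 ≤ l := by omega
  have hqlpos : 1 ≤ q * l := Nat.mul_pos (by omega) (by omega)
  have hL : L = 12 * (q * l) := by
    simp only [L]
    ring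
  have hKs1 : Ks * (L + 1) ≤ n - 1 := Nat.div_mul_le_self _ _
  have hnpos : 1 ≤ n := by
    have h1 : 1 ≤ 100 * q * W * (l * l) :=
      Nat.mul_pos (Nat.mul_pos (by omega) hW1) (Nat.mul_pos (by omega) (by omega))
    omega
  have h1 : Ks * (L + 1) + 1 ≤ n := by omega
  have hKs2 : 4 * l + 6 ≤ Ks := by
    have hdiv : 4 * l + 6 ≤ (n - 1) / (L + 1) := by
      rw [Nat.le_div_iff_mul_le (by omega)]
      have h2 : (4 * l + 6) ≤ 5 * l := by omega
      have h3 : L + 1 ≤ 13 * (q * l) := by omega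
      have h4 : (4 * l + 6) * (L + 1) ≤ 5 * l * (13 * (q * l)) := Nat.mul_le_mul h2 h3
      have h6 : 5 * l * (13 * (q * l)) = 65 * q * (l * l) := by ring
      rw [h6] at h4
      have h7 : 66 * q ≤ 100 * q * W := by nlinarith
      have h10 : 1 ≤ q * (l * l) := Nat.mul_pos (by omega) (Nat.mul_pos (by omega) (by omega))
      have h11 : (4 * l + 6) * (L + 1) + 1 ≤ 100 * q * W * (l * l) := by
        calc (4 * l + 6) * (L + 1) + 1 ≤ 65 * q * (l * l) + q * (l * l) := add_le_add h4 h10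
          _ = 66 * q * (l * l) := by ring
          _ ≤ 100 * q * W * (l * l) := Nat.mul_le_mul_right _ h7
      omega
    exact hdiv
  have hKs3 : 1 ≤ Ks := by omega
  have hqm : 4 * (q - 1) ≤ 3 * l := by omega
  have hR₀add : R₀ + 4 * (q - 1) = 3 * l := Nat.sub_add_cancel hqm
  have hR₀14 : 14 * l ≤ 5 * R₀ := by omega
  have hR₀le : R₀ ≤ 3 * l := by omega
  have hR₀pos : 0 < R₀ := by omega
  have hr' : q * R₀ + 4 * q * (q - 1) = 3 * q * l := by
    have h2 : q * R₀ + 4 * q * (q - 1) = q * (R₀ + 4 * (q - 1)) := by ring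
    rw [h2, hR₀add]
    ring
  have hC : (Ks + 1) * (q * R₀ + 4 * q * (q - 1)) ≤ Ks * L := by
    rw [hr', hL]
    have h2 : (Ks + 1) * (3 * q * l) = (Ks + 1) * 3 * (q * l) := by ring
    have h3 : Ks * (12 * (q * l)) = Ks * 12 * (q * l) := by ring
    rw [h2, h3]
    exact Nat.mul_le_mul_right _ (by omega)
  have hc₀ge : 6 * q * Ks * l ≤ Ks * L - (Ks + 1) * (q * R₀ + 4 * q * (q - 1)) := by
    rw [hr', hL]
    have h2 : Ks * (12 * (q * l)) = 12 * (Ks * (q * l)) := by ring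
    have h3 : (Ks + 1) * (3 * q * l) = 3 * (Ks * (q * l)) + 3 * (q * l) := by ring
    have h4 : 6 * q * Ks * l = 6 * (Ks * (q * l)) := by ring
    rw [h2, h3, h4]
    have h5 : q * l ≤ Ks * (q * l) := Nat.le_mul_of_pos_left _ (by omega)
    omega
  have hm3 : 3 * l + (n / R₀ + 1) + 2 ≤ 6 * q * Ks := by
    have h2 : n ≤ (Ks + 1) * (L + 1) := by
      have h3 := Nat.lt_mul_div_succ (n - 1) (show 0 < L + 1 by omega)
      have h4 : (L + 1) * ((n - 1) / (L + 1) + 1) = (Ks + 1) * (L + 1) := by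
        simp only [Ks]
        ring
      rw [h4] at h3
      omega
    have h3 : L + 1 ≤ 5 * q * R₀ := by
      have h5 : q * (14 * l) ≤ q * (5 * R₀) := Nat.mul_le_mul_left _ hR₀14
      have h6 : q * (5 * R₀) = 5 * q * R₀ := by ring
      have h7 : q * (14 * l) = 14 * (q * l) := by ring
      omega
    have h4 : n / R₀ ≤ 5 * q * (Ks + 1) := by
      refine Nat.div_le_of_le_mul ?_
      calc n ≤ (Ks + 1) * (L + 1) := h2
        _ ≤ (Ks + 1) * (5 * q * R₀) := Nat.mul_le_mul_left _ h3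
        _ = R₀ * (5 * q * (Ks + 1)) := by ring
    have h5 : 3 * l + 5 * q + 3 ≤ q * Ks := by
      have h6 : q * (4 * l + 6) ≤ q * Ks := Nat.mul_le_mul_left _ hKs2
      have h7 : q * (4 * l + 6) = 4 * (q * l) + 6 * q := by ring
      have h8 : 2 * l ≤ q * l := Nat.mul_le_mul_right _ hq
      omega
    have h7 : 5 * q * (Ks + 1) = 5 * (q * Ks) + 5 * q := by ring
    have h8 : 6 * q * Ks = 6 * (q * Ks) := by ring
    omega
  exact ⟨h1, hKs2, hR₀14, hR₀le, hR₀pos, hr', hC, hc₀ge, hm3⟩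

lemma card_var (Ks t L w : ℕ) : Fintype.card (Var Ks t L w) = Ks * (t * (L * (w * w))) := by
  show Fintype.card (Fin Ks × Fin t × Fin L × Fin w × Fin w) = _
  simp [Fintype.card_prod]

lemma RN_bound {q l Ks t L w R₀ : ℕ} (hq : 2 ≤ q) (hl : 1 ≤ l) (hKs : 1 ≤ Ks) (hw : 0 < w)
    (hR₀ : R₀ ≤ 3 * l) (ht : t = 100 * q) (hL : L = 12 * q * l) :
    ∀ b ∈ range (Ks + 2), R₀ + 4 * q * b ≤ Ks * (t * (L * (w * w))) := by
  intro b hb
  have hb' : b ≤ Ks + 1 := by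
    have := Finset.mem_range.1 hb
    omega
  have h1 : 1 ≤ w * w := Nat.mul_pos hw hw
  have h2 : t * L ≤ t * (L * (w * w)) := by
    refine Nat.mul_le_mul_left _ ?_
    exact Nat.le_mul_of_pos_right _ h1
  refine le_trans ?_ (Nat.mul_le_mul_left Ks h2)
  have h4 : t * L = 1200 * (q * q) * l := by
    rw [ht, hL]
    ring
  rw [h4]
  have h5 : R₀ + 4 * q * b ≤ 3 * l + 4 * q * (Ks + 1) :=
    add_le_add hR₀ (Nat.mul_le_mul_left _ hb')
  refine h5.trans ?_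
  have h6 : q ≤ q * q := Nat.le_mul_of_pos_left _ (by omega)
  have h7 : 1 ≤ Ks * l := Nat.mul_pos hKs hl
  have h8 : 1 ≤ q * q := by nlinarith
  have h9 : l ≤ Ks * l := Nat.le_mul_of_pos_left _ hKs
  have h10 : Ks ≤ Ks * l := Nat.le_mul_of_pos_right _ hl
  have h11 : 3 * l ≤ 3 * (q * q) * (Ks * l) := by nlinarith
  have h12 : 4 * q * (Ks + 1) ≤ 8 * (q * q) * (Ks * l) := by nlinarith
  calc 3 * l + 4 * q * (Ks + 1) ≤ 3 * (q * q) * (Ks * l) + 8 * (q * q) * (Ks * l) :=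
        add_le_add h11 h12
    _ ≤ Ks * (1200 * (q * q) * l) := by nlinarith [Nat.zero_le ((q * q) * (Ks * l))]

/-- The small constant in front of the number of segments. -/
lemma Ks_small {q l Ks L n P : ℕ} {a E₁ : ℝ} (hq : 2 ≤ q) (hl : 1 ≤ l) (hL : L = 12 * q * l)
    (hKs1 : Ks * (L + 1) + 1 ≤ n) (hn2 : n ≤ 4 * P * (l * l)) (ha0 : 0 ≤ a)
    (haP : a * (P : ℝ) ≤ 1 / 4) (hE : (7 / 10 : ℝ) * (l / q) ≤ E₁) :
    2 * a * Ks ≤ E₁ / 4 := by
  have hlR : (0 : ℝ) < l := by exact_mod_cast hl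
  have hqR : (2 : ℝ) ≤ q := by exact_mod_cast hq
  have hq0 : (0 : ℝ) < q := by linarith
  have h1 : ((Ks * (L + 1) : ℕ) : ℝ) ≤ ((4 * P * (l * l) : ℕ) : ℝ) := by
    have : Ks * (L + 1) ≤ 4 * P * (l * l) := by omega
    exact_mod_cast this
  push_cast at h1
  have h2 : (Ks : ℝ) * (12 * q * l) ≤ (Ks : ℝ) * ((L : ℝ) + 1) := by
    have h3 : ((L : ℕ) : ℝ) = 12 * q * l := by
      rw [hL]; push_cast; ring
    rw [h3]
    have : (0 : ℝ) ≤ Ks := Nat.cast_nonneg _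
    nlinarith
  have h3 : (Ks : ℝ) * (3 * q) ≤ P * l := by
    have h5 : ((Ks : ℝ) * (3 * q)) * (4 * l) ≤ ((P : ℝ) * l) * (4 * l) := by
      nlinarith
    exact le_of_mul_le_mul_right h5 (by positivity)
  have h4 : (Ks : ℝ) ≤ P * (l / (3 * q)) := by
    rw [mul_div_assoc', le_div_iff₀ (by positivity)]
    exact h3
  have h5 : 2 * a * Ks ≤ 2 * a * (P * (l / (3 * q))) :=
    mul_le_mul_of_nonneg_left h4 (by positivity)
  have h6 : 2 * a * ((P : ℝ) * (l / (3 * q))) = (a * P) * (2 / 3 * (l / q)) := by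
    field_simp
  have h7 : (a * P) * (2 / 3 * ((l : ℝ) / q)) ≤ (1 / 4) * (2 / 3 * (l / q)) :=
    mul_le_mul_of_nonneg_right haP (by positivity)
  have h8 : (1 / 4 : ℝ) * (2 / 3 * ((l : ℝ) / q)) ≤ E₁ / 4 := by
    have : 0 ≤ (l : ℝ) / q := by positivity
    nlinarith
  linarith

/-- The exponential gain dominates the polynomial factor. -/
lemma E_large {q l R₀ : ℕ} (hq : 2 ≤ q) (hl : 200 * (q * q) ≤ l) (hR : 14 * l ≤ 5 * R₀)
    (hR3 : R₀ ≤ 3 * l) :
    0 ≤ (R₀ : ℝ) / (4 * q) ∧ (R₀ : ℝ) / (4 * q) ≤ l ∧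
      (l : ℝ) / (8 * q) ≤ (R₀ : ℝ) / (4 * q) / 4 ∧
      (7 / 10 : ℝ) * (l / q) ≤ (R₀ : ℝ) / (4 * q) ∧
      8 * (l : ℝ) ≤ Real.exp ((R₀ : ℝ) / (4 * q) / 2) := by
  have hqR : (2 : ℝ) ≤ q := by exact_mod_cast hq
  have hq0 : (0 : ℝ) < q := by linarith
  have hR14 : (14 : ℝ) * l ≤ 5 * R₀ := by exact_mod_cast hR
  have hR3' : (R₀ : ℝ) ≤ 3 * l := by exact_mod_cast hR3
  have hl0 : (0 : ℝ) ≤ l := Nat.cast_nonneg _
  have h1 : 0 ≤ (R₀ : ℝ) / (4 * q) := by positivity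
  have h2 : (R₀ : ℝ) / (4 * q) ≤ l := by
    rw [div_le_iff₀ (by positivity)]
    nlinarith
  have h3 : (l : ℝ) / (8 * q) ≤ (R₀ : ℝ) / (4 * q) / 4 := by
    rw [div_div, div_le_div_iff₀ (by positivity) (by positivity)]
    nlinarith
  have h4 : (7 / 10 : ℝ) * (l / q) ≤ (R₀ : ℝ) / (4 * q) := by
    rw [le_div_iff₀ (by positivity)]
    have : (7 / 10 : ℝ) * (l / q) * (4 * q) = 14 / 5 * l := by
      field_simp
      ring
    rw [this]
    linarith
  refine ⟨h1, h2, h3, h4, ?_⟩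
  set E₁ := (R₀ : ℝ) / (4 * q) with hE₁
  have h5 := Real.quadratic_le_exp_of_nonneg (x := E₁ / 2) (by positivity)
  have hx : (7 / 20 : ℝ) * (l / q) ≤ E₁ / 2 := by linarith
  have hlq : (200 : ℝ) * (q * q) ≤ l := by exact_mod_cast hl
  have h6 : 0 ≤ (l : ℝ) / q := by positivity
  have h7 : ((7 / 20 : ℝ) * (l / q)) ^ 2 ≤ (E₁ / 2) ^ 2 :=
    pow_le_pow_left₀ (by positivity) hx 2
  have h8 : 8 * (l : ℝ) ≤ ((7 / 20 : ℝ) * (l / q)) ^ 2 / 2 := by
    have h9 : ((7 / 20 : ℝ) * (l / q)) ^ 2 / 2 = (49 / 800) * (l * (l / (q * q))) := by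
      field_simp
      ring
    rw [h9]
    have h10 : (200 : ℝ) ≤ l / (q * q) := by
      rw [le_div_iff₀ (by positivity)]
      exact hlq
    nlinarith
  have h11 : 0 ≤ E₁ / 2 := by positivity
  nlinarith

end pieces

section core

variable {K : Type} [Field K] [Fintype K]

lemma exists_good_offsets {l : ℕ} (hl : 4 ≤ l)
    (w : ℕ) [NeZero w]
    (hw : 33 * 2 ^ (36 * Fintype.card K + 1) * (l * l) ≤ w) {θ : ℝ} (hθ : θ = 1 - 1 / (l : ℝ))
    (hθ0 : 0 < θ) (hθ1 : θ ≤ 1) :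
    ∃ O : Fin (12 * Fintype.card K * l) → Fin w → Fin w,
      (1 / 3 : ℝ) ≤ nuOf (pθ (Fintype.card K) θ) O := by
  have hq : 2 ≤ Fintype.card K := Fintype.one_lt_card
  subst hθ
  obtain ⟨hϑ1, hϑ2, hϑ3⟩ := offset_hypotheses (q := Fintype.card K) (l := l) (w := w) hq hl
    (xi_nonneg hq hθ0) (xi_le_half hq hθ0 hθ1)
    (beta_nonneg (w := w) hq hθ0 hθ1) (beta_le (w := w) hq hθ0 hθ1) hw
  obtain ⟨O, hO⟩ := exists_offsets_of_bounds (q := Fintype.card K) (w := w) hq hθ0 hθ1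
    (12 * Fintype.card K * l) hϑ1 hϑ2 hϑ3
  refine ⟨O, hO.trans (le_of_eq ?_)⟩
  unfold nuOf
  refine Finset.sum_congr (by ext; simp) fun env _ => ?_
  congr 1

/-- The core estimate, with an explicit parameter `l`. -/
theorem core_bound {n l : ℕ} (hn : 0 < n) (D : SPSPSCircuit K (ImmVar n n))
    (hD : D.output = imm K n n hn) (dgs : Degs D n)
    (hl : 200 * (Fintype.card K * Fintype.card K) ≤ l)
    (hn1 : 100 * Fintype.card K * (33 * 2 ^ (36 * Fintype.card K + 1)) * (l * l) ≤ n)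
    (hn2 : n ≤ 4 * (100 * Fintype.card K * (33 * 2 ^ (36 * Fintype.card K + 1))) * (l * l)) :
    Real.exp ((l : ℝ) / (8 * Fintype.card K)) ≤ (D.size : ℝ) := by
  classical
  have hq : 2 ≤ Fintype.card K := Fintype.one_lt_card
  have hW1 : 1 ≤ 33 * 2 ^ (36 * Fintype.card K + 1) := by
    have : 0 < 2 ^ (36 * Fintype.card K + 1) := by positivity
    omega
  have hqq : 4 ≤ Fintype.card K * Fintype.card K := Nat.mul_le_mul hq hq
  have hl800 : 800 ≤ l := by omega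
  obtain ⟨h1, hKs2, hR14, hR3, hR0, hr', hC, hc₀, hm3⟩ := param_facts hq hl hW1 hn1
  generalize hKs : (n - 1) / (12 * Fintype.card K * l + 1) = Ks at *
  generalize hR₀ : 3 * l - 4 * (Fintype.card K - 1) = R₀ at *
  generalize hWdef : 33 * 2 ^ (36 * Fintype.card K + 1) = W at *
  have hwpos : 0 < W * (l * l) := Nat.mul_pos hW1 (Nat.mul_pos (by omega) (by omega))
  have : NeZero (W * (l * l)) := ⟨hwpos.ne'⟩
  generalize hwdef : W * (l * l) = w at *
  have hlR : (800 : ℝ) ≤ l := by exact_mod_cast hl800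
  have hl0 : (0 : ℝ) < l := by linarith
  have hinv : 1 / (l : ℝ) ≤ 1 / 800 := by
    rw [div_le_div_iff₀ hl0 (by norm_num)]
    linarith
  have hinv0 : 0 < 1 / (l : ℝ) := by positivity
  have hθ0 : 0 < 1 - 1 / (l : ℝ) := by linarith
  have hθ1 : 1 - 1 / (l : ℝ) < 1 := by linarith
  generalize hθdef : 1 - 1 / (l : ℝ) = θ at *
  obtain ⟨O, hν⟩ := exists_good_offsets (K := K) (l := l) (by omega) w
    (by rw [← hwdef, hWdef]) hθdef.symm hθ0 hθ1.le
  have htw : 100 * Fintype.card K * w ≤ n := by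
    rw [← hwdef, ← mul_assoc]
    exact hn1
  have hemblt : ∀ (c : Fin (100 * Fintype.card K)) (a : Fin w), c.val * w + a.val < n := by
    intro c a
    have h2 : (c.val + 1) * w ≤ (100 * Fintype.card K) * w := Nat.mul_le_mul_right _ c.2
    have h3 := a.2
    nlinarith
  let emb : Fin (100 * Fintype.card K) → Fin w → Fin n := fun c a => ⟨c.val * w + a.val, hemblt c a⟩
  have hemb : ∀ c a c' a', emb c a = emb c' a' → c = c' ∧ a = a' := by
    intro c a c' a' h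
    have h2 : c.val * w + a.val = c'.val * w + a'.val := congrArg Fin.val h
    have hwp : 0 < w := hwpos
    have h3 : (c.val * w + a.val) / w = c.val := by
      rw [Nat.mul_comm, Nat.mul_add_div hwp, Nat.div_eq_of_lt a.2, add_zero]
    have h4 : (c'.val * w + a'.val) / w = c'.val := by
      rw [Nat.mul_comm, Nat.mul_add_div hwp, Nat.div_eq_of_lt a'.2, add_zero]
    have h5 : c.val = c'.val := by rw [← h3, h2, h4]
    have h6 : a.val = a'.val := by
      rw [h5] at h2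
      omega
    exact ⟨Fin.ext h5, Fin.ext h6⟩
  have hS : ∀ B ∈ goodSet (Fintype.card K) Ks (100 * Fintype.card K) O, ∀ j, ∃ c v ρ, ∀ l',
      Allowed (Fintype.card K) (fun r => B (Var.mk j c l' (vtx (OO O) v ρ l') r)) (ρ l') := by
    intro B hB j
    obtain ⟨c, a, hpc⟩ := (Finset.mem_filter.1 hB).2 j
    obtain ⟨ρ, hρ⟩ := exists_path_of_pc_pos _ O _ a hpc
    exact ⟨c, a, ρ, hρ⟩
  have hmain := main_ineq_hom (K := K) (Ks := Ks) (t := 100 * Fintype.card K)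
    (Lg := 12 * Fintype.card K * l) (w := w) (n := n) D hn hD dgs O emb
    hemb h1 R₀ (n / R₀ + 1) hR0 (Nat.lt_succ_self _) _ hS hC hθ0 hθ1
  have hlow := weight_lower (K := K) (Ks := Ks) (t := 100 * Fintype.card K)
    (L := 12 * Fintype.card K * l) hθ0 O hν
  have hs4 : Fintype.card D.P4 ≤ D.size := by
    unfold SPSPSCircuit.size
    omega
  have hs2 : Fintype.card D.P2 ≤ D.size := by
    unfold SPSPSCircuit.size
    omega
  have hRN := RN_bound (q := Fintype.card K) (l := l) (Ks := Ks) (t := 100 * Fintype.card K)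
    (L := 12 * Fintype.card K * l) (w := w) (R₀ := R₀) hq (by omega) (by omega)
    hwpos hR3 rfl rfl
  rw [← card_var] at hRN
  have hup := weight_upper (K := K) (l := l) (by omega) hθdef.symm hθ0 hs4 hs2 hRN hmain
  obtain ⟨hE0, hE1, hE3, hE4, hE2⟩ := E_large hq hl hR14 hR3
  generalize hE₁ : (R₀ : ℝ) / (4 * Fintype.card K) = E₁ at *
  by_contra hcon
  push Not at hcon
  have hsE : (D.size : ℝ) ≤ Real.exp (E₁ / 4) := hcon.le.trans (Real.exp_le_exp.2 hE3)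
  have ha0 : (0 : ℝ) ≤ (2 / 3 : ℝ) ^ (100 * Fintype.card K) := by positivity
  have haP : (2 / 3 : ℝ) ^ (100 * Fintype.card K) *
      ((100 * Fintype.card K * W : ℕ) : ℝ) ≤ 1 / 4 := by
    rw [← hWdef]
    exact a_times_P hq
  have hP1 : (1 : ℝ) ≤ ((100 * Fintype.card K * W : ℕ) : ℝ) := by
    have : 1 ≤ 100 * Fintype.card K * W := Nat.mul_pos (by omega) hW1
    exact_mod_cast this
  have ha12 : (2 / 3 : ℝ) ^ (100 * Fintype.card K) ≤ 1 / 2 := by nlinarith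
  have hKsE := Ks_small (q := Fintype.card K) (l := l) (Ks := Ks)
    (L := 12 * Fintype.card K * l) (n := n) (P := 100 * Fintype.card K * W) hq (by omega) rfl h1 hn2
    ha0 haP hE4
  have hlow3 : Real.exp (-(E₁ / 4)) ≤ (1 - (2 / 3 : ℝ) ^ (100 * Fintype.card K)) ^ Ks := by
    have h5 := exp_lower_of_a (Ks := 0) ha0 ha12
    have h6 : Real.exp (-(2 * (2 / 3 : ℝ) ^ (100 * Fintype.card K))) ^ Ks ≤
        (1 - (2 / 3 : ℝ) ^ (100 * Fintype.card K)) ^ Ks :=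
      pow_le_pow_left₀ (Real.exp_pos _).le h5 Ks
    refine le_trans ?_ h6
    rw [← Real.exp_nat_mul]
    apply Real.exp_le_exp.2
    nlinarith
  have hT : θ ^ (Ks * (12 * Fintype.card K * l) - (Ks + 1) * (Fintype.card K * R₀ +
      4 * Fintype.card K * (Fintype.card K - 1))) ≤ (1 / 2) ^ (6 * Fintype.card K * Ks) := by
    calc _ ≤ θ ^ (6 * Fintype.card K * Ks * l) := pow_le_pow_of_le_one hθ0.le hθ1.le hc₀
      _ = (θ ^ l) ^ (6 * Fintype.card K * Ks) := by rw [← pow_mul, mul_comm l]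
      _ ≤ (1 / 2) ^ (6 * Fintype.card K * Ks) :=
        pow_le_pow_left₀ (pow_pos hθ0 _).le (by
          rw [← hθdef]
          exact theta_pow_le_half (by omega)) _
  exact final_contra hE0 hE1 hE2 (Nat.cast_nonneg _) hsE (by positivity)
    (hlow3.trans (hlow.trans hup)) hT hm3 (by omega)

end core

end Vale.Agent.Lib.P346
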