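import Vale.Agent.Lib.P346.HomFacts

/-!
Numerical estimates.
-/

noncomputable section

open Finset

set_option linter.unusedSectionVars false
set_option linter.unusedSimpArgs false
set_option linter.unusedVariables false

namespace Vale.Agent.Lib.P346

section theta

lemma theta_pow_le_half {l : ℕ} (hl : 1 ≤ l) : (1 - 1 / (l : ℝ)) ^ l ≤ 1 / 2 := by
  have h1 : (1 : ℝ) ≤ l := by exact_mod_cast hl
  have h2 := Real.one_sub_div_pow_le_exp_neg (n := l) (t := 1) h1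
  refine h2.trans ?_
  have h3 : Real.exp (-1) = 1 / Real.exp 1 := by
    rw [Real.exp_neg]; simp
  rw [h3]
  have h4 := Real.exp_one_gt_d9
  rw [div_le_div_iff₀ (by positivity) (by norm_num)]
  linarith

lemma theta_pow_ge {l : ℕ} (hl : 2 ≤ l) : (1 / 8 : ℝ) ≤ (1 - 1 / (l : ℝ)) ^ l := by
  have h1 : (2 : ℝ) ≤ l := by exact_mod_cast hl
  have h0 : (0 : ℝ) < l - 1 := by linarith
  set x := 1 / ((l : ℝ) - 1) with hx
  have hx0 : 0 < x := by positivity
  have h2 : 1 / (1 - 1 / (l : ℝ)) = 1 + x := by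
    rw [hx]
    field_simp
    ring
  have h3 : 1 + x ≤ Real.exp x := by
    have := Real.add_one_le_exp x
    linarith
  have hθ : 0 < 1 - 1 / (l : ℝ) := by
    have : 1 / (l : ℝ) ≤ 1 / 2 := by
      rw [div_le_div_iff₀ (by linarith) (by norm_num)]
      linarith
    linarith
  have h4 : Real.exp (-x) ≤ 1 - 1 / (l : ℝ) := by
    rw [Real.exp_neg, ← one_div]
    rw [div_le_iff₀ (Real.exp_pos x)]
    have h5 : (1 - 1 / (l : ℝ)) * (1 + x) = 1 := by
      rw [← h2]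
      field_simp
    nlinarith
  have h5 : Real.exp (-x) ^ l ≤ (1 - 1 / (l : ℝ)) ^ l :=
    pow_le_pow_left₀ (Real.exp_pos _).le h4 l
  refine le_trans ?_ h5
  rw [← Real.exp_nat_mul]
  have h6 : (l : ℝ) * -x ≥ -2 := by
    have h7 : (l : ℝ) * x ≤ 2 := by
      rw [hx, mul_one_div, div_le_iff₀ h0]
      linarith
    linarith
  have h8 : Real.exp (-2) ≤ Real.exp ((l : ℝ) * -x) := Real.exp_le_exp.2 h6
  refine le_trans ?_ h8
  rw [Real.exp_neg, ← one_div]
  rw [div_le_div_iff₀ (by norm_num) (Real.exp_pos _)]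
  have h9 : Real.exp 2 = Real.exp 1 * Real.exp 1 := by
    rw [← Real.exp_add]; norm_num
  have h10 := Real.exp_one_lt_d9
  have h11 := Real.exp_pos 1
  rw [h9]
  nlinarith

/-- Bound for the recursion with the actual parameters. -/
lemma offset_hypotheses {q l w : ℕ} (hq : 2 ≤ q) (hl : 4 ≤ l) {ξ β : ℝ} (hξ0 : 0 ≤ ξ)
    (hξ : ξ ≤ 1 / 2) (hβ0 : 0 ≤ β) (hβ : β ≤ 4)
    (hw : 33 * 2 ^ (36 * q + 1) * (l * l) ≤ w) :
    1 / 2 ≤ (1 - 1 / (l : ℝ)) * (1 - ξ ^ w) ∧ (1 - 1 / (l : ℝ)) * (1 - ξ ^ w) < 1 ∧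
    (1 + 2 * (β / ((1 - 1 / (l : ℝ)) * (1 - ξ ^ w)) ^ 2) /
        (1 / ((1 - 1 / (l : ℝ)) * (1 - ξ ^ w)) - 1)) *
        (1 / ((1 - 1 / (l : ℝ)) * (1 - ξ ^ w))) ^ (12 * q * l) /
        ((w : ℝ) * (1 / ((1 - 1 / (l : ℝ)) * (1 - ξ ^ w)) - 1)) ≤ 1 := by
  set θ := 1 - 1 / (l : ℝ) with hθ
  have hlR : (4 : ℝ) ≤ l := by exact_mod_cast hl
  have hl0 : (0 : ℝ) < l := by linarith
  have hinv : 1 / (l : ℝ) ≤ 1 / 4 := by
    rw [div_le_div_iff₀ hl0 (by norm_num)]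
    linarith
  have hinv0 : 0 < 1 / (l : ℝ) := by positivity
  have hθ34 : 3 / 4 ≤ θ := by rw [hθ]; linarith
  have hθ1 : θ < 1 := by rw [hθ]; linarith
  have hw1 : 33 * 2 ^ (36 * q + 1) * (l * l) ≥ 24 * q * l := by
    have h1 : 2 ^ (36 * q + 1) ≥ 36 * q + 1 + 1 := Nat.lt_two_pow_self
    have h2 : l * l ≥ 4 * l := Nat.mul_le_mul_right l hl
    nlinarith
  have hw2 : 2 * (12 * q * l) ≤ w := by
    have : 2 * (12 * q * l) = 24 * q * l := by ring
    omega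
  have hw3 : 2 ≤ w := by
    have h1 : 1 ≤ q * l := Nat.mul_pos (by omega) (by omega)
    have : 2 * (12 * q * l) = 24 * (q * l) := by ring
    omega
  have hξw : ξ ^ w ≤ (1 / 2) ^ w := pow_le_pow_left₀ hξ0 hξ w
  have hhalf : (1 / 2 : ℝ) ^ w ≤ 1 / 4 := by
    calc (1 / 2 : ℝ) ^ w ≤ (1 / 2) ^ 2 := pow_le_pow_of_le_one (by norm_num) (by norm_num) hw3
      _ = 1 / 4 := by norm_num
  have hξw0 : 0 ≤ ξ ^ w := pow_nonneg hξ0 w
  set ϑ := θ * (1 - ξ ^ w) with hϑ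
  have h1 : 1 / 2 ≤ ϑ := by
    rw [hϑ]; nlinarith
  have h2le : ϑ ≤ θ := by
    rw [hϑ]; nlinarith
  have h2 : ϑ < 1 := lt_of_le_of_lt h2le hθ1
  refine ⟨h1, h2, ?_⟩
  have hϑ0 : 0 < ϑ := by linarith
  -- lambda
  set lam := 1 / ϑ with hlam
  have hlam1 : 1 / (l : ℝ) ≤ lam - 1 := by
    have h3 : 1 + 1 / (l : ℝ) ≤ lam := by
      rw [hlam, le_div_iff₀ hϑ0]
      have h4 : (1 + 1 / (l : ℝ)) * θ ≤ 1 := by
        rw [hθ]; nlinarith
      have h5 : (1 + 1 / (l : ℝ)) * ϑ ≤ (1 + 1 / (l : ℝ)) * θ :=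
        mul_le_mul_of_nonneg_left h2le (by linarith)
      linarith
    linarith
  have hlam0 : 0 < lam - 1 := lt_of_lt_of_le hinv0 hlam1
  -- kappa
  have hκ : β / ϑ ^ 2 ≤ 16 := by
    rw [div_le_iff₀ (by positivity)]
    nlinarith
  have hκ0 : 0 ≤ β / ϑ ^ 2 := by positivity
  have hA : 2 * (β / ϑ ^ 2) / (lam - 1) ≤ 32 * l := by
    rw [div_le_iff₀ hlam0]
    have h3 : (1 : ℝ) ≤ l * (lam - 1) := by
      have h4 : (l : ℝ) * (1 / (l : ℝ)) ≤ l * (lam - 1) := mul_le_mul_of_nonneg_left hlam1 hl0.le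
      have h5 : (l : ℝ) * (1 / (l : ℝ)) = 1 := by field_simp
      linarith
    nlinarith
  have hC : 1 + 2 * (β / ϑ ^ 2) / (lam - 1) ≤ 33 * l := by
    nlinarith
  have hC0 : 0 < 1 + 2 * (β / ϑ ^ 2) / (lam - 1) := by
    have : 0 ≤ 2 * (β / ϑ ^ 2) / (lam - 1) := by positivity
    linarith
  -- lam^L
  have hpow : lam ^ (12 * q * l) ≤ 2 ^ (36 * q + 1) := by
    have h3 : (1 / 2 : ℝ) * (1 / 8) ^ (12 * q) ≤ ϑ ^ (12 * q * l) := by
      rw [hϑ, mul_pow]
      have h4 : (1 / 8 : ℝ) ^ (12 * q) ≤ θ ^ (12 * q * l) := by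
        have h40 : θ ^ (12 * q * l) = (θ ^ l) ^ (12 * q) := by
          rw [← pow_mul, mul_comm]
        rw [h40]
        have h41 : (1 / 8 : ℝ) ≤ θ ^ l := theta_pow_ge (by omega)
        exact pow_le_pow_left₀ (by norm_num) h41 _
      have h5 : 1 / 2 ≤ (1 - ξ ^ w) ^ (12 * q * l) := by
        have h6 := one_add_mul_le_pow (a := -ξ ^ w) (by linarith) (12 * q * l)
        have h7 : ((12 * q * l : ℕ) : ℝ) * ξ ^ w ≤ 1 / 2 := by
          have h8 : (2 : ℝ) * ((12 * q * l : ℕ) : ℝ) ≤ 2 ^ w := by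
            have h9 : w < 2 ^ w := Nat.lt_two_pow_self
            have h10 : 2 * (12 * q * l) ≤ 2 ^ w := by omega
            exact_mod_cast h10
          have h11 : ξ ^ w * 2 ^ w ≤ 1 := by
            rw [← mul_pow]
            exact pow_le_one₀ (by positivity) (by linarith)
          have h12 : (0:ℝ) < 2 ^ w := by positivity
          nlinarith [mul_nonneg hξw0 (Nat.cast_nonneg (α := ℝ) (12 * q * l))]
        have h13 : 1 + ((12 * q * l : ℕ) : ℝ) * -ξ ^ w = 1 - ((12 * q * l : ℕ) : ℝ) * ξ ^ w := by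
          ring
        have h14 : (1 + -ξ ^ w) = 1 - ξ ^ w := by ring
        rw [h13, h14] at h6
        linarith
      have h6 : (0:ℝ) < (1 / 8) ^ (12 * q) := by positivity
      nlinarith
    have h4 : (0 : ℝ) < (1 / 2) * (1 / 8) ^ (12 * q) := by positivity
    rw [hlam, one_div, inv_pow, ← one_div, div_le_iff₀ (pow_pos hϑ0 _)]
    have h5 : (2 : ℝ) ^ (36 * q + 1) * ((1 / 2) * (1 / 8) ^ (12 * q)) = 1 := by
      have h6 : (2 : ℝ) ^ (36 * q + 1) = 2 * (8 ^ (12 * q)) := by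
        rw [pow_succ, mul_comm, show (8 : ℝ) = 2 ^ 3 by norm_num, ← pow_mul]
        congr 2
        ring
      rw [h6, one_div_pow]
      field_simp
    calc (1 : ℝ) = (2 : ℝ) ^ (36 * q + 1) * ((1 / 2) * (1 / 8) ^ (12 * q)) := h5.symm
      _ ≤ 2 ^ (36 * q + 1) * ϑ ^ (12 * q * l) :=
        mul_le_mul_of_nonneg_left h3 (by positivity)
  have hlampow0 : 0 < lam ^ (12 * q * l) := pow_pos (by linarith) _
  have hw0 : (0 : ℝ) < w := by
    have : 0 < w := by omega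
    exact_mod_cast this
  rw [div_le_one (by positivity)]
  have hwR : (33 : ℝ) * 2 ^ (36 * q + 1) * (l * l) ≤ w := by
    exact_mod_cast hw
  have hfinal : (33 * (l : ℝ)) * 2 ^ (36 * q + 1) ≤ (w : ℝ) * (1 / (l : ℝ)) := by
    rw [mul_one_div, le_div_iff₀ hl0]
    calc (33 * (l : ℝ)) * 2 ^ (36 * q + 1) * l = (33 : ℝ) * 2 ^ (36 * q + 1) * (l * l) := by ring
      _ ≤ w := hwR
  calc (1 + 2 * (β / ϑ ^ 2) / (lam - 1)) * lam ^ (12 * q * l)
      ≤ (33 * (l : ℝ)) * 2 ^ (36 * q + 1) :=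
        mul_le_mul hC hpow hlampow0.le (by positivity)
    _ ≤ (w : ℝ) * (1 / (l : ℝ)) := hfinal
    _ ≤ (w : ℝ) * (lam - 1) := mul_le_mul_of_nonneg_left hlam1 hw0.le

end theta

section wcntBound

variable {K : Type} [Field K] [Fintype K]

lemma sum_half_zero : ∑ a : K, (by classical exact if a = 0 then (1 / 2 : ℝ) else 1) =
    (Fintype.card K : ℝ) - 1 / 2 := by
  classical
  have h1 : ∀ a : K, (if a = 0 then (1 / 2 : ℝ) else 1) = 1 - (if a = 0 then 1 / 2 else 0) := by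
    intro a
    split_ifs <;> norm_num
  simp only [h1, Finset.sum_sub_distrib, Finset.sum_ite_eq', Finset.mem_univ, if_true]
  simp

lemma wcnt_le (R b : ℕ) : (wcnt K R b : ℝ) ≤ 2 ^ b * ((Fintype.card K : ℝ) - 1 / 2) ^ R := by
  classical
  unfold wcnt
  rw [Finset.card_filter]
  push_cast
  have h1 : ∀ z : Fin R → K, (if (univ.filter fun h => z h = 0).card ≤ b then (1 : ℝ) else 0) ≤
      2 ^ b * ∏ h, (if z h = 0 then (1 / 2 : ℝ) else 1) := by
    intro z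
    have h2 : ∏ h, (if z h = 0 then (1 / 2 : ℝ) else 1) =
        (1 / 2 : ℝ) ^ (univ.filter fun h => z h = 0).card := by
      rw [Finset.prod_ite, Finset.prod_const, Finset.prod_const_one, mul_one]
    rw [h2]
    split_ifs with h3
    · have h4 : (1 / 2 : ℝ) ^ b ≤ (1 / 2) ^ (univ.filter fun h => z h = 0).card :=
        pow_le_pow_of_le_one (by norm_num) (by norm_num) h3
      have h5 : (2 : ℝ) ^ b * (1 / 2) ^ b = 1 := by
        rw [← mul_pow]; norm_num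
      have h6 : (0 : ℝ) < 2 ^ b := by positivity
      nlinarith
    · positivity
  refine (Finset.sum_le_sum fun z _ => h1 z).trans (le_of_eq ?_)
  rw [← Finset.mul_sum]
  congr 1
  rw [sum_pi_prod (fun _ (a : K) => if a = 0 then (1 / 2 : ℝ) else 1)]
  simp only [Finset.prod_const, Finset.card_univ, Fintype.card_fin]
  congr 1
  convert sum_half_zero (K := K)

end wcntBound

section sigBound

lemma sig_ge {q l : ℕ} (hq : 2 ≤ q) (hl : 4 * (q * q) ≤ l) :
    (q : ℝ) - 1 / 4 ≤ sig q (1 - 1 / (l : ℝ)) := by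
  have hl0 : 0 < l := by
    have : 0 < q * q := Nat.mul_pos (by omega) (by omega)
    omega
  have hlR : (0 : ℝ) < l := by exact_mod_cast hl0
  have hlq : (4 : ℝ) * (q * q) ≤ l := by exact_mod_cast hl
  have hq0 : (0 : ℝ) < q := by
    have : 0 < q := by omega
    exact_mod_cast this
  have hqq : (q : ℝ) * (q / l) ≤ 1 / 4 := by
    rw [mul_div_assoc', div_le_iff₀ hlR]
    nlinarith
  have h1 : ∀ j ∈ range q, 1 - (q : ℝ) / l ≤ (1 - 1 / (l : ℝ)) ^ j := by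
    intro j hj
    have hj' : (j : ℝ) ≤ q := by
      exact_mod_cast (Finset.mem_range.1 hj).le
    have h2 : 1 / (l : ℝ) ≤ 2 := by
      have : (1 : ℝ) ≤ l := by
        exact_mod_cast hl0
      rw [div_le_iff₀ hlR]
      linarith
    have h3 := one_add_mul_le_pow (a := -(1 / (l : ℝ))) (by linarith) j
    have h4 : (j : ℝ) * (1 / (l : ℝ)) ≤ (q : ℝ) / l := by
      rw [mul_one_div]
      exact div_le_div_of_nonneg_right hj' hlR.le
    have h5 : (1 + -(1 / (l : ℝ))) = 1 - 1 / (l : ℝ) := by ring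
    rw [h5] at h3
    nlinarith
  unfold sig
  have h2 := Finset.sum_le_sum h1
  simp only [Finset.sum_const, Finset.card_range, nsmul_eq_mul] at h2
  nlinarith

/-- The exponential gain in the weighted count. -/
lemma wcnt_div_sig {K : Type} [Field K] [Fintype K] {l : ℕ}
    (hl : 4 * (Fintype.card K * Fintype.card K) ≤ l) (R₀ b : ℕ) :
    (wcnt K (R₀ + 4 * Fintype.card K * b) b : ℝ) /
        sig (Fintype.card K) (1 - 1 / (l : ℝ)) ^ (R₀ + 4 * Fintype.card K * b) ≤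
      Real.exp (-((R₀ : ℝ) / (4 * Fintype.card K))) * (2 * Real.exp (-1)) ^ b := by
  have hq2 : 2 ≤ Fintype.card K := Fintype.one_lt_card
  set q := Fintype.card K with hq
  have hqR : (2 : ℝ) ≤ q := by exact_mod_cast hq2
  have hs := sig_ge hq2 hl
  set ς := sig q (1 - 1 / (l : ℝ)) with hς
  have hς0 : 0 < ς := by linarith
  have h1 : ((q : ℝ) - 1 / 2) / ς ≤ Real.exp (-(1 / (4 * (q : ℝ)))) := by
    refine le_trans ?_ (Real.one_sub_le_exp_neg _)
    rw [div_le_iff₀ hς0]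
    have h2 : (1 - 1 / (4 * (q : ℝ))) * ((q : ℝ) - 1 / 4) ≤ (1 - 1 / (4 * (q : ℝ))) * ς := by
      refine mul_le_mul_of_nonneg_left hs ?_
      have : 1 / (4 * (q : ℝ)) ≤ 1 := by
        rw [div_le_iff₀ (by positivity)]
        linarith
      linarith
    have h3 : (1 - 1 / (4 * (q : ℝ))) * ((q : ℝ) - 1 / 4) ≥ (q : ℝ) - 1 / 2 := by
      have h4 : (1 / (4 * (q : ℝ))) * (q : ℝ) = 1 / 4 := by
        field_simp
      have h5 : 0 < 1 / (4 * (q : ℝ)) := by positivity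
      nlinarith
    linarith
  have h0 : 0 ≤ ((q : ℝ) - 1 / 2) / ς := by
    apply div_nonneg <;> linarith
  have h2 := wcnt_le (K := K) (R₀ + 4 * q * b) b
  calc (wcnt K (R₀ + 4 * q * b) b : ℝ) / ς ^ (R₀ + 4 * q * b)
      ≤ (2 ^ b * ((q : ℝ) - 1 / 2) ^ (R₀ + 4 * q * b)) / ς ^ (R₀ + 4 * q * b) :=
        div_le_div_of_nonneg_right h2 (by positivity)
    _ = 2 ^ b * (((q : ℝ) - 1 / 2) / ς) ^ (R₀ + 4 * q * b) := by
        rw [div_pow, mul_div_assoc]
    _ ≤ 2 ^ b * (Real.exp (-(1 / (4 * (q : ℝ))))) ^ (R₀ + 4 * q * b) :=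
        mul_le_mul_of_nonneg_left (pow_le_pow_left₀ h0 h1 _) (by positivity)
    _ = Real.exp (-((R₀ : ℝ) / (4 * q))) * (2 * Real.exp (-1)) ^ b := by
        rw [← Real.exp_nat_mul, mul_pow, ← Real.exp_nat_mul]
        have h3 : (q : ℝ) ≠ 0 := by linarith
        have h4 : ((R₀ + 4 * q * b : ℕ) : ℝ) * -(1 / (4 * (q : ℝ))) =
            -((R₀ : ℝ) / (4 * q)) + (b : ℝ) * -1 := by
          push_cast
          field_simp
          ring
        rw [h4, Real.exp_add]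
        ring

lemma sum_geom_two_exp (M : ℕ) :
    ∑ b ∈ range M, (2 * Real.exp (-1)) ^ b ≤ 4 := by
  have h1 : 2 * Real.exp (-1) ≤ 3 / 4 := by
    rw [Real.exp_neg]
    have h2 := Real.exp_one_gt_d9
    have h3 : (Real.exp 1)⁻¹ ≤ 3 / 8 := by
      rw [inv_le_comm₀ (by positivity) (by norm_num)]
      norm_num
      linarith
    linarith
  have h0 : 0 ≤ 2 * Real.exp (-1) := by positivity
  have h2 := geom_sum_Ico_le_of_lt_one (m := 0) (n := M) h0 (by linarith)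
  rw [Finset.range_eq_Ico]
  refine h2.trans ?_
  rw [pow_zero, div_le_iff₀ (by linarith)]
  linarith

end sigBound

end Vale.Agent.Lib.P346
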