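import Mathlib

/-!
Low degree functions on `K^ι` for a finite field `K`.
-/

noncomputable section

open MvPolynomial Finset

namespace Vale.Agent.Lib.P346

section VVdef

variable (K : Type) [Field K] (ι : Type)

/-- Functions `K^ι → K` given by polynomials of total degree at most `d`. -/
def VV (d : ℕ) : Submodule K ((ι → K) → K) where
  carrier := {f | ∃ p : MvPolynomial ι K, p.totalDegree ≤ d ∧ ∀ x, f x = eval x p}
  add_mem' := by
    rintro f g ⟨p, hp, hf⟩ ⟨r, hr, hg⟩
    exact ⟨p + r, (totalDegree_add _ _).trans (max_le hp hr), fun x => by simp [hf, hg]⟩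
  zero_mem' := ⟨0, by simp, fun x => by simp⟩
  smul_mem' := by
    rintro c f ⟨p, hp, hf⟩
    refine ⟨C c * p, (totalDegree_mul _ _).trans (by simpa using hp), fun x => by simp [hf]⟩

end VVdef

section basic

variable {K : Type} [Field K] {ι : Type}

lemma mem_VV {d : ℕ} {f : (ι → K) → K} :
    f ∈ VV K ι d ↔ ∃ p : MvPolynomial ι K, p.totalDegree ≤ d ∧ ∀ x, f x = eval x p := Iff.rfl

lemma VV_mono {a b : ℕ} (h : a ≤ b) : VV K ι a ≤ VV K ι b := by
  rintro f ⟨p, hp, hf⟩
  exact ⟨p, hp.trans h, hf⟩

lemma const_mem_VV (c : K) (d : ℕ) : (fun _ => c) ∈ VV K ι d :=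
  ⟨C c, by simp, fun x => by simp⟩

lemma one_mem_VV (d : ℕ) : (1 : (ι → K) → K) ∈ VV K ι d :=
  ⟨1, by simp, fun x => by simp⟩

lemma coord_mem_VV (i : ι) : (fun x : ι → K => x i) ∈ VV K ι 1 :=
  ⟨X i, by simp, fun x => by simp⟩

lemma mul_mem_VV {a b : ℕ} {f g : (ι → K) → K} (hf : f ∈ VV K ι a) (hg : g ∈ VV K ι b) :
    (fun x => f x * g x) ∈ VV K ι (a + b) := by
  obtain ⟨p, hp, hf⟩ := hf
  obtain ⟨r, hr, hg⟩ := hg
  exact ⟨p * r, (totalDegree_mul _ _).trans (add_le_add hp hr), fun x => by simp [hf, hg]⟩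

lemma pow_mem_VV {a : ℕ} {f : (ι → K) → K} (hf : f ∈ VV K ι a) (e : ℕ) :
    (fun x => f x ^ e) ∈ VV K ι (e * a) := by
  induction e with
  | zero => simpa using const_mem_VV (K := K) (ι := ι) 1 0
  | succ e ih =>
    have := mul_mem_VV ih hf
    have h2 : (e + 1) * a = e * a + a := by ring
    rw [h2]
    simpa [pow_succ] using this

lemma prod_mem_VV {τ : Type} (s : Finset τ) {d : τ → ℕ} {f : τ → (ι → K) → K}
    (hf : ∀ i ∈ s, f i ∈ VV K ι (d i)) :
    (fun x => ∏ i ∈ s, f i x) ∈ VV K ι (∑ i ∈ s, d i) := by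
  classical
  induction s using Finset.induction_on with
  | empty => simpa using const_mem_VV (K := K) (ι := ι) 1 0
  | insert a s ha ih =>
    have h1 := ih (fun i hi => hf i (mem_insert_of_mem hi))
    have h2 := mul_mem_VV (hf a (mem_insert_self a s)) h1
    simpa [prod_insert ha, sum_insert ha] using h2

lemma sum_mem_VV {τ : Type} (s : Finset τ) {d : ℕ} {f : τ → (ι → K) → K}
    (hf : ∀ i ∈ s, f i ∈ VV K ι d) :
    (fun x => ∑ i ∈ s, f i x) ∈ VV K ι d := by
  have := Submodule.sum_mem (VV K ι d) hf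
  convert this using 1
  ext x
  simp [Finset.sum_apply]

lemma add_mem_VV {d : ℕ} {f g : (ι → K) → K} (hf : f ∈ VV K ι d) (hg : g ∈ VV K ι d) :
    (fun x => f x + g x) ∈ VV K ι d :=
  Submodule.add_mem _ hf hg

lemma cmul_mem_VV {d : ℕ} {f : (ι → K) → K} (c : K) (hf : f ∈ VV K ι d) :
    (fun x => c * f x) ∈ VV K ι d := by
  have := Submodule.smul_mem _ c hf
  simpa [Pi.smul_def] using this

/-- An affine form has degree at most one. -/
lemma aff_mem_VV [Fintype ι] (a : ι → K) (c : K) :
    (fun x : ι → K => ∑ i, a i * x i + c) ∈ VV K ι 1 := by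
  refine add_mem_VV (sum_mem_VV _ fun i _ => cmul_mem_VV _ (coord_mem_VV i)) (const_mem_VV _ _)

/-- Composition with an affine map does not raise the degree. -/
lemma comp_mem_VV [Fintype ι] {κ : Type} {d : ℕ} {T : (κ → K) → (ι → K)}
    (hT : ∀ i, (fun y => T y i) ∈ VV K κ 1) {f : (ι → K) → K} (hf : f ∈ VV K ι d) :
    (fun y => f (T y)) ∈ VV K κ d := by
  obtain ⟨p, hp, hf⟩ := hf
  have key : ∀ y, f (T y) = ∑ m ∈ p.support, coeff m p * ∏ i, T y i ^ m i := by
    intro y
    rw [hf, eval_eq']
  have : (fun y => f (T y)) = fun y => ∑ m ∈ p.support, coeff m p * ∏ i, T y i ^ m i :=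
    funext key
  rw [this]
  refine sum_mem_VV _ fun m hm => cmul_mem_VV _ ?_
  have h1 := prod_mem_VV (univ : Finset ι) (d := fun i => m i * 1)
    (f := fun i y => T y i ^ m i) (fun i _ => pow_mem_VV (hT i) (m i))
  refine VV_mono ?_ h1
  have h2 := le_totalDegree hm
  rw [Finsupp.sum_fintype _ _ (fun _ => rfl)] at h2
  simpa using h2.trans hp

end basic

section finite

variable {K : Type} [Field K] [Fintype K] {ι : Type} [Fintype ι]

/-- Reduction of exponents: `x^e = x^{e'}` on `K` with `e' < q`, `e' ≤ e`. -/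
lemma exists_reduced_exp (e : ℕ) :
    ∃ e', e' < Fintype.card K ∧ e' ≤ e ∧ ∀ x : K, x ^ e = x ^ e' := by
  induction e using Nat.strong_induction_on with
  | _ e ih =>
    have hq : 1 < Fintype.card K := Fintype.one_lt_card
    by_cases he : e < Fintype.card K
    · exact ⟨e, he, le_rfl, fun _ => rfl⟩
    · push Not at he
      obtain ⟨e', h1, h2, h3⟩ := ih (e - (Fintype.card K - 1)) (by omega)
      refine ⟨e', h1, by omega, fun x => ?_⟩
      rw [← h3]
      have h4 : e = Fintype.card K + (e - Fintype.card K) := by omega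
      have h5 : e - (Fintype.card K - 1) = 1 + (e - Fintype.card K) := by omega
      rw [h5, pow_add x 1, pow_one]
      conv_lhs => rw [h4, pow_add, FiniteField.pow_card]

variable (K ι) in
/-- Degree of an exponent vector. -/
def dg (E : ι → Fin (Fintype.card K)) : ℕ := ∑ i, (E i : ℕ)

/-- Monomial function of an exponent vector. -/
def mono (E : ι → Fin (Fintype.card K)) (x : ι → K) : K := ∏ i, x i ^ (E i : ℕ)

variable (K ι) in
/-- Number of exponent vectors of degree at most `d`. -/
def cnt (d : ℕ) : ℕ :=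
  by classical exact (univ.filter fun E : ι → Fin (Fintype.card K) => dg K ι E ≤ d).card

lemma mono_mem_VV (E : ι → Fin (Fintype.card K)) : mono E ∈ VV K ι (dg K ι E) := by
  have h1 := prod_mem_VV (univ : Finset ι) (d := fun i => (E i : ℕ) * 1)
    (f := fun i (x : ι → K) => x i ^ (E i : ℕ)) (fun i _ => pow_mem_VV (coord_mem_VV i) _)
  have h2 : mono E = fun x => ∏ i, x i ^ (E i : ℕ) := rfl
  rw [h2]
  simpa [dg] using h1

lemma VV_le_span (d : ℕ) :
    VV K ι d ≤ Submodule.span K (mono '' {E | dg K ι E ≤ d}) := by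
  classical
  rintro f ⟨p, hp, hf⟩
  have key : f = fun x => ∑ m ∈ p.support, coeff m p * ∏ i, x i ^ m i := by
    funext x
    rw [hf, eval_eq']
  rw [key]
  have h0 : ∀ m ∈ p.support,
      (fun x : ι → K => coeff m p * ∏ i, x i ^ m i) ∈
        Submodule.span K (mono '' {E | dg K ι E ≤ d}) := by
    intro m hm
    choose r hr1 hr2 hr3 using fun e : ℕ => exists_reduced_exp (K := K) e
    let E : ι → Fin (Fintype.card K) := fun i => ⟨r (m i), hr1 _⟩
    have hE : dg K ι E ≤ d := by
      have h2 := le_totalDegree hm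
      rw [Finsupp.sum_fintype _ _ (fun _ => rfl)] at h2
      refine le_trans ?_ (h2.trans hp)
      exact Finset.sum_le_sum fun i _ => hr2 _
    have h3 : (fun x : ι → K => coeff m p * ∏ i, x i ^ m i) = coeff m p • mono E := by
      funext x
      simp only [Pi.smul_apply, smul_eq_mul, mono, E]
      congr 1
      exact Finset.prod_congr rfl fun i _ => hr3 _ _
    rw [h3]
    exact Submodule.smul_mem _ _ (Submodule.subset_span ⟨E, hE, rfl⟩)
  have := Submodule.sum_mem _ h0
  convert this using 1
  ext x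
  simp [Finset.sum_apply]

instance instFiniteFnSpace : Module.Finite K ((ι → K) → K) := by
  classical
  infer_instance

lemma finrank_VV_le (d : ℕ) : Module.finrank K (VV K ι d) ≤ cnt K ι d := by
  classical
  have h1 := Submodule.finrank_mono (VV_le_span (K := K) (ι := ι) d)
  refine h1.trans ?_
  have h2 : (mono '' {E | dg K ι E ≤ d} : Set ((ι → K) → K)) =
      ↑((univ.filter fun E : ι → Fin (Fintype.card K) => dg K ι E ≤ d).image mono) := by
    ext f
    simp
  rw [h2]
  refine (finrank_span_finset_le_card _).trans ?_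
  refine Finset.card_image_le.trans ?_
  simp [cnt]

/-- A function factoring through `r` functions of degree one has degree at most `(q-1) r`. -/
lemma mem_VV_of_factor {r : ℕ} (T : (ι → K) → Fin r → K)
    (hT : ∀ h, (fun x => T x h) ∈ VV K ι 1) (g : (ι → K) → K)
    (hg : ∀ x x', T x = T x' → g x = g x') :
    g ∈ VV K ι ((Fintype.card K - 1) * r) := by
  classical
  let c : (Fin r → K) → K := fun z => if h : ∃ x, T x = z then g h.choose else 0
  have hq : 0 < Fintype.card K - 1 := tsub_pos_of_lt Fintype.one_lt_card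
  have key : g = fun x => ∑ z, c z * ∏ h, (1 - (T x h - z h) ^ (Fintype.card K - 1)) := by
    funext x
    rw [Finset.sum_eq_single (T x)]
    · have h1 : c (T x) = g x := by
        have h0 : ∃ x', T x' = T x := ⟨x, rfl⟩
        simp only [c, dif_pos h0]
        exact hg _ _ h0.choose_spec
      rw [h1]
      simp [zero_pow hq.ne']
    · intro z _ hz
      obtain ⟨i, hi⟩ : ∃ i, T x i ≠ z i := by
        by_contra hcon
        push Not at hcon
        exact hz (funext fun i => (hcon i).symm)
      have h2 : (1 - (T x i - z i) ^ (Fintype.card K - 1)) = 0 := by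
        rw [FiniteField.pow_card_sub_one_eq_one _ (sub_ne_zero.mpr hi), sub_self]
      rw [Finset.prod_eq_zero (Finset.mem_univ i) h2, mul_zero]
    · simp
  rw [key]
  refine sum_mem_VV _ fun z _ => cmul_mem_VV _ ?_
  have h1 := prod_mem_VV (univ : Finset (Fin r)) (d := fun _ => Fintype.card K - 1)
    (f := fun h x => 1 - (T x h - z h) ^ (Fintype.card K - 1)) (fun h _ => by
      have h2 : (fun x => T x h - z h) ∈ VV K ι 1 := by
        have := Submodule.sub_mem _ (hT h) (const_mem_VV (K := K) (ι := ι) (z h) 1)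
        simpa [Pi.sub_def] using this
      have h3 := pow_mem_VV h2 (Fintype.card K - 1)
      have h4 : (fun x => 1 - (T x h - z h) ^ (Fintype.card K - 1)) =
          (1 : (ι → K) → K) - fun x => (T x h - z h) ^ (Fintype.card K - 1) := by
        funext x; simp
      rw [h4]
      refine Submodule.sub_mem _ (one_mem_VV _) ?_
      simpa using h3)
  simpa [mul_comm] using h1

/-- Covering bound for a subspace of `VV`. -/
lemma finrank_le_sum_of_cover {α : Type} [Fintype α] (N : α → ℕ)
    (ψ : ∀ a, (Fin (N a) → K) → (ι → K)) (hψ : ∀ a i, (fun y => ψ a y i) ∈ VV K (Fin (N a)) 1)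
    (e : ℕ) (W : Submodule K ((ι → K) → K)) (hW : W ≤ VV K ι e)
    (hinj : ∀ h ∈ W, (∀ a y, h (ψ a y) = 0) → h = 0) :
    Module.finrank K W ≤ ∑ a, cnt K (Fin (N a)) e := by
  classical
  let Φ : W →ₗ[K] ∀ a, VV K (Fin (N a)) e :=
    LinearMap.pi fun a =>
      LinearMap.codRestrict _ ((LinearMap.funLeft K K (ψ a)).comp W.subtype) (fun h => by
        exact comp_mem_VV (hψ a) (hW h.2))
  have hΦ : Function.Injective Φ := by
    rw [← LinearMap.ker_eq_bot, LinearMap.ker_eq_bot']
    intro h hh
    apply Subtype.ext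
    refine hinj h.1 h.2 fun a y => ?_
    have := congrArg (fun t => ((t a : VV K (Fin (N a)) e) : (Fin (N a) → K) → K) y) hh
    simpa [Φ, LinearMap.funLeft] using this
  have h1 := LinearMap.finrank_le_finrank_of_injective hΦ
  rw [Module.finrank_pi_fintype] at h1
  exact h1.trans (Finset.sum_le_sum fun a _ => finrank_VV_le _)

/-- Any linear functional on `K^κ` has degree at most one. -/
lemma linear_mem_VV {κ : Type} [Fintype κ] (l : (κ → K) →ₗ[K] K) :
    (fun y => l y) ∈ VV K κ 1 := by
  classical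
  have : (fun y => l y) = fun y : κ → K => ∑ i, (l fun j => if i = j then 1 else 0) * y i + 0 := by
    funext y
    rw [add_zero, LinearMap.pi_apply_eq_sum_univ l y]
    simp [mul_comm, smul_eq_mul]
  rw [this]
  exact aff_mem_VV _ _

/-- A fibre of `R` independent affine forms is an affine image of `K^{N-R}`. -/
lemma fiber_param {R : ℕ} (A : Matrix (Fin R) ι K) (hA : LinearIndependent K A.row)
    (c z : Fin R → K) :
    ∃ ψ : (Fin (Fintype.card ι - R) → K) → (ι → K),
      (∀ i, (fun y => ψ y i) ∈ VV K (Fin (Fintype.card ι - R)) 1) ∧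
      ∀ x, (∀ h, ∑ i, A h i * x i + c h = z h) → ∃ y, ψ y = x := by
  classical
  let T : (ι → K) →ₗ[K] (Fin R → K) := A.mulVecLin
  have hrank : Module.finrank K (LinearMap.range T) = R := by
    have := hA.rank_matrix
    simpa [Matrix.rank, T] using this
  have hsurj : LinearMap.range T = ⊤ := by
    apply Submodule.eq_top_of_finrank_eq
    simpa using hrank
  have hker : Module.finrank K (LinearMap.ker T) = Fintype.card ι - R := by
    have h1 := LinearMap.finrank_range_add_finrank_ker T
    rw [hrank] at h1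
    simp at h1
    omega
  have hcard : Module.finrank K (Fin (Fintype.card ι - R) → K) =
      Module.finrank K (LinearMap.ker T) := by
    rw [hker]; simp
  let e : (Fin (Fintype.card ι - R) → K) ≃ₗ[K] LinearMap.ker T := LinearEquiv.ofFinrankEq _ _ hcard
  obtain ⟨x₀, hx₀⟩ : ∃ x₀, T x₀ = z - c := by
    have : z - c ∈ LinearMap.range T := by rw [hsurj]; trivial
    exact this
  refine ⟨fun y => x₀ + (e y : ι → K), fun i => ?_, fun x hx => ?_⟩
  · let l : (Fin (Fintype.card ι - R) → K) →ₗ[K] K :=
      (LinearMap.proj i).comp ((LinearMap.ker T).subtype.comp e.toLinearMap)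
    have h1 := add_mem_VV (const_mem_VV (K := K) (x₀ i) 1) (linear_mem_VV l)
    simpa [l] using h1
  · have h2 : T x = z - c := by
      funext h
      have := hx h
      simp only [T, Matrix.mulVecLin_apply, Pi.sub_apply, Matrix.mulVec, dotProduct]
      rw [eq_sub_iff_add_eq]
      exact this
    have h3 : x - x₀ ∈ LinearMap.ker T := by
      rw [LinearMap.mem_ker, map_sub, h2, hx₀, sub_self]
    refine ⟨e.symm ⟨x - x₀, h3⟩, ?_⟩
    simp

end finite

end Vale.Agent.Lib.P346
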