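import Vale.Agent.Lib.P346.Defs

/-!
Syntactic homogeneity of five-layer circuits.
-/

namespace Vale.Agent.Lib.P346

namespace SPSPSCircuit

variable {K : Type} [Field K] {V : Type}

/-- Formal degree of a leaf: variables have degree one, field elements degree zero. -/
def leafDeg (D : SPSPSCircuit K V) (l : D.Leaf) : ℕ :=
  match D.leaf l with
  | Sum.inl _ => 1
  | Sum.inr _ => 0

/-- Syntactic homogeneity: there are formal degrees for the gates such that leaves have their
formal degree, product gates add the degrees of their inputs with multiplicity, and all inputs of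
a sum gate (the gates with nonzero coefficient) have the degree of that sum gate. -/
def IsSynHomogeneous (D : SPSPSCircuit K V) : Prop :=
  ∃ (d1 : D.S1 → ℕ) (d2 : D.P2 → ℕ) (d3 : D.S3 → ℕ) (d4 : D.P4 → ℕ) (d5 : ℕ),
    (∀ i l, D.a1 i l ≠ 0 → d1 i = D.leafDeg l) ∧
    (∀ i, d2 i = ∑ j, D.m2 i j * d1 j) ∧
    (∀ i j, D.a3 i j ≠ 0 → d3 i = d2 j) ∧
    (∀ i, d4 i = ∑ j, D.m4 i j * d3 j) ∧
    (∀ i, D.a5 i ≠ 0 → d4 i = d5)

end SPSPSCircuit

end Vale.Agent.Lib.P346
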