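import Vale.Agent.Lib.P346.ProdBound

/-!
Homogeneity of `IMM` and of syntactically homogeneous circuits.
-/

noncomputable section

open MvPolynomial Finset

set_option linter.unusedSectionVars false
set_option linter.unusedSimpArgs false
set_option linter.unusedVariables false

namespace Vale.Agent.Lib.P346

section imm

variable {K : Type} [Field K] {n : ℕ}

/-- The generic layer matrices, indexed by natural numbers. -/
def genA (K : Type) [Field K] (n p : ℕ) : Matrix (Fin n) (Fin n) (MvPolynomial (ImmVar n n) K) :=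
  if h : p < n then immMatrix K n n ⟨p, h⟩ else 1

lemma imm_eq_prd (hn : 0 < n) : imm K n n hn = (prd (genA K n) 0 n) ⟨0, hn⟩ ⟨0, hn⟩ := by
  unfold imm
  rw [← prd_ofFn]
  have h : immMatrix K n n = fun k : Fin n => genA K n (0 + (k : ℕ)) := by
    funext k
    simp [genA]
  rw [h]

lemma prd_genA_homogeneous (s len : ℕ) (h : s + len ≤ n) (a b : Fin n) :
    ((prd (genA K n) s len) a b).IsHomogeneous len := by
  induction len generalizing s a with
  | zero =>
    simp only [prd_zero, Matrix.one_apply]
    split_ifs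
    · exact isHomogeneous_one _ _
    · exact isHomogeneous_zero _ _ _
  | succ len ih =>
    rw [prd_succ, Matrix.mul_apply]
    refine IsHomogeneous.sum _ _ _ fun c _ => ?_
    have h1 : s < n := by omega
    have h2 : genA K n s a c = X (⟨s, h1⟩, a, c) := by
      simp [genA, h1, immMatrix]
    rw [h2, add_comm len 1]
    exact (isHomogeneous_X _ _).mul (ih (s + 1) (by omega) c)

lemma imm_homogeneous (hn : 0 < n) : (imm K n n hn).IsHomogeneous n := by
  rw [imm_eq_prd]
  exact prd_genA_homogeneous 0 n (by omega) _ _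

lemma imm_ne_zero (hn : 0 < n) : imm K n n hn ≠ 0 := by
  classical
  have key : ∀ (s len : ℕ), s + len ≤ n →
      eval (fun v : ImmVar n n => if v.2.1 = ⟨0, hn⟩ ∧ v.2.2 = ⟨0, hn⟩ then (1 : K) else 0)
        ((prd (genA K n) s len) ⟨0, hn⟩ ⟨0, hn⟩) = 1 := by
    intro s len
    induction len generalizing s with
    | zero =>
      intro _
      simp [Matrix.one_apply]
    | succ len ih =>
      intro h
      rw [prd_succ, Matrix.mul_apply, map_sum, Finset.sum_eq_single ⟨0, hn⟩]
      · have h1 : s < n := by omega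
        have h2 : genA K n s ⟨0, hn⟩ ⟨0, hn⟩ = X (⟨s, h1⟩, ⟨0, hn⟩, ⟨0, hn⟩) := by
          simp [genA, h1, immMatrix]
        rw [map_mul, h2, eval_X, ih (s + 1) (by omega)]
        simp
      · intro c _ hc
        have h1 : s < n := by omega
        have h2 : genA K n s ⟨0, hn⟩ c = X (⟨s, h1⟩, ⟨0, hn⟩, c) := by
          simp [genA, h1, immMatrix]
        rw [map_mul, h2, eval_X]
        simp [hc]
      · simp
  intro h0
  have h1 := key 0 n (by omega)
  rw [← imm_eq_prd, h0] at h1
  simp at h1

end imm

section circ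

variable {K : Type} [Field K] {W : Type}

lemma leafPoly_homogeneous (D : SPSPSCircuit K W) (l : D.Leaf) :
    (D.leafPoly l).IsHomogeneous (D.leafDeg l) := by
  unfold SPSPSCircuit.leafPoly SPSPSCircuit.leafDeg
  cases D.leaf l with
  | inl v => exact isHomogeneous_X _ _
  | inr a => exact isHomogeneous_C _ _

/-- A syntactically homogeneous circuit computing `IMM_{n,n}` has top degree `n`. -/
theorem exists_degs {n : ℕ} (hn : 0 < n) (D : SPSPSCircuit K (ImmVar n n))
    (hom : D.IsSynHomogeneous) (hD : D.output = imm K n n hn) : Nonempty (Degs D n) := by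
  obtain ⟨d1, d2, d3, d4, d5, h1, h2, h3, h4, h5⟩ := hom
  have hp1 : ∀ j, (D.poly1 j).IsHomogeneous (d1 j) := by
    intro j
    refine IsHomogeneous.sum _ _ _ fun l _ => ?_
    by_cases ha : D.a1 j l = 0
    · rw [ha, map_zero, zero_mul]
      exact isHomogeneous_zero _ _ _
    · rw [h1 j l ha]
      have := (isHomogeneous_C (ImmVar n n) (D.a1 j l)).mul (leafPoly_homogeneous D l)
      simpa using this
  have hp2 : ∀ i, (D.poly2 i).IsHomogeneous (d2 i) := by
    intro i
    rw [h2 i]
    refine IsHomogeneous.prod _ _ _ fun j _ => ?_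
    rw [mul_comm]
    exact (hp1 j).pow _
  have hp3 : ∀ j, (D.poly3 j).IsHomogeneous (d3 j) := by
    intro j
    refine IsHomogeneous.sum _ _ _ fun i _ => ?_
    by_cases ha : D.a3 j i = 0
    · rw [ha, map_zero, zero_mul]
      exact isHomogeneous_zero _ _ _
    · rw [h3 j i ha]
      have := (isHomogeneous_C (ImmVar n n) (D.a3 j i)).mul (hp2 i)
      simpa using this
  have hp4 : ∀ i, (D.poly4 i).IsHomogeneous (d4 i) := by
    intro i
    rw [h4 i]
    refine IsHomogeneous.prod _ _ _ fun j _ => ?_
    rw [mul_comm]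
    exact (hp3 j).pow _
  have hp5 : D.output.IsHomogeneous d5 := by
    refine IsHomogeneous.sum _ _ _ fun i _ => ?_
    by_cases ha : D.a5 i = 0
    · rw [ha, map_zero, zero_mul]
      exact isHomogeneous_zero _ _ _
    · rw [← h5 i ha]
      have := (isHomogeneous_C (ImmVar n n) (D.a5 i)).mul (hp4 i)
      simpa using this
  rw [hD] at hp5
  have hd5 : d5 = n := hp5.inj_right (imm_homogeneous hn) (imm_ne_zero hn)
  exact ⟨⟨d1, d2, d3, h1, h2, h3, fun i ha => by rw [← h4 i, h5 i ha, hd5]⟩⟩

end circ

end Vale.Agent.Lib.P346
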