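import Vale.Agent.Lib.P346.CircuitDecomp

/-!
Evaluation of `IMM_{n,n}` under a substitution with cut layers, segment layers and padding.
-/

noncomputable section

open MvPolynomial Finset

set_option linter.unusedSectionVars false
set_option linter.unusedSimpArgs false
set_option linter.unusedVariables false

namespace Vale.Agent.Lib.P346

section prd

variable {M : Type} [Monoid M]

/-- Ordered product `A s * A (s+1) * ... * A (s+len-1)`. -/
def prd (A : ℕ → M) : ℕ → ℕ → M
  | _, 0 => 1
  | s, (len + 1) => A s * prd A (s + 1) len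

@[simp] lemma prd_zero (A : ℕ → M) (s : ℕ) : prd A s 0 = 1 := rfl

lemma prd_succ (A : ℕ → M) (s len : ℕ) : prd A s (len + 1) = A s * prd A (s + 1) len := rfl

lemma prd_add (A : ℕ → M) (s a b : ℕ) : prd A s (a + b) = prd A s a * prd A (s + a) b := by
  induction a generalizing s with
  | zero => simp
  | succ a ih =>
    have h1 : a + 1 + b = (a + b) + 1 := by ring
    rw [h1, prd_succ, prd_succ, ih, mul_assoc]
    congr 3
    ring

lemma prd_succ_right (A : ℕ → M) (s len : ℕ) : prd A s (len + 1) = prd A s len * A (s + len) := by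
  rw [prd_add]
  simp [prd_succ]

lemma prd_ofFn (A : ℕ → M) (s n : ℕ) : (List.ofFn fun k : Fin n => A (s + k)).prod = prd A s n := by
  induction n generalizing s with
  | zero => simp
  | succ n ih =>
    rw [List.ofFn_succ, List.prod_cons, prd_succ, ← ih]
    simp only [Fin.val_zero, add_zero, Fin.val_succ]
    congr 3
    funext k
    congr 1
    ring

lemma prd_congr {A A' : ℕ → M} (s len : ℕ) (h : ∀ p, s ≤ p → p < s + len → A p = A' p) :
    prd A s len = prd A' s len := by
  induction len generalizing s with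
  | zero => rfl
  | succ len ih =>
    rw [prd_succ, prd_succ, h s le_rfl (by omega)]
    rw [ih (s + 1) fun p h1 h2 => h p (by omega) (by omega)]

lemma prd_const_one (s len : ℕ) : prd (fun _ => (1 : M)) s len = 1 := by
  induction len generalizing s with
  | zero => rfl
  | succ len ih => rw [prd_succ, ih, one_mul]

lemma map_prd {M' : Type} [Monoid M'] (f : M →* M') (A : ℕ → M) (s len : ℕ) :
    f (prd A s len) = prd (fun p => f (A p)) s len := by
  induction len generalizing s with
  | zero => simp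
  | succ len ih => rw [prd_succ, prd_succ, map_mul, ih]

end prd

section prodX

variable {K : Type} [Field K] {J : Type} [DecidableEq J]

lemma prod_X_eq_monomial (s : Finset J) :
    ∏ j ∈ s, (X j : MvPolynomial J K) = monomial (ind s) 1 := by
  induction s using Finset.induction_on with
  | empty => simp [ind_empty]
  | insert a s ha ih =>
    have h0 : Finsupp.single a 1 + ind s = ind (insert a s) := by
      ext j
      simp only [Finsupp.add_apply, ind_apply, Finsupp.single_apply, Finset.mem_insert]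
      by_cases h1 : a = j
      · subst h1
        simp [ha]
      · have h2 : j ≠ a := fun h => h1 h.symm
        simp [h1, h2]
    rw [Finset.prod_insert ha, ih, X, monomial_mul, one_mul, h0]

lemma cf_C_mul_prod_X [Fintype J] (a : K) :
    cf univ (C a * ∏ j : J, (X j : MvPolynomial J K)) = a := by
  rw [cf_C_mul, prod_X_eq_monomial, cf, coeff_monomial, if_pos rfl, mul_one]

end prodX

section subst

variable {K : Type} [Field K] {ι : Type} [Fintype ι] {n Ks Lg : ℕ}

/-- Values of the substitution on the variables of `IMM_{n,n}`: cut layers give `0`, segment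
layers read the matrices `M`, remaining layers are identity matrices. -/
def sigmaSub (Ks Lg : ℕ) (M : (ι → K) → ℕ → ℕ → Matrix (Fin n) (Fin n) K)
    (v : ImmVar n n) (x : ι → K) : K :=
  if v.1.val < Ks * (Lg + 1) + 1 then
    if v.1.val % (Lg + 1) = 0 then 0
    else M x (v.1.val / (Lg + 1)) (v.1.val % (Lg + 1) - 1) v.2.1 v.2.2
  else if v.2.1 = v.2.2 then 1 else 0

/-- Cut data: variable `v` is sent to the cut variable `j` exactly if it is the selected edge of
cut layer `j`. -/
def cutSub (Ks Lg : ℕ) (u vv : ℕ → Fin n) (w : ImmVar n n) (j : Fin (Ks + 1)) : K :=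
  if w.1.val = j.val * (Lg + 1) ∧ w.2.1 = u j.val ∧ w.2.2 = vv j.val then 1 else 0

variable (M : (ι → K) → ℕ → ℕ → Matrix (Fin n) (Fin n) K) (u vv : ℕ → Fin n) (x : ι → K)

/-- The matrix at layer `p` after the substitution. -/
def matA (Ks Lg : ℕ) (p : ℕ) : Matrix (Fin n) (Fin n) (MvPolynomial (Fin (Ks + 1)) K) :=
  if h : p < n then
    (immMatrix K n n ⟨p, h⟩).map
      (rho (sigmaSub Ks Lg M) (cutSub Ks Lg u vv) x)
  else 1

lemma matA_apply {p : ℕ} (h : p < n) (a b : Fin n) :
    matA M u vv x Ks Lg p a b =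
      C (sigmaSub Ks Lg M (⟨p, h⟩, a, b) x) +
        ∑ j, C (cutSub Ks Lg u vv (⟨p, h⟩, a, b) j) * X j := by
  simp [matA, h, immMatrix, rho]

lemma matA_cut {j : ℕ} (hj : j < Ks + 1) (h : j * (Lg + 1) < n) (a b : Fin n) :
    matA M u vv x Ks Lg (j * (Lg + 1)) a b =
      if a = u j ∧ b = vv j then X ⟨j, hj⟩ else 0 := by
  rw [matA_apply M u vv x h]
  have h1 : j * (Lg + 1) < Ks * (Lg + 1) + 1 := by
    have : j * (Lg + 1) ≤ Ks * (Lg + 1) := Nat.mul_le_mul_right _ (by omega)
    omega
  have h2 : sigmaSub Ks Lg M (⟨j * (Lg + 1), h⟩, a, b) x = 0 := by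
    simp [sigmaSub, h1]
  rw [h2]
  simp only [map_zero, zero_add]
  rw [Finset.sum_eq_single (⟨j, hj⟩ : Fin (Ks + 1))]
  · by_cases h3 : a = u j ∧ b = vv j
    · simp [cutSub, h3]
    · have h4 : ¬ (a = u j ∧ b = vv j) := h3
      simp only [cutSub, h3, if_false]
      simp [h4]
  · intro i _ hi
    have h3 : j * (Lg + 1) ≠ i.val * (Lg + 1) := by
      intro h4
      apply hi
      apply Fin.ext
      exact (Nat.eq_of_mul_eq_mul_right (by omega) h4).symm
    simp [cutSub, h3]
  · simp

lemma matA_seg {j l : ℕ} (hj : j < Ks) (hl : l < Lg) (h : j * (Lg + 1) + 1 + l < n) :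
    matA M u vv x Ks Lg (j * (Lg + 1) + 1 + l) = (M x j l).map C := by
  ext1 a b
  rw [matA_apply M u vv x h]
  have h0 : j * (Lg + 1) + 1 + l = (l + 1) + (Lg + 1) * j := by ring
  have h1 : j * (Lg + 1) + 1 + l < Ks * (Lg + 1) + 1 := by
    have : (j + 1) * (Lg + 1) ≤ Ks * (Lg + 1) := Nat.mul_le_mul_right _ (by omega)
    nlinarith
  have h2 : (j * (Lg + 1) + 1 + l) % (Lg + 1) = l + 1 := by
    rw [h0, Nat.add_mul_mod_self_left, Nat.mod_eq_of_lt (by omega)]
  have h3 : (j * (Lg + 1) + 1 + l) / (Lg + 1) = j := by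
    rw [h0, Nat.add_mul_div_left _ _ (by omega), Nat.div_eq_of_lt (by omega), zero_add]
  have h4 : sigmaSub Ks Lg M (⟨j * (Lg + 1) + 1 + l, h⟩, a, b) x = M x j l a b := by
    simp only [sigmaSub, h1, if_true]
    rw [h2, h3]
    simp
  have h5 : ∀ i : Fin (Ks + 1),
      cutSub (K := K) Ks Lg u vv (⟨j * (Lg + 1) + 1 + l, h⟩, a, b) i = 0 := by
    intro i
    have h6 : j * (Lg + 1) + 1 + l ≠ i.val * (Lg + 1) := by
      intro h7
      have h8 : (i.val * (Lg + 1)) % (Lg + 1) = 0 := Nat.mul_mod_left _ _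
      rw [← h7, h2] at h8
      omega
    simp [cutSub, h6]
  rw [h4]
  simp [h5]

lemma matA_pad {p : ℕ} (hp : Ks * (Lg + 1) < p) : matA M u vv x Ks Lg p = 1 := by
  by_cases h : p < n
  · ext1 a b
    rw [matA_apply M u vv x h]
    have h1 : ¬ p < Ks * (Lg + 1) + 1 := by omega
    have h5 : ∀ i : Fin (Ks + 1),
        cutSub (K := K) Ks Lg u vv (⟨p, h⟩, a, b) i = 0 := by
      intro i
      have h6 : p ≠ i.val * (Lg + 1) := by
        have : i.val * (Lg + 1) ≤ Ks * (Lg + 1) := Nat.mul_le_mul_right _ (by omega)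
        omega
      simp [cutSub, h6]
    simp only [h5, sigmaSub, h1, if_false]
    by_cases hab : a = b
    · simp [hab, Matrix.one_apply]
    · simp [hab, Matrix.one_apply]
  · simp [matA, h]

lemma rho_imm (hn : 0 < n) :
    rho (sigmaSub Ks Lg M) (cutSub Ks Lg u vv) x (imm K n n hn) =
      (prd (matA M u vv x Ks Lg) 0 n) ⟨0, hn⟩ ⟨0, hn⟩ := by
  let f := (rho (sigmaSub Ks Lg M) (cutSub Ks Lg u vv) x).toRingHom.mapMatrix (m := Fin n)
  have h1 : rho (sigmaSub Ks Lg M) (cutSub Ks Lg u vv) x (imm K n n hn) =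
      (f (List.ofFn (immMatrix K n n)).prod) ⟨0, hn⟩ ⟨0, hn⟩ := rfl
  rw [h1, map_list_prod, List.map_ofFn]
  have h2 : (⇑f ∘ immMatrix K n n) = fun k : Fin n => matA M u vv x Ks Lg (0 + k) := by
    funext k
    simp only [Function.comp, zero_add]
    rw [matA, dif_pos k.2]
    rfl
  rw [h2, prd_ofFn]

/-- Entries of the product of the segment blocks. -/
def segVal (M : (ι → K) → ℕ → ℕ → Matrix (Fin n) (Fin n) K) (Lg : ℕ) (u vv : ℕ → Fin n)
    (x : ι → K) (j : ℕ) : K :=
  (prd (M x j) 0 Lg) (vv j) (u (j + 1))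

lemma prd_seg {j : ℕ} (hj : j < Ks) (hsize : Ks * (Lg + 1) + 1 ≤ n) :
    prd (matA M u vv x Ks Lg) (j * (Lg + 1) + 1) Lg = (prd (M x j) 0 Lg).map C := by
  have h1 : ∀ len, len ≤ Lg →
      prd (matA M u vv x Ks Lg) (j * (Lg + 1) + 1) len = (prd (M x j) 0 len).map C := by
    intro len
    induction len with
    | zero =>
      intro _
      ext1 a b
      by_cases hab : a = b <;> simp [hab, Matrix.one_apply]
    | succ len ih =>
      intro hlen
      rw [prd_succ_right, ih (by omega), prd_succ_right, zero_add]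
      have h2 : j * (Lg + 1) + 1 + len < n := by
        have : (j + 1) * (Lg + 1) ≤ Ks * (Lg + 1) := Nat.mul_le_mul_right _ (by omega)
        nlinarith
      rw [matA_seg M u vv x hj (by omega) h2, Matrix.map_mul]
  exact h1 Lg le_rfl

/-- The cut variables, indexed by natural numbers. -/
def Xs (K : Type) [Field K] (Ks i : ℕ) : MvPolynomial (Fin (Ks + 1)) K :=
  if h : i < Ks + 1 then X ⟨i, h⟩ else 1

lemma prd_row (hsize : Ks * (Lg + 1) + 1 ≤ n) (hn : 0 < n) (hu : u 0 = ⟨0, hn⟩) (j : ℕ)
    (hj : j ≤ Ks) :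
    (prd (matA M u vv x Ks Lg) 0 (j * (Lg + 1))) ⟨0, hn⟩ (u j) =
      C (∏ i ∈ range j, segVal M Lg u vv x i) * ∏ i ∈ range j, Xs K Ks i := by
  induction j with
  | zero => simp [hu]
  | succ j ih =>
    have hj' : j ≤ Ks := by omega
    have h1 : (j + 1) * (Lg + 1) = j * (Lg + 1) + (1 + Lg) := by ring
    rw [h1, prd_add, zero_add, prd_add, prd_seg M u vv x (by omega) hsize]
    have hpos : j * (Lg + 1) < n := by
      have : (j + 1) * (Lg + 1) ≤ Ks * (Lg + 1) := Nat.mul_le_mul_right _ (by omega)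
      nlinarith
    have hcut : prd (matA M u vv x Ks Lg) (j * (Lg + 1)) 1 =
        matA M u vv x Ks Lg (j * (Lg + 1)) := by
      simp [prd_succ]
    rw [hcut, ← mul_assoc, Matrix.mul_apply]
    have h2 : ∀ b, (prd (matA M u vv x Ks Lg) 0 (j * (Lg + 1)) *
        matA M u vv x Ks Lg (j * (Lg + 1))) ⟨0, hn⟩ b =
        if b = vv j then
          (prd (matA M u vv x Ks Lg) 0 (j * (Lg + 1))) ⟨0, hn⟩ (u j) * X ⟨j, by omega⟩ else 0 := by
      intro b
      rw [Matrix.mul_apply, Finset.sum_eq_single (u j)]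
      · rw [matA_cut M u vv x (by omega) hpos]
        by_cases hb : b = vv j
        · simp [hb]
        · simp [hb]
      · intro a _ ha
        rw [matA_cut M u vv x (by omega) hpos]
        simp [ha]
      · simp
    simp only [h2]
    rw [Finset.sum_eq_single (vv j)]
    · rw [if_pos rfl, ih hj', Matrix.map_apply, Finset.prod_range_succ, Finset.prod_range_succ,
        C_mul]
      have h3 : Xs K Ks j = X ⟨j, by omega⟩ := by
        rw [Xs, dif_pos]
      rw [h3]
      simp only [segVal]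
      ring
    · intro b _ hb
      simp [hb]
    · simp

/-- The substituted polynomial, read at the full squarefree monomial. -/
theorem cf_rho_imm (hsize : Ks * (Lg + 1) + 1 ≤ n) (hn : 0 < n) (hu : u 0 = ⟨0, hn⟩)
    (hv : vv Ks = ⟨0, hn⟩) :
    cf univ (rho (sigmaSub Ks Lg M) (cutSub Ks Lg u vv) x (imm K n n hn)) =
      ∏ i ∈ range Ks, segVal M Lg u vv x i := by
  rw [rho_imm]
  obtain ⟨pad, hpad⟩ : ∃ pad, Ks * (Lg + 1) + (1 + pad) = n := ⟨n - (Ks * (Lg + 1) + 1), by omega⟩
  have hprd : prd (matA M u vv x Ks Lg) 0 n =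
      prd (matA M u vv x Ks Lg) 0 (Ks * (Lg + 1)) * matA M u vv x Ks Lg (Ks * (Lg + 1)) := by
    have h0 : prd (matA M u vv x Ks Lg) 0 n =
        prd (matA M u vv x Ks Lg) 0 (Ks * (Lg + 1) + (1 + pad)) := by rw [hpad]
    rw [h0, prd_add, zero_add, prd_add]
    have h1 : prd (matA M u vv x Ks Lg) (Ks * (Lg + 1) + 1) pad = 1 := by
      have h2 : prd (matA M u vv x Ks Lg) (Ks * (Lg + 1) + 1) pad =
          prd (fun _ => 1) (Ks * (Lg + 1) + 1) pad := by
        refine prd_congr _ _ fun p hp1 _ => ?_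
        exact matA_pad M u vv x (by omega)
      rw [h2, prd_const_one]
    rw [h1, mul_one]
    simp [prd_succ]
  rw [hprd, Matrix.mul_apply, Finset.sum_eq_single (u Ks)]
  · rw [prd_row M u vv x hsize hn hu Ks le_rfl, matA_cut (j := Ks) M u vv x (by omega) (by omega),
      if_pos ⟨rfl, hv.symm⟩]
    have h3 : (∏ i ∈ range Ks, Xs K Ks i) * X ⟨Ks, by omega⟩ = ∏ j : Fin (Ks + 1), X j := by
      have h4 : (X ⟨Ks, by omega⟩ : MvPolynomial (Fin (Ks + 1)) K) = Xs K Ks Ks := by
        rw [Xs, dif_pos]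
      rw [h4, ← Finset.prod_range_succ, Finset.prod_range]
      refine Finset.prod_congr rfl fun i _ => ?_
      rw [Xs, dif_pos i.2]
    rw [mul_assoc, h3]
    exact cf_C_mul_prod_X _
  · intro a _ ha
    rw [matA_cut (j := Ks) M u vv x (by omega) (by omega)]
    simp [ha]
  · simp

end subst

end Vale.Agent.Lib.P346
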