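import Vale.Agent.Lib.P346.MomentsNum

/-!
The dimension count at each degree and the weighted summation over degrees.
-/

noncomputable section

open MvPolynomial Finset

set_option linter.unusedSectionVars false
set_option linter.unusedSimpArgs false
set_option linter.unusedVariables false

namespace Vale.Agent.Lib.P346

section level

variable {K : Type} [Field K] [Fintype K] {ι : Type} [Fintype ι]

/-- Dimension count at one level. -/
theorem level_bound {𝓘 : Type} [Fintype 𝓘] (S : Finset (ι → Fin (Fintype.card K))) (e E : ℕ)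
    (Bad : Set (ι → K)) (G : 𝓘 → (ι → K) → K)
    (φ : (ι → Fin (Fintype.card K)) → (ι → K) → K)
    (hindep : LinearIndependent K (fun B : S => φ B.1))
    (hφ : ∀ B ∈ S, φ B ∈ VV K ι e)
    (hq : ∀ B ∈ S, ∃ q : 𝓘 → (ι → K) → K, (∀ a, q a ∈ VV K ι E) ∧
      ∀ x, x ∉ Bad → φ B x = ∑ a, G a x * q a x) :
    S.card ≤ Fintype.card 𝓘 * cnt K ι E + Module.finrank K (KerOff Bad e) := by
  classical
  let Wsp : Submodule K ((ι → K) → K) := Submodule.span K (Set.range fun B : S => φ B.1)
  have hrank : Module.finrank K Wsp = S.card := by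
    have := finrank_span_eq_card hindep
    simpa [Wsp] using this
  -- restriction to the complement of `Bad`
  let res : ((ι → K) → K) →ₗ[K] ({x : ι → K // x ∉ Bad} → K) :=
    LinearMap.funLeft K K Subtype.val
  -- the space of combinations
  let Φ : (𝓘 → VV K ι E) →ₗ[K] ({x : ι → K // x ∉ Bad} → K) :=
    { toFun := fun q x => ∑ a, G a x.1 * (q a : (ι → K) → K) x.1
      map_add' := by
        intro q r
        funext x
        simp [mul_add, Finset.sum_add_distrib]
      map_smul' := by
        intro c q
        funext x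
        simp [Finset.mul_sum, mul_left_comm] }
  have hle : Wsp.map res ≤ LinearMap.range Φ := by
    rw [Submodule.map_span_le]
    rintro _ ⟨⟨B, hB⟩, rfl⟩
    obtain ⟨q, hq1, hq2⟩ := hq B hB
    refine ⟨fun a => ⟨q a, hq1 a⟩, ?_⟩
    funext x
    exact (hq2 x.1 x.2).symm
  let f := res.domRestrict Wsp
  have h1 := LinearMap.finrank_range_add_finrank_ker f
  have hrange : LinearMap.range f = Wsp.map res := LinearMap.range_domRestrict _ _
  have h2 : Module.finrank K (LinearMap.range f) ≤ Fintype.card 𝓘 * cnt K ι E := by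
    rw [hrange]
    refine (Submodule.finrank_mono hle).trans ((LinearMap.finrank_range_le Φ).trans ?_)
    rw [Module.finrank_pi_fintype]
    simp only [Finset.sum_const, Finset.card_univ, smul_eq_mul]
    exact Nat.mul_le_mul_left _ (finrank_VV_le E)
  have hW : Wsp ≤ VV K ι e := by
    rw [Submodule.span_le]
    rintro _ ⟨⟨B, hB⟩, rfl⟩
    exact hφ B hB
  have h3 : Module.finrank K (LinearMap.ker f) ≤ Module.finrank K (KerOff Bad e) := by
    let g : LinearMap.ker f →ₗ[K] KerOff Bad e :=
      { toFun := fun h => ⟨h.1.1, hW h.1.2, fun x hx => by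
          have h4 : f h.1 = 0 := h.2
          have h5 := congrFun h4 ⟨x, hx⟩
          exact h5⟩
        map_add' := fun _ _ => rfl
        map_smul' := fun _ _ => rfl }
    refine LinearMap.finrank_le_finrank_of_injective (f := g) ?_
    intro a b hab
    have := congrArg (fun t : KerOff Bad e => (t : (ι → K) → K)) hab
    exact Subtype.ext (Subtype.ext this)
  rw [← hrank, ← h1]
  exact add_le_add h2 h3

variable [DecidableEq ι]

/-- The generating function of exponent vectors. -/
lemma sum_theta_dg {θ : ℝ} :
    ∑ E : ι → Fin (Fintype.card K), θ ^ dg K ι E = sig (Fintype.card K) θ ^ Fintype.card ι := by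
  classical
  have h1 : ∀ E : ι → Fin (Fintype.card K), θ ^ dg K ι E = ∏ i, θ ^ (E i : ℕ) := by
    intro E
    rw [dg, Finset.prod_pow_eq_pow_sum]
  simp only [h1]
  rw [sum_pi_prod (fun _ (a : Fin (Fintype.card K)) => θ ^ (a : ℕ))]
  simp only [Finset.prod_const, Finset.card_univ]
  congr 1
  exact Fin.sum_univ_eq_sum_range (fun j => θ ^ j) _

/-- Weighted count of exponent vectors of bounded degree. -/
lemma weighted_cnt {θ : ℝ} (h0 : 0 < θ) (h1 : θ < 1) (T : ℕ) :
    ∑ e ∈ range T, θ ^ e * (cnt K ι e : ℝ) ≤
      sig (Fintype.card K) θ ^ Fintype.card ι / (1 - θ) := by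
  classical
  have h2 : ∀ e, (cnt K ι e : ℝ) =
      ∑ E : ι → Fin (Fintype.card K), if dg K ι E ≤ e then 1 else 0 := by
    intro e
    simp only [cnt]
    rw [Finset.card_filter]
    push_cast
    refine Finset.sum_congr (by ext; simp) fun E _ => ?_
    by_cases h : dg K ι E ≤ e <;> simp [h]
  simp only [h2, Finset.mul_sum]
  rw [Finset.sum_comm, ← sum_theta_dg, Finset.sum_div]
  refine Finset.sum_le_sum fun E _ => ?_
  show _ ≤ θ ^ dg K ι E / (1 - θ)
  have h3 : ∑ e ∈ range T, θ ^ e * (if dg K ι E ≤ e then (1 : ℝ) else 0) =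
      ∑ e ∈ (range T).filter (fun e => dg K ι E ≤ e), θ ^ e := by
    rw [Finset.sum_filter]
    refine Finset.sum_congr rfl fun e _ => ?_
    split_ifs <;> simp
  rw [h3]
  have h4 : (range T).filter (fun e => dg K ι E ≤ e) = Finset.Ico (dg K ι E) T := by
    ext e
    simp only [Finset.mem_filter, Finset.mem_range, Finset.mem_Ico]
    tauto
  rw [h4]
  exact geom_sum_Ico_le_of_lt_one h0.le h1

end level

end Vale.Agent.Lib.P346
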