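import Vale.Agent.Lib.P346.LevelSum

/-!
The main inequality: the weight of the good exponent vectors is small if the circuit is small.
-/

noncomputable section

open MvPolynomial Finset

set_option linter.unusedSectionVars false
set_option linter.unusedSimpArgs false
set_option linter.unusedVariables false

namespace Vale.Agent.Lib.P346

section main

variable {K : Type} [Field K] [Fintype K] {Ks t Lg w n : ℕ} [NeZero w]

theorem main_ineq_hom (D : SPSPSCircuit K (ImmVar n n)) (hn : 0 < n) (hD : D.output = imm K n n hn)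
    (dgs : Degs D n) (O : Fin Lg → Fin w → Fin w) (emb : Fin t → Fin w → Fin n)
    (hemb : ∀ c a c' a', emb c a = emb c' a' → c = c' ∧ a = a')
    (hsize : Ks * (Lg + 1) + 1 ≤ n) (R₀ m : ℕ) (hR₀ : 0 < R₀) (hm : n / R₀ < m)
    (S : Finset (Var Ks t Lg w → Fin (Fintype.card K)))
    (hS : ∀ B ∈ S, ∀ j, ∃ c v ρ, ∀ l, Allowed (Fintype.card K)
      (fun r => B (Var.mk j c l (vtx (OO O) v ρ l) r)) (ρ l))
    (hC : (Ks + 1) * (Fintype.card K * R₀ + 4 * Fintype.card K * (Fintype.card K - 1)) ≤ Ks * Lg)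
    {θ : ℝ} (h0 : 0 < θ) (h1 : θ < 1) :
    ∑ B ∈ S, θ ^ dg K _ B ≤
      ((Fintype.card D.P4 : ℝ) * 2 ^ m *
          θ ^ (Ks * Lg - (Ks + 1) * (Fintype.card K * R₀ +
            4 * Fintype.card K * (Fintype.card K - 1))) *
          sig (Fintype.card K) θ ^ Fintype.card (Var Ks t Lg w) +
        (Fintype.card D.P2 : ℝ) * ∑ b ∈ range (Ks + 2),
          (wcnt K (R₀ + 4 * Fintype.card K * b) b : ℝ) *
            sig (Fintype.card K) θ ^ (Fintype.card (Var Ks t Lg w) -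
              (R₀ + 4 * Fintype.card K * b))) / (1 - θ) := by
  classical
  set r' := Fintype.card K * R₀ + 4 * Fintype.card K * (Fintype.card K - 1) with hr'
  set C := (Ks + 1) * r' with hCdef
  set c₀ := Ks * Lg - C with hc₀
  obtain ⟨Bad, G, hker, hcirc⟩ := circuit_decomposition (J := Fin (Ks + 1)) dgs
    (fun (v : ImmVar n n) (x : Var Ks t Lg w → K) => sigmaSub Ks Lg (segMat O emb) v x)
    (fun v => isAff_sigmaSub O emb v) R₀ m hR₀ hm
  simp only [Fintype.card_fin] at hker hcirc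
  have hdata : ∀ B : Var Ks t Lg w → Fin (Fintype.card K),
      ∃ (u vv : ℕ → Fin n) (A : Var Ks t Lg w → Fin (Fintype.card K))
      (T : Finset (Fin Ks → Fin Lg → Fin w))
      (r : (Fin Ks → Fin Lg → Fin w) → Var Ks t Lg w → Fin (Fintype.card K))
      (t₀ : Fin Ks → Fin Lg → Fin w), B ∈ S →
      (dg K _ A + Ks * Lg = dg K _ B ∧ t₀ ∈ T ∧ r t₀ = B ∧
      (∀ s ∈ T, s ≠ t₀ → dg K _ (r s) < dg K _ B ∨ toLex (r s) < toLex B) ∧
      (∀ s, dg K _ (r s) ≤ dg K _ B) ∧
      ∀ x : Var Ks t Lg w → K,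
        mono A x * cf univ (rho (sigmaSub Ks Lg (segMat O emb)) (cutSub Ks Lg u vv) x
          (imm K n n hn)) = ∑ s ∈ T, mono (r s) x) := by
    intro B
    by_cases hB : B ∈ S
    · obtain ⟨u, vv, A, T, r, t₀, h⟩ := target_family O emb hemb hn hsize B (hS B hB)
      exact ⟨u, vv, A, T, r, t₀, fun _ => h⟩
    · exact ⟨fun _ => ⟨0, hn⟩, fun _ => ⟨0, hn⟩, B, ∅, fun _ => B, fun _ _ => 0,
        fun h => absurd h hB⟩
  choose u vv A T r t₀ hprop using hdata
  -- the level sets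
  let Lv : ℕ → Finset (Var Ks t Lg w → Fin (Fintype.card K)) := fun E =>
    S.filter fun B => dg K _ B - c₀ = E
  have hdgB : ∀ B ∈ S, dg K _ B = c₀ + (dg K _ B - c₀) := by
    intro B hB
    have h2 := (hprop B hB).1
    omega
  have hLv : ∀ E, ∀ B ∈ Lv E, dg K _ B = c₀ + E := by
    intro E B hB
    obtain ⟨hB1, hB2⟩ := Finset.mem_filter.1 hB
    rw [hdgB B hB1, hB2]
  have hlevel : ∀ E, (Lv E).card ≤ Fintype.card (D.P4 × Finset (Fin m)) *
      cnt K (Var Ks t Lg w) E + Module.finrank K (KerOff Bad (c₀ + E)) := by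
    intro E
    refine level_bound (Lv E) (c₀ + E) E Bad G (fun B x => ∑ s ∈ T B, mono (r B s) x) ?_ ?_ ?_
    · refine triangular_indep (Lv E) (c₀ + E) (hLv E) T r t₀ ?_ ?_
      · intro B hB
        have h2 := hprop B (Finset.mem_filter.1 hB).1
        exact ⟨h2.2.1, h2.2.2.1⟩
      · intro B hB s hs hne
        exact (hprop B (Finset.mem_filter.1 hB).1).2.2.2.1 s hs hne
    · intro B hB
      refine sum_mem_VV _ fun s _ => ?_
      refine VV_mono ?_ (mono_mem_VV (r B s))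
      have h2 := (hprop B (Finset.mem_filter.1 hB).1).2.2.2.2.1 s
      rw [hLv E B hB] at h2
      exact h2
    · intro B hB
      have hB1 := (Finset.mem_filter.1 hB).1
      obtain ⟨q, hq1, hq2⟩ := hcirc (fun v j => cutSub Ks Lg (u B) (vv B) v j)
      refine ⟨fun a x => mono (A B) x * q a x, fun a => ?_, fun x hx => ?_⟩
      · have h2 := mul_mem_VV (mono_mem_VV (A B)) (hq1 a)
        refine VV_mono ?_ h2
        have h3 := (hprop B hB1).1
        rw [hLv E B hB] at h3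
        show dg K _ (A B) + C ≤ E
        have hcc : c₀ + C = Ks * Lg := Nat.sub_add_cancel hC
        omega
      · have h2 := (hprop B hB1).2.2.2.2.2 x
        show ∑ s ∈ T B, mono (r B s) x = _
        rw [← h2, ← hD, hq2 x hx, Finset.mul_sum]
        refine Finset.sum_congr rfl fun a _ => ?_
        ring
  -- sum over levels
  set N := Fintype.card (Var Ks t Lg w) with hN
  set ς := sig (Fintype.card K) θ with hς
  have hς0 : 0 < ς := sig_pos (by
    have := Fintype.one_lt_card (α := K)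
    omega) h0
  set Tm := S.sup (fun B => dg K _ B) + 1 with hTm
  have hmaps : ∀ B ∈ S, dg K _ B - c₀ ∈ range Tm := by
    intro B hB
    have h2 : dg K _ B ≤ S.sup (fun B => dg K _ B) := Finset.le_sup (f := fun B => dg K _ B) hB
    rw [Finset.mem_range]
    omega
  have hsum : ∑ B ∈ S, θ ^ dg K _ B = ∑ E ∈ range Tm, ((Lv E).card : ℝ) * θ ^ (c₀ + E) := by
    rw [← Finset.sum_fiberwise_of_maps_to hmaps]
    refine Finset.sum_congr rfl fun E _ => ?_
    have h2 : ∀ B ∈ Lv E, θ ^ dg K _ B = θ ^ (c₀ + E) := fun B hB => by rw [hLv E B hB]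
    rw [Finset.sum_congr rfl h2, Finset.sum_const, nsmul_eq_mul]
  rw [hsum]
  have h1θ : 0 < 1 - θ := by linarith
  set Z : ℕ → ℝ := fun e => (Fintype.card D.P2 : ℝ) * ∑ b ∈ range (Ks + 2),
    (wcnt K (R₀ + 4 * Fintype.card K * b) b : ℝ) *
      (cnt K (Fin (N - (R₀ + 4 * Fintype.card K * b))) e : ℝ) with hZ
  have hker' : ∀ e, (Module.finrank K (KerOff Bad e) : ℝ) ≤ Z e := by
    intro e
    have := hker e
    have h2 : ((Module.finrank K (KerOff Bad e) : ℕ) : ℝ) ≤ _ := Nat.cast_le.2 this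
    refine h2.trans (le_of_eq ?_)
    push_cast
    rfl
  have hZ0 : ∀ e, 0 ≤ θ ^ e * Z e := fun e => by positivity
  have hterm : ∀ E, ((Lv E).card : ℝ) * θ ^ (c₀ + E) ≤
      ((Fintype.card D.P4 : ℝ) * 2 ^ m) * θ ^ c₀ * (θ ^ E * (cnt K (Var Ks t Lg w) E : ℝ)) +
        θ ^ (c₀ + E) * Z (c₀ + E) := by
    intro E
    have h2 : ((Lv E).card : ℝ) ≤ ((Fintype.card D.P4 : ℝ) * 2 ^ m) *
        (cnt K (Var Ks t Lg w) E : ℝ) + Z (c₀ + E) := by
      have h3 := hlevel E
      have h4 : ((Lv E).card : ℝ) ≤ ((Fintype.card (D.P4 × Finset (Fin m)) *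
          cnt K (Var Ks t Lg w) E + Module.finrank K (KerOff Bad (c₀ + E)) : ℕ) : ℝ) :=
        Nat.cast_le.2 h3
      push_cast at h4
      have h5 : (Fintype.card (D.P4 × Finset (Fin m)) : ℝ) = (Fintype.card D.P4 : ℝ) * 2 ^ m := by
        simp [Fintype.card_prod, Fintype.card_finset]
      rw [h5] at h4
      have h6 := hker' (c₀ + E)
      linarith
    have h7 : 0 < θ ^ (c₀ + E) := pow_pos h0 _
    have h8 := mul_le_mul_of_nonneg_right h2 h7.le
    refine h8.trans (le_of_eq ?_)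
    rw [pow_add]
    ring
  have hpart1 : ∑ E ∈ range Tm, θ ^ E * (cnt K (Var Ks t Lg w) E : ℝ) ≤ ς ^ N / (1 - θ) :=
    weighted_cnt h0 h1 Tm
  have hpart2 : ∑ E ∈ range Tm, θ ^ (c₀ + E) * Z (c₀ + E) ≤
      (Fintype.card D.P2 : ℝ) * ∑ b ∈ range (Ks + 2),
          (wcnt K (R₀ + 4 * Fintype.card K * b) b : ℝ) *
            (ς ^ (N - (R₀ + 4 * Fintype.card K * b)) / (1 - θ)) := by
    have h2 : ∑ E ∈ range Tm, θ ^ (c₀ + E) * Z (c₀ + E) ≤
        ∑ e ∈ range (c₀ + Tm), θ ^ e * Z e := by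
      have h3 := Finset.sum_range_add (fun e => θ ^ e * Z e) c₀ Tm
      have : 0 ≤ ∑ e ∈ range c₀, θ ^ e * Z e := Finset.sum_nonneg fun e _ => hZ0 e
      rw [h3]
      linarith
    refine h2.trans ?_
    simp only [hZ, Finset.mul_sum]
    rw [Finset.sum_comm]
    refine Finset.sum_le_sum fun b _ => ?_
    have h3 := weighted_cnt (K := K) (ι := Fin (N - (R₀ + 4 * Fintype.card K * b))) h0 h1 (c₀ + Tm)
    rw [Fintype.card_fin] at h3
    have h4 : ∑ e ∈ range (c₀ + Tm), θ ^ e * ((Fintype.card D.P2 : ℝ) *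
        ((wcnt K (R₀ + 4 * Fintype.card K * b) b : ℝ) *
          (cnt K (Fin (N - (R₀ + 4 * Fintype.card K * b))) e : ℝ))) =
        (Fintype.card D.P2 : ℝ) * ((wcnt K (R₀ + 4 * Fintype.card K * b) b : ℝ) *
          ∑ e ∈ range (c₀ + Tm), θ ^ e *
            (cnt K (Fin (N - (R₀ + 4 * Fintype.card K * b))) e : ℝ)) := by
      rw [Finset.mul_sum, Finset.mul_sum]
      refine Finset.sum_congr rfl fun e _ => ?_
      ring
    rw [h4]
    refine mul_le_mul_of_nonneg_left (mul_le_mul_of_nonneg_left h3 (Nat.cast_nonneg _))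
      (Nat.cast_nonneg _)
  calc ∑ E ∈ range Tm, ((Lv E).card : ℝ) * θ ^ (c₀ + E)
      ≤ ∑ E ∈ range Tm, (((Fintype.card D.P4 : ℝ) * 2 ^ m) * θ ^ c₀ *
          (θ ^ E * (cnt K (Var Ks t Lg w) E : ℝ)) + θ ^ (c₀ + E) * Z (c₀ + E)) :=
        Finset.sum_le_sum fun E _ => hterm E
    _ = ((Fintype.card D.P4 : ℝ) * 2 ^ m) * θ ^ c₀ *
          ∑ E ∈ range Tm, θ ^ E * (cnt K (Var Ks t Lg w) E : ℝ) +
        ∑ E ∈ range Tm, θ ^ (c₀ + E) * Z (c₀ + E) := by
      rw [Finset.sum_add_distrib, Finset.mul_sum]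
    _ ≤ ((Fintype.card D.P4 : ℝ) * 2 ^ m) * θ ^ c₀ * (ς ^ N / (1 - θ)) +
        (Fintype.card D.P2 : ℝ) * ∑ b ∈ range (Ks + 2),
          (wcnt K (R₀ + 4 * Fintype.card K * b) b : ℝ) *
            (ς ^ (N - (R₀ + 4 * Fintype.card K * b)) / (1 - θ)) :=
        add_le_add (mul_le_mul_of_nonneg_left hpart1 (by positivity)) hpart2
    _ = _ := by
      rw [add_div]
      congr 1
      · ring
      · rw [mul_div_assoc, Finset.sum_div]
        congr 1
        refine Finset.sum_congr rfl fun b _ => ?_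
        ring

end main

end Vale.Agent.Lib.P346
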