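import Mathlib

/-!
Finite product weights and independence.
-/

noncomputable section

open Finset

set_option linter.unusedSectionVars false
set_option linter.unusedSimpArgs false
set_option linter.unusedVariables false

namespace Vale.Agent.Lib.P346

section wPi

variable {τ α : Type} [Fintype τ] [DecidableEq τ] [Fintype α]

/-- Product weight of a tuple. -/
def wPi (W₀ : α → ℝ) (B : τ → α) : ℝ := ∏ i, W₀ (B i)

lemma wPi_nonneg {W₀ : α → ℝ} (h : ∀ a, 0 ≤ W₀ a) (B : τ → α) : 0 ≤ wPi W₀ B :=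
  Finset.prod_nonneg fun _ _ => h _

lemma sum_pi_prod (g : τ → α → ℝ) : ∑ B : τ → α, ∏ i, g i (B i) = ∏ i, ∑ a, g i a := by
  rw [Finset.prod_univ_sum, Fintype.piFinset_univ]

lemma wPi_indep (W₀ : α → ℝ) (h : τ → α → ℝ) :
    ∑ B : τ → α, wPi W₀ B * ∏ i, h i (B i) = ∏ i, ∑ a, W₀ a * h i a := by
  rw [← sum_pi_prod]
  refine Finset.sum_congr rfl fun B _ => ?_
  rw [wPi, Finset.prod_mul_distrib]

lemma wPi_sum {W₀ : α → ℝ} (h1 : ∑ a, W₀ a = 1) : ∑ B : τ → α, wPi W₀ B = 1 := by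
  have := wPi_indep (τ := τ) W₀ (fun _ _ => 1)
  simpa [h1] using this

lemma wPi_single {W₀ : α → ℝ} (h1 : ∑ a, W₀ a = 1) (a : τ) (F : α → ℝ) :
    ∑ B : τ → α, wPi W₀ B * F (B a) = ∑ x, W₀ x * F x := by
  have := wPi_indep W₀ (fun i x => if i = a then F x else 1)
  have h2 : ∀ B : τ → α, ∏ i, (if i = a then F (B i) else 1) = F (B a) := by
    intro B
    rw [Finset.prod_ite_eq']
    simp
  simp only [h2] at this
  rw [this]
  have h3 : ∀ i, ∑ x, W₀ x * (if i = a then F x else 1) =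
      if i = a then ∑ x, W₀ x * F x else 1 := by
    intro i
    split_ifs
    · rfl
    · simp [h1]
  simp only [h3]
  rw [Finset.prod_ite_eq']
  simp

lemma wPi_two {W₀ : α → ℝ} (h1 : ∑ a, W₀ a = 1) {a a' : τ} (haa : a ≠ a') (F₁ F₂ : α → ℝ) :
    ∑ B : τ → α, wPi W₀ B * (F₁ (B a) * F₂ (B a')) =
      (∑ x, W₀ x * F₁ x) * ∑ x, W₀ x * F₂ x := by
  have := wPi_indep W₀ (fun i x => (if i = a then F₁ x else 1) * (if i = a' then F₂ x else 1))
  have h2 : ∀ B : τ → α, ∏ i, ((if i = a then F₁ (B i) else 1) * (if i = a' then F₂ (B i) else 1)) =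
      F₁ (B a) * F₂ (B a') := by
    intro B
    rw [Finset.prod_mul_distrib, Finset.prod_ite_eq', Finset.prod_ite_eq']
    simp
  simp only [h2] at this
  rw [this]
  have h3 : ∀ i, ∑ x, W₀ x * ((if i = a then F₁ x else 1) * (if i = a' then F₂ x else 1)) =
      (if i = a then ∑ x, W₀ x * F₁ x else 1) * (if i = a' then ∑ x, W₀ x * F₂ x else 1) := by
    intro i
    by_cases h4 : i = a
    · have h5 : i ≠ a' := fun h => haa (h4.symm.trans h)
      simp [h4, h5, haa]
    · by_cases h5 : i = a'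
      · simp [h4, h5, Ne.symm haa]
      · simp [h4, h5, h1]
  simp only [h3]
  rw [Finset.prod_mul_distrib, Finset.prod_ite_eq', Finset.prod_ite_eq']
  simp

end wPi

section cons

variable {α : Type} [Fintype α] {β : Type} [AddCommMonoid β]

lemma sum_cons' {L : ℕ} (F : (Fin (L + 1) → α) → β) :
    ∑ ρ, F ρ = ∑ r : α, ∑ ρ' : Fin L → α, F (Fin.cons r ρ') := by
  rw [← (Fin.consEquiv fun _ : Fin (L + 1) => α).sum_comp, Fintype.sum_prod_type]
  rfl

lemma wPi_cons {L : ℕ} (W₀ : α → ℝ) (b : α) (env : Fin L → α) :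
    wPi W₀ (Fin.cons b env : Fin (L + 1) → α) = W₀ b * wPi W₀ env := by
  simp [wPi, Fin.prod_univ_succ]

end cons

end Vale.Agent.Lib.P346
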