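import Vale.Agent.Lib.P346.Triangular
import Vale.Agent.Lib.P346.ProdMeasure

/-!
First and second moments of the number of allowed paths, averaged over the offsets.
-/

noncomputable section

open Finset

set_option linter.unusedSectionVars false
set_option linter.unusedSimpArgs false
set_option linter.unusedVariables false

namespace Vale.Agent.Lib.P346

section row

variable {q w : ℕ} [NeZero w]

open Classical in
/-- Indicator of `Allowed` as a real number. -/
def alw (q : ℕ) (b : Fin w → Fin q) (r : Fin w) : ℝ := if Allowed q b r then 1 else 0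

lemma alw_nonneg (b : Fin w → Fin q) (r : Fin w) : 0 ≤ alw q b r := by
  unfold alw; split_ifs <;> norm_num

/-- Factor of the indicator of `Allowed` at coordinate `r'`. -/
def hRow (q : ℕ) (r r' : Fin w) (a : Fin q) : ℝ :=
  if r' < r then (if (a : ℕ) + 1 = q then 1 else 0)
  else if r' = r then (if (a : ℕ) ≠ 0 then 1 else 0) else 1

lemma alw_eq_prod (b : Fin w → Fin q) (r : Fin w) :
    alw q b r = ∏ r', hRow q r r' (b r') := by
  classical
  unfold alw
  by_cases h : Allowed q b r
  · rw [if_pos h]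
    symm
    refine Finset.prod_eq_one fun r' _ => ?_
    unfold hRow
    by_cases h1 : r' < r
    · rw [if_pos h1, if_pos (h.1 r' h1)]
    · rw [if_neg h1]
      by_cases h2 : r' = r
      · subst h2
        rw [if_pos rfl, if_pos h.2]
      · rw [if_neg h2]
  · rw [if_neg h]
    symm
    have h' : ¬ ((∀ r', r' < r → (b r' : ℕ) + 1 = q) ∧ (b r : ℕ) ≠ 0) := h
    rw [not_and_or] at h'
    rcases h' with h' | h'
    · push Not at h'
      obtain ⟨r', h1, h2⟩ := h'
      refine Finset.prod_eq_zero (mem_univ r') ?_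
      simp [hRow, h1, h2]
    · refine Finset.prod_eq_zero (mem_univ r) ?_
      simp only [hRow, lt_irrefl, if_false, if_true]
      rw [if_neg h']

/-- Probability of a saturated coordinate. -/
def xiOf (p : Fin q → ℝ) : ℝ := ∑ a, p a * (if (a : ℕ) + 1 = q then 1 else 0)

/-- Probability of a nonzero coordinate. -/
def etaOf (p : Fin q → ℝ) : ℝ := ∑ a, p a * (if (a : ℕ) ≠ 0 then 1 else 0)

/-- Probability that rank `r` is allowed. -/
def pA (p : Fin q → ℝ) (r : Fin w) : ℝ := ∑ b : Fin w → Fin q, wPi p b * alw q b r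

lemma pA_eq {p : Fin q → ℝ} (hp : ∑ a, p a = 1) (r : Fin w) :
    pA p r = xiOf p ^ (r : ℕ) * etaOf p := by
  classical
  unfold pA
  simp only [alw_eq_prod]
  rw [wPi_indep]
  have h1 : ∀ r' : Fin w, ∑ a, p a * hRow q r r' a =
      (if r' < r then xiOf p else 1) * (if r' = r then etaOf p else 1) := by
    intro r'
    unfold hRow
    by_cases h1 : r' < r
    · have h2 : r' ≠ r := ne_of_lt h1
      simp [h1, h2, xiOf]
    · by_cases h2 : r' = r
      · subst h2
        simp [etaOf]
      · simp [h1, h2, hp]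
  simp only [h1]
  rw [Finset.prod_mul_distrib, Finset.prod_ite_eq']
  simp only [mem_univ, if_true]
  congr 1
  rw [Finset.prod_ite, Finset.prod_const, Finset.prod_const_one, mul_one]
  congr 1
  have : (univ.filter fun r' : Fin w => r' < r) = Finset.Iio r := by
    ext r'; simp
  rw [this, Fin.card_Iio]

lemma alw_mul_of_le (hq : 2 ≤ q) (b : Fin w → Fin q) {r r' : Fin w} (h : r ≤ r') :
    alw q b r * alw q b r' = alw q b r' := by
  classical
  unfold alw
  by_cases h1 : Allowed q b r'
  · have h2 : Allowed q b r := by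
      rcases eq_or_lt_of_le h with rfl | h3
      · exact h1
      · refine ⟨fun r'' h4 => h1.1 r'' (lt_trans h4 h3), ?_⟩
        have := h1.1 r h3
        omega
    simp [h1, h2]
  · simp [h1]

lemma pA_pair (hq : 2 ≤ q) (p : Fin q → ℝ) (r r' : Fin w) :
    ∑ b : Fin w → Fin q, wPi p b * (alw q b r * alw q b r') = pA p (max r r') := by
  unfold pA
  rcases le_total r r' with h | h
  · rw [max_eq_right h]
    refine Finset.sum_congr rfl fun b _ => ?_
    rw [alw_mul_of_le hq b h]
  · rw [max_eq_left h]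
    refine Finset.sum_congr rfl fun b _ => ?_
    rw [mul_comm (alw q b r), alw_mul_of_le hq b h]

/-- Weight of a layer. -/
abbrev wL (p : Fin q → ℝ) : (Fin w → Fin w → Fin q) → ℝ := wPi (wPi p)

lemma sum_row_weight {p : Fin q → ℝ} (hp : ∑ a, p a = 1) :
    ∑ b : Fin w → Fin q, wPi p b = 1 := wPi_sum hp

lemma sum_wL {p : Fin q → ℝ} (hp : ∑ a, p a = 1) :
    ∑ b : Fin w → Fin w → Fin q, wL p b = 1 := wPi_sum (sum_row_weight hp)

lemma layer_one {p : Fin q → ℝ} (hp : ∑ a, p a = 1) (a : Fin w) (r : Fin w) :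
    ∑ b : Fin w → Fin w → Fin q, wL p b * alw q (b a) r = pA p r := by
  exact wPi_single (sum_row_weight hp) a (fun row => alw q row r)

/-- Joint probability in one layer. -/
def P2 (p : Fin q → ℝ) (a a' r r' : Fin w) : ℝ :=
  ∑ b : Fin w → Fin w → Fin q, wL p b * (alw q (b a) r * alw q (b a') r')

lemma P2_ne {p : Fin q → ℝ} (hp : ∑ a, p a = 1) {a a' : Fin w} (h : a ≠ a') (r r' : Fin w) :
    P2 p a a' r r' = pA p r * pA p r' := by
  exact wPi_two (sum_row_weight hp) h (fun row => alw q row r) (fun row => alw q row r')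

lemma P2_eq (hq : 2 ≤ q) {p : Fin q → ℝ} (hp : ∑ a, p a = 1) (a r r' : Fin w) :
    P2 p a a r r' = pA p (max r r') := by
  unfold P2
  rw [wPi_single (sum_row_weight hp) a (fun row => alw q row r * alw q row r')]
  exact pA_pair hq p r r'

end row

section paths

variable {q w : ℕ} [NeZero w]

/-- Number of allowed paths starting from a vertex. -/
def pc : (L : ℕ) → (Fin L → Fin w → Fin w) → (Fin L → Fin w → Fin w → Fin q) → Fin w → ℝ
  | 0, _, _, _ => 1
  | L + 1, O, env, a =>
    ∑ r, alw q (env 0 a) r * pc L (Fin.tail O) (Fin.tail env) (O 0 a + r)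

lemma pc_nonneg (L : ℕ) (O : Fin L → Fin w → Fin w) (env : Fin L → Fin w → Fin w → Fin q)
    (a : Fin w) : 0 ≤ pc L O env a := by
  induction L generalizing a with
  | zero => simp [pc]
  | succ L ih =>
    rw [pc]
    exact Finset.sum_nonneg fun r _ => mul_nonneg (alw_nonneg _ _) (ih _ _ _)

lemma pc_cons (L : ℕ) (O : Fin (L + 1) → Fin w → Fin w) (b : Fin w → Fin w → Fin q)
    (env : Fin L → Fin w → Fin w → Fin q) (a : Fin w) :
    pc (L + 1) O (Fin.cons b env) a =
      ∑ r, alw q (b a) r * pc L (Fin.tail O) env (O 0 a + r) := by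
  rw [pc]
  simp

lemma sum_layer {B E R : Type} [Fintype B] [Fintype E] [Fintype R] (A : B → ℝ) (W : E → ℝ)
    (X : B → R → ℝ) (Y : E → R → ℝ) :
    ∑ b, ∑ e, (A b * W e) * ∑ r, X b r * Y e r =
      ∑ r, (∑ b, A b * X b r) * ∑ e, W e * Y e r := by
  have h1 : ∀ r, (∑ b, A b * X b r) * ∑ e, W e * Y e r =
      ∑ b, ∑ e, (A b * W e) * (X b r * Y e r) := by
    intro r
    rw [Finset.sum_mul_sum]
    refine Finset.sum_congr rfl fun b _ => Finset.sum_congr rfl fun e _ => ?_
    ring
  simp only [h1, Finset.mul_sum]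
  exact (Finset.sum_congr rfl fun b _ => Finset.sum_comm).trans Finset.sum_comm

/-- Expected number of allowed paths. -/
lemma E1 {p : Fin q → ℝ} (hp : ∑ a, p a = 1) (L : ℕ) (O : Fin L → Fin w → Fin w) (a : Fin w) :
    ∑ env : Fin L → Fin w → Fin w → Fin q, wPi (wL p) env * pc L O env a =
      (∑ r : Fin w, pA p r) ^ L := by
  induction L generalizing a with
  | zero => simp [pc, wPi]
  | succ L ih =>
    rw [sum_cons']
    simp only [wPi_cons, pc_cons]
    rw [sum_layer (wL p) (wPi (wL p)) (fun b r => alw q (b a) r)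
      (fun e r => pc L (Fin.tail O) e (O 0 a + r))]
    simp only [ih, layer_one hp]
    rw [← Finset.sum_mul, pow_succ']

/-- Second moment. -/
def HH (p : Fin q → ℝ) (L : ℕ) (O : Fin L → Fin w → Fin w) (a a' : Fin w) : ℝ :=
  ∑ env : Fin L → Fin w → Fin w → Fin q, wPi (wL p) env * (pc L O env a * pc L O env a')

lemma HH_succ (p : Fin q → ℝ) (L : ℕ) (O : Fin (L + 1) → Fin w → Fin w) (a a' : Fin w) :
    HH p (L + 1) O a a' = ∑ x : Fin w × Fin w, P2 p a a' x.1 x.2 *
      HH p L (Fin.tail O) (O 0 a + x.1) (O 0 a' + x.2) := by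
  unfold HH
  rw [sum_cons']
  simp only [wPi_cons, pc_cons]
  have h1 : ∀ (b : Fin w → Fin w → Fin q) (e : Fin L → Fin w → Fin w → Fin q),
      (∑ r, alw q (b a) r * pc L (Fin.tail O) e (O 0 a + r)) *
        (∑ r, alw q (b a') r * pc L (Fin.tail O) e (O 0 a' + r)) =
      ∑ x : Fin w × Fin w, (alw q (b a) x.1 * alw q (b a') x.2) *
        (pc L (Fin.tail O) e (O 0 a + x.1) * pc L (Fin.tail O) e (O 0 a' + x.2)) := by
    intro b e
    rw [Finset.sum_mul_sum, Fintype.sum_prod_type]
    refine Finset.sum_congr rfl fun r _ => Finset.sum_congr rfl fun r' _ => ?_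
    ring
  simp only [h1]
  have h2 := sum_layer (wL p) (wPi (wL p)) (fun b (x : Fin w × Fin w) => alw q (b a) x.1 * alw q (b a') x.2)
    (fun e (x : Fin w × Fin w) => pc L (Fin.tail O) e (O 0 a + x.1) * pc L (Fin.tail O) e (O 0 a' + x.2))
  rw [h2]
  simp only [P2]

end paths

section offsets

variable {w : ℕ} [NeZero w]

lemma sum_off_shift {a a' : Fin w} (haa : a ≠ a') (F : Fin w → ℝ) :
    (w : ℝ) * ∑ o : Fin w → Fin w, F (o a - o a') =
      (Fintype.card (Fin w → Fin w) : ℝ) * ∑ d, F d := by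
  classical
  have h1 : ∀ d : Fin w, ∑ o : Fin w → Fin w, F (o a - o a') =
      ∑ o : Fin w → Fin w, F (o a + d - o a') := by
    intro d
    rw [← Equiv.sum_comp (Equiv.addRight (Pi.single a d : Fin w → Fin w))]
    refine Finset.sum_congr rfl fun o _ => ?_
    simp [Pi.single_apply, Ne.symm haa]
  have h2 : (w : ℝ) * ∑ o : Fin w → Fin w, F (o a - o a') =
      ∑ d : Fin w, ∑ o : Fin w → Fin w, F (o a + d - o a') := by
    simp only [← h1]
    simp
  rw [h2, Finset.sum_comm]
  have h3 : ∀ o : Fin w → Fin w, ∑ d, F (o a + d - o a') = ∑ d, F d := by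
    intro o
    have h4 : ∀ d, o a + d - o a' = d + (o a - o a') := by
      intro d
      abel
    simp only [h4]
    exact Equiv.sum_comp (Equiv.addRight (o a - o a')) F
  simp only [h3]
  simp

/-- The function equal to `g` on the diagonal and `f` off it. -/
def diagFn (f g : ℝ) (a a' : Fin w) : ℝ := if a = a' then g else f

lemma sum_diag (f g : ℝ) (d₀ : Fin w) : ∑ d : Fin w, (if d = d₀ then g else f) =
    g + ((w : ℝ) - 1) * f := by
  classical
  have h1 : ∀ d : Fin w, (if d = d₀ then g else f) = f + (if d = d₀ then g - f else 0) := by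
    intro d
    split_ifs <;> ring
  simp only [h1, Finset.sum_add_distrib, Finset.sum_ite_eq', Finset.mem_univ, if_true]
  simp
  ring

lemma sum_off_diag_ne (f g : ℝ) {a a' : Fin w} (haa : a ≠ a') (r r' : Fin w) :
    ∑ o : Fin w → Fin w, diagFn f g (o a + r) (o a' + r') =
      (Fintype.card (Fin w → Fin w) : ℝ) * ((g + ((w : ℝ) - 1) * f) / w) := by
  classical
  have hw : (w : ℝ) ≠ 0 := by
    exact_mod_cast (NeZero.ne w)
  have h1 : ∀ o : Fin w → Fin w, diagFn f g (o a + r) (o a' + r') =
      (fun d => if d = r' - r then g else f) (o a - o a') := by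
    intro o
    simp only [diagFn]
    have h2 : (o a + r = o a' + r') ↔ (o a - o a' = r' - r) := by
      constructor
      · intro h
        have : o a = o a' + r' - r := by rw [← h]; abel
        rw [this]
        abel
      · intro h
        have : o a = o a' + (r' - r) := by rw [← h]; abel
        rw [this]
        abel
    simp only [h2]
  simp only [h1]
  have h3 := sum_off_shift haa (fun d => if d = r' - r then g else f)
  rw [sum_diag] at h3
  field_simp
  linarith

lemma sum_off_diag_eq (f g : ℝ) (a r r' : Fin w) :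
    ∑ o : Fin w → Fin w, diagFn f g (o a + r) (o a + r') =
      (Fintype.card (Fin w → Fin w) : ℝ) * (if r = r' then g else f) := by
  have h1 : ∀ o : Fin w → Fin w, diagFn f g (o a + r) (o a + r') = if r = r' then g else f := by
    intro o
    simp [diagFn]
  simp only [h1]
  simp

end offsets

section recursion

variable {q w : ℕ} [NeZero w]

/-- Averaged second moment: off-diagonal and diagonal values. -/
def fg (ϑ β W : ℝ) : ℕ → ℝ × ℝ
  | 0 => (1, 1)
  | L + 1 => (ϑ ^ 2 * (((fg ϑ β W L).2 + (W - 1) * (fg ϑ β W L).1) / W),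
      ϑ * (fg ϑ β W L).2 + β * (fg ϑ β W L).1)

/-- The total weight of pairs of distinct ranks. -/
def betaOf (p : Fin q → ℝ) : ℝ :=
  ∑ x : Fin w × Fin w, if x.1 = x.2 then 0 else pA p (max x.1 x.2)

lemma sum_P2_ne {p : Fin q → ℝ} (hp : ∑ a, p a = 1) {a a' : Fin w} (h : a ≠ a') (Z : ℝ) :
    ∑ x : Fin w × Fin w, P2 p a a' x.1 x.2 * Z = (∑ r : Fin w, pA p r) ^ 2 * Z := by
  simp only [P2_ne hp h]
  rw [Fintype.sum_prod_type, sq, Finset.sum_mul_sum, Finset.sum_mul]
  refine Finset.sum_congr rfl fun r _ => ?_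
  rw [Finset.sum_mul]

lemma sum_P2_eq (hq : 2 ≤ q) {p : Fin q → ℝ} (hp : ∑ a, p a = 1) (a : Fin w) (f g : ℝ) :
    ∑ x : Fin w × Fin w, P2 p a a x.1 x.2 * (if x.1 = x.2 then g else f) =
      (∑ r : Fin w, pA p r) * g + betaOf (w := w) p * f := by
  classical
  simp only [P2_eq hq hp]
  have h1 : ∀ x : Fin w × Fin w, pA p (max x.1 x.2) * (if x.1 = x.2 then g else f) =
      (if x.1 = x.2 then pA p x.1 else 0) * g +
        (if x.1 = x.2 then 0 else pA p (max x.1 x.2)) * f := by
    intro x
    by_cases h : x.1 = x.2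
    · simp [h]
    · simp [h]
  simp only [h1, Finset.sum_add_distrib, ← Finset.sum_mul]
  congr 2
  rw [Fintype.sum_prod_type]
  refine Finset.sum_congr rfl fun r _ => ?_
  simp

/-- The average of the second moment over all offset functions. -/
lemma avg_HH (hq : 2 ≤ q) {p : Fin q → ℝ} (hp : ∑ a, p a = 1) (L : ℕ) (a a' : Fin w) :
    ∑ O : Fin L → Fin w → Fin w, HH p L O a a' =
      (Fintype.card (Fin w → Fin w) : ℝ) ^ L *
        diagFn (fg (∑ r : Fin w, pA p r) (betaOf (w := w) p) w L).1
          (fg (∑ r : Fin w, pA p r) (betaOf (w := w) p) w L).2 a a' := by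
  induction L generalizing a a' with
  | zero =>
    have h0 : ∀ O : Fin 0 → Fin w → Fin w, HH p 0 O a a' = 1 := by
      intro O
      simp [HH, pc, wPi]
    simp [h0, diagFn, fg]
  | succ L ih =>
    rw [sum_cons']
    simp only [HH_succ, Fin.tail_cons, Fin.cons_zero]
    have h1 : ∀ o : Fin w → Fin w, ∑ O' : Fin L → Fin w → Fin w,
        ∑ x : Fin w × Fin w, P2 p a a' x.1 x.2 * HH p L O' (o a + x.1) (o a' + x.2) =
        ∑ x : Fin w × Fin w, P2 p a a' x.1 x.2 *
          ((Fintype.card (Fin w → Fin w) : ℝ) ^ L *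
            diagFn (fg (∑ r : Fin w, pA p r) (betaOf (w := w) p) w L).1
              (fg (∑ r : Fin w, pA p r) (betaOf (w := w) p) w L).2 (o a + x.1) (o a' + x.2)) := by
      intro o
      rw [Finset.sum_comm]
      refine Finset.sum_congr rfl fun x _ => ?_
      rw [← Finset.mul_sum, ih]
    simp only [h1]
    rw [Finset.sum_comm]
    have hw : (w : ℝ) ≠ 0 := by
      exact_mod_cast (NeZero.ne w)
    set f := (fg (∑ r : Fin w, pA p r) (betaOf (w := w) p) w L).1 with hf
    set g := (fg (∑ r : Fin w, pA p r) (betaOf (w := w) p) w L).2 with hg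
    set c₀ := (Fintype.card (Fin w → Fin w) : ℝ) with hc₀
    by_cases haa : a = a'
    · subst haa
      have h2 : ∀ x : Fin w × Fin w, ∑ o : Fin w → Fin w, P2 p a a x.1 x.2 *
          (c₀ ^ L * diagFn f g (o a + x.1) (o a + x.2)) =
          c₀ ^ (L + 1) * (P2 p a a x.1 x.2 * (if x.1 = x.2 then g else f)) := by
        intro x
        simp only [← Finset.mul_sum]
        rw [sum_off_diag_eq, pow_succ]
        ring
      simp only [h2]
      rw [← Finset.mul_sum, sum_P2_eq hq hp]
      simp [diagFn, fg, ← hf, ← hg]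
    · have h2 : ∀ x : Fin w × Fin w, ∑ o : Fin w → Fin w, P2 p a a' x.1 x.2 *
          (c₀ ^ L * diagFn f g (o a + x.1) (o a' + x.2)) =
          c₀ ^ (L + 1) * (P2 p a a' x.1 x.2 * ((g + ((w : ℝ) - 1) * f) / w)) := by
        intro x
        simp only [← Finset.mul_sum]
        rw [sum_off_diag_ne f g haa, pow_succ]
        ring
      simp only [h2]
      rw [← Finset.mul_sum, sum_P2_ne hp haa]
      simp [diagFn, fg, haa, ← hf, ← hg]

lemma sum_diagFn (f g : ℝ) :
    ∑ a : Fin w, ∑ a' : Fin w, diagFn f g a a' = (w : ℝ) * (g + ((w : ℝ) - 1) * f) := by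
  classical
  have h1 : ∀ a : Fin w, ∑ a' : Fin w, diagFn f g a a' = g + ((w : ℝ) - 1) * f := by
    intro a
    simp only [diagFn]
    have h2 : ∀ a' : Fin w, (if a = a' then g else f) = if a' = a then g else f := by
      intro a'
      by_cases h : a = a'
      · simp [h]
      · simp [h, Ne.symm h]
    simp only [h2]
    exact sum_diag f g a
  simp only [h1]
  simp
  ring

/-- There are offsets such that the second moment of the number of paths is at most its average. -/
lemma exists_offsets_second_moment (hq : 2 ≤ q) {p : Fin q → ℝ} (hp : ∑ a, p a = 1) (L : ℕ) :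
    ∃ O : Fin L → Fin w → Fin w, ∑ a, ∑ a', HH p L O a a' ≤
      (w : ℝ) * ((fg (∑ r : Fin w, pA p r) (betaOf (w := w) p) w L).2 +
        ((w : ℝ) - 1) * (fg (∑ r : Fin w, pA p r) (betaOf (w := w) p) w L).1) := by
  classical
  set Z := (w : ℝ) * ((fg (∑ r : Fin w, pA p r) (betaOf (w := w) p) w L).2 +
        ((w : ℝ) - 1) * (fg (∑ r : Fin w, pA p r) (betaOf (w := w) p) w L).1) with hZ
  have h1 : ∑ O : Fin L → Fin w → Fin w, ∑ a, ∑ a', HH p L O a a' ≤
      ∑ O : Fin L → Fin w → Fin w, Z := by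
    rw [Finset.sum_comm]
    have h2 : ∀ a : Fin w, ∑ O : Fin L → Fin w → Fin w, ∑ a', HH p L O a a' =
        (Fintype.card (Fin w → Fin w) : ℝ) ^ L * ∑ a', diagFn
          (fg (∑ r : Fin w, pA p r) (betaOf (w := w) p) w L).1
          (fg (∑ r : Fin w, pA p r) (betaOf (w := w) p) w L).2 a a' := by
      intro a
      rw [Finset.sum_comm, Finset.mul_sum]
      exact Finset.sum_congr rfl fun a' _ => avg_HH hq hp L a a'
    simp only [h2]
    rw [← Finset.mul_sum, sum_diagFn, Finset.sum_const, Finset.card_univ, nsmul_eq_mul]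
    have hcard : (Fintype.card (Fin L → Fin w → Fin w) : ℝ) =
        (Fintype.card (Fin w → Fin w) : ℝ) ^ L := by
      rw [Fintype.card_fun, Fintype.card_fin]
      push_cast
      rfl
    rw [hcard]
  obtain ⟨O, _, hO⟩ := Finset.exists_le_of_sum_le Finset.univ_nonempty h1
  exact ⟨O, hO⟩

/-- The total number of paths. -/
def YY (L : ℕ) (O : Fin L → Fin w → Fin w) (env : Fin L → Fin w → Fin w → Fin q) : ℝ :=
  ∑ a, pc L O env a

open Classical in
/-- Paley-Zygmund: the probability that an allowed path exists. -/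
lemma prob_exists_path {p : Fin q → ℝ} (hp : ∑ a, p a = 1) (hp0 : ∀ a, 0 ≤ p a) (L : ℕ)
    (O : Fin L → Fin w → Fin w) {ϑ Z : ℝ} (hϑ : ∑ r : Fin w, pA p r = ϑ) (hϑ0 : 0 < ϑ)
    (hZ : ∑ a, ∑ a', HH p L O a a' ≤ Z) :
    ((w : ℝ) * ϑ ^ L) ^ 2 ≤ Z *
      ∑ env : Fin L → Fin w → Fin w → Fin q, wPi (wL p) env *
        (if ∃ a, 0 < pc L O env a then 1 else 0) := by
  have hW0 : ∀ env : Fin L → Fin w → Fin w → Fin q, 0 ≤ wPi (wL p) env :=
    fun env => wPi_nonneg (fun b => wPi_nonneg (fun b' => wPi_nonneg hp0 _) _) _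
  have h1 : ∑ env : Fin L → Fin w → Fin w → Fin q, wPi (wL p) env * YY L O env =
      (w : ℝ) * ϑ ^ L := by
    simp only [YY, Finset.mul_sum]
    rw [Finset.sum_comm]
    simp only [E1 hp, hϑ]
    simp
  have h2 : ∑ env : Fin L → Fin w → Fin w → Fin q, wPi (wL p) env * (YY L O env) ^ 2 =
      ∑ a, ∑ a', HH p L O a a' := by
    have h21 : ∀ env : Fin L → Fin w → Fin w → Fin q, wPi (wL p) env * (YY L O env) ^ 2 =
        ∑ a, ∑ a', wPi (wL p) env * (pc L O env a * pc L O env a') := by
      intro env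
      rw [YY, sq, Finset.sum_mul_sum, Finset.mul_sum]
      exact Finset.sum_congr rfl fun a _ => by rw [Finset.mul_sum]
    simp only [h21, HH]
    rw [Finset.sum_comm]
    exact Finset.sum_congr rfl fun a _ => Finset.sum_comm
  have h3 := Finset.sum_sq_le_sum_mul_sum_of_sq_le_mul (univ : Finset (Fin L → Fin w → Fin w → Fin q))
    (r := fun env => wPi (wL p) env * YY L O env)
    (f := fun env => wPi (wL p) env * (YY L O env) ^ 2)
    (g := fun env => wPi (wL p) env * (if ∃ a, 0 < pc L O env a then 1 else 0))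
    (fun env _ => mul_nonneg (hW0 env) (sq_nonneg _))
    (fun env _ => mul_nonneg (hW0 env) (by split_ifs <;> norm_num))
    (fun env _ => by
      refine le_of_eq ?_
      by_cases h : ∃ a, 0 < pc L O env a
      · rw [if_pos h]
        ring
      · have h4 : YY L O env = 0 := by
          refine Finset.sum_eq_zero fun a _ => ?_
          push Not at h
          exact le_antisymm (h a) (pc_nonneg _ _ _ _)
        rw [h4]
        simp)
  rw [h1, h2] at h3
  refine h3.trans ?_
  refine mul_le_mul_of_nonneg_right hZ ?_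
  exact Finset.sum_nonneg fun env _ => mul_nonneg (hW0 env) (by split_ifs <;> norm_num)

lemma vtx_cons (L : ℕ) (O : Fin (L + 1) → Fin w → Fin w) (a r : Fin w) (ρ : Fin L → Fin w)
    (i : ℕ) :
    vtx (OO O) a (Fin.cons r ρ : Fin (L + 1) → Fin w) (i + 1) =
      vtx (OO (Fin.tail O)) (O 0 a + r) ρ i := by
  induction i with
  | zero =>
    rw [vtx_succ_of_lt _ _ _ (by omega : 0 < L + 1)]
    simp [vtx, OO]
  | succ i ih =>
    by_cases hi : i < L
    · rw [vtx_succ_of_lt _ _ _ (by omega : i + 1 < L + 1), ih, vtx_succ_of_lt _ _ _ hi]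
      congr 1
      simp [OO, hi, Fin.tail]
    · have h1 : ¬ i + 1 < L + 1 := by omega
      rw [vtx, dif_neg h1, ih, vtx, dif_neg hi]

/-- A positive path count gives an allowed path. -/
lemma exists_path_of_pc_pos (L : ℕ) (O : Fin L → Fin w → Fin w)
    (env : Fin L → Fin w → Fin w → Fin q) (a : Fin w) (h : 0 < pc L O env a) :
    ∃ ρ : Fin L → Fin w, ∀ l, Allowed q (env l (vtx (OO O) a ρ l)) (ρ l) := by
  classical
  induction L generalizing a with
  | zero => exact ⟨Fin.elim0, fun l => l.elim0⟩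
  | succ L ih =>
    rw [pc] at h
    obtain ⟨r, _, hr⟩ := Finset.exists_lt_of_sum_lt (s := univ) (f := fun _ : Fin w => (0 : ℝ))
      (by simpa using h)
    have hr' : 0 < alw q (env 0 a) r * pc L (Fin.tail O) (Fin.tail env) (O 0 a + r) := hr
    have h1 : Allowed q (env 0 a) r := by
      by_contra hcon
      simp [alw, hcon] at hr'
    have h2 : 0 < pc L (Fin.tail O) (Fin.tail env) (O 0 a + r) := by
      rcases (pc_nonneg L (Fin.tail O) (Fin.tail env) (O 0 a + r)).lt_or_eq with h3 | h3
      · exact h3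
      · rw [← h3, mul_zero] at hr'
        exact absurd hr' (lt_irrefl _)
    obtain ⟨ρ, hρ⟩ := ih _ _ _ h2
    refine ⟨Fin.cons r ρ, fun l => ?_⟩
    refine Fin.cases ?_ (fun i => ?_) l
    · simpa [vtx] using h1
    · have h3 := hρ i
      simp only [Fin.val_succ, Fin.cons_succ]
      rw [vtx_cons]
      exact h3

end recursion

end Vale.Agent.Lib.P346
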