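import Vale.Agent.Lib.P346.Moments

/-!
The geometric weights and the numerical analysis of the second moment recursion.
-/

noncomputable section

open Finset

set_option linter.unusedSectionVars false
set_option linter.unusedSimpArgs false
set_option linter.unusedVariables false

namespace Vale.Agent.Lib.P346

section weights

variable {q : ℕ}

/-- Normalizing constant of the geometric weights. -/
def sig (q : ℕ) (θ : ℝ) : ℝ := ∑ j ∈ range q, θ ^ j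

/-- Geometric weights on exponents. -/
def pθ (q : ℕ) (θ : ℝ) (j : Fin q) : ℝ := θ ^ (j : ℕ) / sig q θ

lemma sig_pos (hq : 2 ≤ q) {θ : ℝ} (hθ : 0 < θ) : 0 < sig q θ := by
  refine Finset.sum_pos (fun j _ => pow_pos hθ j) ⟨0, by simp; omega⟩

lemma pθ_nonneg {θ : ℝ} (hθ : 0 < θ) (hq : 2 ≤ q) (j : Fin q) : 0 ≤ pθ q θ j :=
  div_nonneg (pow_pos hθ _).le (sig_pos hq hθ).le

lemma sum_pθ (hq : 2 ≤ q) {θ : ℝ} (hθ : 0 < θ) : ∑ j, pθ q θ j = 1 := by
  unfold pθ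
  rw [← Finset.sum_div, Fin.sum_univ_eq_sum_range (fun j => θ ^ j) q]
  exact div_self (sig_pos hq hθ).ne'

lemma xi_eq (hq : 2 ≤ q) (θ : ℝ) : xiOf (pθ q θ) = θ ^ (q - 1) / sig q θ := by
  unfold xiOf
  rw [Finset.sum_eq_single (⟨q - 1, by omega⟩ : Fin q)]
  · have : q - 1 + 1 = q := by omega
    simp [pθ, this]
  · intro b _ hb
    have : (b : ℕ) + 1 ≠ q := by
      intro h
      apply hb
      apply Fin.ext
      simp only
      omega
    simp [this]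
  · simp

lemma eta_eq (hq : 2 ≤ q) {θ : ℝ} (hθ : 0 < θ) : etaOf (pθ q θ) = 1 - 1 / sig q θ := by
  unfold etaOf
  have h1 : ∀ a : Fin q, pθ q θ a * (if (a : ℕ) ≠ 0 then 1 else 0) =
      pθ q θ a - (if (a : ℕ) = 0 then pθ q θ a else 0) := by
    intro a
    by_cases h : (a : ℕ) = 0 <;> simp [h]
  simp only [h1, Finset.sum_sub_distrib, sum_pθ hq hθ]
  congr 1
  rw [Finset.sum_eq_single (⟨0, by omega⟩ : Fin q)]
  · simp [pθ]
  · intro b _ hb
    have : (b : ℕ) ≠ 0 := fun h => hb (Fin.ext h)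
    simp [this]
  · simp

lemma eta_eq_theta_mul (hq : 2 ≤ q) {θ : ℝ} (hθ : 0 < θ) :
    etaOf (pθ q θ) = θ * (1 - xiOf (pθ q θ)) := by
  obtain ⟨q', rfl⟩ : ∃ q', q = q' + 1 := ⟨q - 1, by omega⟩
  have hs := sig_pos hq hθ
  rw [eta_eq hq hθ, xi_eq hq]
  have h1 : sig (q' + 1) θ = 1 + θ * ∑ j ∈ range q', θ ^ j := by
    unfold sig
    rw [Finset.sum_range_succ', Finset.mul_sum, add_comm]
    simp [pow_succ, mul_comm]
  have h2 : sig (q' + 1) θ = ∑ j ∈ range q', θ ^ j + θ ^ q' := by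
    unfold sig
    rw [Finset.sum_range_succ]
  simp only [Nat.add_sub_cancel]
  field_simp
  nlinarith

lemma xi_nonneg (hq : 2 ≤ q) {θ : ℝ} (hθ : 0 < θ) : 0 ≤ xiOf (pθ q θ) := by
  rw [xi_eq hq]
  exact div_nonneg (pow_pos hθ _).le (sig_pos hq hθ).le

lemma xi_le_half (hq : 2 ≤ q) {θ : ℝ} (hθ : 0 < θ) (hθ1 : θ ≤ 1) : xiOf (pθ q θ) ≤ 1 / 2 := by
  rw [xi_eq hq]
  have hs := sig_pos hq hθ
  rw [div_le_iff₀ hs]
  have h1 : (2 : ℝ) * θ ^ (q - 1) ≤ sig q θ := by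
    unfold sig
    have h2 : ∑ j ∈ range q, θ ^ (q - 1) ≤ ∑ j ∈ range q, θ ^ j := by
      refine Finset.sum_le_sum fun j hj => ?_
      have := Finset.mem_range.1 hj
      exact pow_le_pow_of_le_one hθ.le hθ1 (by omega)
    have h3 : ∑ j ∈ range q, θ ^ (q - 1) = q * θ ^ (q - 1) := by simp
    rw [h3] at h2
    have h4 : (2 : ℝ) ≤ q := by exact_mod_cast hq
    have h5 := pow_pos hθ (q - 1)
    nlinarith
  linarith

lemma eta_le_one (hq : 2 ≤ q) {θ : ℝ} (hθ : 0 < θ) : etaOf (pθ q θ) ≤ 1 := by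
  rw [eta_eq hq hθ]
  have := div_pos one_pos (sig_pos hq hθ)
  linarith

lemma eta_nonneg (hq : 2 ≤ q) {θ : ℝ} (hθ : 0 < θ) (hθ1 : θ ≤ 1) : 0 ≤ etaOf (pθ q θ) := by
  rw [eta_eq_theta_mul hq hθ]
  have := xi_le_half hq hθ hθ1
  exact mul_nonneg hθ.le (by linarith)

variable {w : ℕ} [NeZero w]

lemma sum_pA (hq : 2 ≤ q) {θ : ℝ} (hθ : 0 < θ) (hθ1 : θ ≤ 1) :
    ∑ r : Fin w, pA (pθ q θ) r = θ * (1 - xiOf (pθ q θ) ^ w) := by
  simp only [pA_eq (sum_pθ hq hθ)]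
  rw [← Finset.sum_mul, Fin.sum_univ_eq_sum_range (fun m => xiOf (pθ q θ) ^ m) w,
    eta_eq_theta_mul hq hθ]
  have h1 := xi_le_half hq hθ hθ1
  have h2 := mul_neg_geom_sum (xiOf (pθ q θ)) w
  rw [show (∑ i ∈ range w, xiOf (pθ q θ) ^ i) * (θ * (1 - xiOf (pθ q θ))) =
    θ * ((1 - xiOf (pθ q θ)) * ∑ i ∈ range w, xiOf (pθ q θ) ^ i) by ring, h2]

lemma sum_nat_mul_half_pow (m : ℕ) :
    ∑ i ∈ range m, (i : ℝ) * (1 / 2 : ℝ) ^ i ≤ 2 - (m + 1) * (1 / 2 : ℝ) ^ m * 2 := by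
  induction m with
  | zero => simp
  | succ m ih =>
    rw [Finset.sum_range_succ]
    have h1 : (1 / 2 : ℝ) ^ (m + 1) = (1 / 2 : ℝ) ^ m * (1 / 2) := pow_succ _ _
    rw [h1]
    push_cast
    nlinarith [pow_pos (by norm_num : (0 : ℝ) < 1 / 2) m]

lemma sum_nat_mul_pow_le {x : ℝ} (hx0 : 0 ≤ x) (hx : x ≤ 1 / 2) (m : ℕ) :
    ∑ i ∈ range m, (i : ℝ) * x ^ i ≤ 2 := by
  have h1 : ∑ i ∈ range m, (i : ℝ) * x ^ i ≤ ∑ i ∈ range m, (i : ℝ) * (1 / 2 : ℝ) ^ i := by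
    refine Finset.sum_le_sum fun i _ => ?_
    exact mul_le_mul_of_nonneg_left (pow_le_pow_left₀ hx0 hx i) (Nat.cast_nonneg i)
  have h2 := sum_nat_mul_half_pow m
  have h3 : 0 ≤ ((m : ℝ) + 1) * (1 / 2 : ℝ) ^ m * 2 := by positivity
  linarith

lemma pA_nonneg (hq : 2 ≤ q) {θ : ℝ} (hθ : 0 < θ) (hθ1 : θ ≤ 1) (r : Fin w) :
    0 ≤ pA (pθ q θ) r := by
  rw [pA_eq (sum_pθ hq hθ)]
  exact mul_nonneg (pow_nonneg (xi_nonneg hq hθ) _) (eta_nonneg hq hθ hθ1)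

lemma beta_nonneg (hq : 2 ≤ q) {θ : ℝ} (hθ : 0 < θ) (hθ1 : θ ≤ 1) :
    0 ≤ betaOf (w := w) (pθ q θ) := by
  unfold betaOf
  refine Finset.sum_nonneg fun x _ => ?_
  split_ifs
  · exact le_rfl
  · exact pA_nonneg hq hθ hθ1 _

lemma beta_le (hq : 2 ≤ q) {θ : ℝ} (hθ : 0 < θ) (hθ1 : θ ≤ 1) :
    betaOf (w := w) (pθ q θ) ≤ 4 := by
  classical
  set p := pθ q θ with hp
  have hp1 : ∑ a, p a = 1 := sum_pθ hq hθ
  have h1 : ∀ x : Fin w × Fin w, (if x.1 = x.2 then 0 else pA p (max x.1 x.2)) =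
      (if x.1 < x.2 then pA p x.2 else 0) + (if x.2 < x.1 then pA p x.1 else 0) := by
    intro x
    rcases lt_trichotomy x.1 x.2 with h | h | h
    · simp [h, ne_of_lt h, not_lt.2 h.le, max_eq_right h.le]
    · simp [h]
    · simp [h, ne_of_gt h, not_lt.2 h.le, max_eq_left h.le]
  have h2 : ∀ r' : Fin w, ∑ r : Fin w, (if r < r' then pA p r' else 0) = (r' : ℕ) * pA p r' := by
    intro r'
    rw [← Finset.sum_filter, Finset.sum_const, nsmul_eq_mul]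
    congr 1
    have : (univ.filter fun r : Fin w => r < r') = Finset.Iio r' := by
      ext r; simp
    rw [this, Fin.card_Iio]
  have h3 : ∑ r' : Fin w, ((r' : ℕ) : ℝ) * pA p r' ≤ 2 := by
    simp only [pA_eq hp1]
    have h4 : ∀ r' : Fin w, ((r' : ℕ) : ℝ) * (xiOf p ^ (r' : ℕ) * etaOf p) =
        (((r' : ℕ) : ℝ) * xiOf p ^ (r' : ℕ)) * etaOf p := by
      intro r'; ring
    simp only [h4]
    rw [← Finset.sum_mul, Fin.sum_univ_eq_sum_range (fun m => (m : ℝ) * xiOf p ^ m) w]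
    have h5 := sum_nat_mul_pow_le (xi_nonneg hq hθ) (xi_le_half hq hθ hθ1) w
    have h6 := eta_le_one hq hθ
    have h7 := eta_nonneg hq hθ hθ1
    have h8 : 0 ≤ ∑ i ∈ range w, (i : ℝ) * xiOf p ^ i :=
      Finset.sum_nonneg fun i _ =>
        mul_nonneg (Nat.cast_nonneg i) (pow_nonneg (xi_nonneg hq hθ) _)
    nlinarith
  unfold betaOf
  simp only [h1, Finset.sum_add_distrib]
  rw [Fintype.sum_prod_type, Fintype.sum_prod_type]
  have h9 : ∑ x : Fin w, ∑ y : Fin w, (if x < y then pA p y else 0) =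
      ∑ r' : Fin w, ((r' : ℕ) : ℝ) * pA p r' := by
    rw [Finset.sum_comm]
    exact Finset.sum_congr rfl fun r' _ => h2 r'
  have h10 : ∑ x : Fin w, ∑ y : Fin w, (if y < x then pA p x else 0) =
      ∑ r' : Fin w, ((r' : ℕ) : ℝ) * pA p r' :=
    Finset.sum_congr rfl fun r' _ => h2 r'
  rw [h9, h10]
  linarith

end weights

section normalized

/-- Bound for the normalized second moment recursion. -/
lemma norm_bound {lam κ W : ℝ} (hl : 1 < lam) (hκ : 0 ≤ κ) (hW : 1 ≤ W) (F G : ℕ → ℝ)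
    (F0 : F 0 = 1) (G0 : G 0 = 1) (hF : ∀ u, F (u + 1) = (G u + (W - 1) * F u) / W)
    (hG : ∀ u, G (u + 1) = lam * G u + κ * F u) (L : ℕ)
    (hL : (1 + 2 * κ / (lam - 1)) * lam ^ L / (W * (lam - 1)) ≤ 1) :
    ∀ u, u ≤ L → 0 ≤ F u ∧ 0 ≤ G u ∧
      F u ≤ 1 + (1 + 2 * κ / (lam - 1)) / (W * (lam - 1)) * (lam ^ u - 1) ∧
      G u ≤ (1 + 2 * κ / (lam - 1)) * lam ^ u - 2 * κ / (lam - 1) := by
  have hl1 : 0 < lam - 1 := by linarith
  have hW0 : 0 < W := by linarith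
  set A := 2 * κ / (lam - 1) with hA
  have hA0 : 0 ≤ A := by positivity
  have hAe : A * (lam - 1) = 2 * κ := by
    rw [hA]; field_simp
  set C := 1 + A with hC
  intro u
  induction u with
  | zero =>
    intro _
    rw [F0, G0]
    simp only [pow_zero, sub_self, mul_zero, add_zero]
    refine ⟨zero_le_one, zero_le_one, le_rfl, ?_⟩
    rw [hC]; linarith
  | succ u ih =>
    intro hu
    obtain ⟨h1, h2, h3, h4⟩ := ih (by omega)
    have hpow : lam ^ u ≤ lam ^ L := pow_le_pow_right₀ hl.le (by omega)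
    have hpow0 : 0 < lam ^ u := pow_pos (by linarith) _
    have hCpos : 0 < C := by rw [hC]; linarith
    have hbig : C / (W * (lam - 1)) * lam ^ L ≤ 1 := by
      have : C / (W * (lam - 1)) * lam ^ L = C * lam ^ L / (W * (lam - 1)) := by ring
      rw [this]; exact hL
    have hcoef : 0 ≤ C / (W * (lam - 1)) := by positivity
    have hF2 : F u ≤ 2 := by
      have h5 : C / (W * (lam - 1)) * (lam ^ u - 1) ≤ C / (W * (lam - 1)) * lam ^ L :=
        mul_le_mul_of_nonneg_left (by linarith) hcoef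
      linarith
    refine ⟨?_, ?_, ?_, ?_⟩
    · rw [hF]
      refine div_nonneg (add_nonneg h2 (mul_nonneg (by linarith) h1)) hW0.le
    · rw [hG]
      exact add_nonneg (mul_nonneg (by linarith) h2) (mul_nonneg hκ h1)
    · rw [hF, div_le_iff₀ hW0]
      have h6 : C / (W * (lam - 1)) * (lam ^ (u + 1) - 1) * W =
          C / (lam - 1) * (lam ^ (u + 1) - 1) := by
        field_simp
      have h7 : C / (W * (lam - 1)) * (lam ^ u - 1) * W = C / (lam - 1) * (lam ^ u - 1) := by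
        field_simp
      have h8 : C / (lam - 1) * (lam ^ (u + 1) - 1) =
          C / (lam - 1) * (lam ^ u - 1) + C * lam ^ u := by
        rw [pow_succ]
        field_simp
        ring
      have h9 : F u * W ≤ (1 + C / (W * (lam - 1)) * (lam ^ u - 1)) * W :=
        mul_le_mul_of_nonneg_right h3 hW0.le
      have h10 : G u ≤ C * lam ^ u := by linarith
      have h11 : (1 + C / (W * (lam - 1)) * (lam ^ u - 1)) * W =
          W + C / (lam - 1) * (lam ^ u - 1) := by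
        rw [add_mul, h7, one_mul]
      have h12 : (1 + C / (W * (lam - 1)) * (lam ^ (u + 1) - 1)) * W =
          W + C / (lam - 1) * (lam ^ (u + 1) - 1) := by
        rw [add_mul, h6, one_mul]
      rw [h12, h8]
      rw [h11] at h9
      nlinarith
    · rw [hG]
      have h5 : κ * F u ≤ κ * 2 := mul_le_mul_of_nonneg_left hF2 hκ
      have h6 : lam * G u ≤ lam * (C * lam ^ u - A) :=
        mul_le_mul_of_nonneg_left h4 (by linarith)
      have h7 : C * lam ^ (u + 1) = lam * (C * lam ^ u) := by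
        rw [pow_succ]; ring
      rw [h7]
      nlinarith

end normalized

section final

variable {q w : ℕ} [NeZero w]

/-- Normalized form of the recursion `fg`. -/
lemma fg_norm {ϑ β W : ℝ} (hϑ : 0 < ϑ) (hW : 0 < W) (u : ℕ) :
    (fg ϑ β W (u + 1)).1 / ϑ ^ (2 * (u + 1)) =
        ((fg ϑ β W u).2 / ϑ ^ (2 * u) + (W - 1) * ((fg ϑ β W u).1 / ϑ ^ (2 * u))) / W ∧
    (fg ϑ β W (u + 1)).2 / ϑ ^ (2 * (u + 1)) =
        (1 / ϑ) * ((fg ϑ β W u).2 / ϑ ^ (2 * u)) +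
          (β / ϑ ^ 2) * ((fg ϑ β W u).1 / ϑ ^ (2 * u)) := by
  constructor
  · simp only [fg]
    have h1 : ϑ ^ (2 * (u + 1)) = ϑ ^ 2 * ϑ ^ (2 * u) := by ring
    rw [h1]
    field_simp
  · simp only [fg]
    have h1 : ϑ ^ (2 * (u + 1)) = ϑ ^ 2 * ϑ ^ (2 * u) := by ring
    rw [h1]
    field_simp

/-- If the recursion stays small, there are offsets such that with probability at least `1/3` there
is an allowed path. -/
theorem exists_offsets_of_bounds (hq : 2 ≤ q) {θ : ℝ} (hθ : 0 < θ) (hθ1 : θ ≤ 1) (L : ℕ)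
    (hϑ : 1 / 2 ≤ θ * (1 - xiOf (pθ q θ) ^ w)) (hϑ1 : θ * (1 - xiOf (pθ q θ) ^ w) < 1)
    (hL : (1 + 2 * ((betaOf (w := w) (pθ q θ)) / (θ * (1 - xiOf (pθ q θ) ^ w)) ^ 2) /
        (1 / (θ * (1 - xiOf (pθ q θ) ^ w)) - 1)) * (1 / (θ * (1 - xiOf (pθ q θ) ^ w))) ^ L /
        ((w : ℝ) * (1 / (θ * (1 - xiOf (pθ q θ) ^ w)) - 1)) ≤ 1) :
    ∃ O : Fin L → Fin w → Fin w, (1 / 3 : ℝ) ≤
      ∑ env : Fin L → Fin w → Fin w → Fin q, wPi (wL (pθ q θ)) env *
        (by classical exact if ∃ a, 0 < pc L O env a then 1 else 0) := by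
  classical
  set p := pθ q θ with hp
  have hp1 : ∑ a, p a = 1 := sum_pθ hq hθ
  have hp0 : ∀ a, 0 ≤ p a := pθ_nonneg hθ hq
  set ϑ := θ * (1 - xiOf p ^ w) with hϑdef
  have hsum : ∑ r : Fin w, pA p r = ϑ := sum_pA hq hθ hθ1
  have hϑ0 : 0 < ϑ := by linarith
  set β := betaOf (w := w) p with hβ
  have hβ0 : 0 ≤ β := beta_nonneg hq hθ hθ1
  have hw1 : (1 : ℝ) ≤ w := by
    have : 1 ≤ w := Nat.one_le_iff_ne_zero.2 (NeZero.ne w)
    exact_mod_cast this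
  have hw0 : (0 : ℝ) < w := by linarith
  have hlam : 1 < 1 / ϑ := by
    rw [lt_div_iff₀ hϑ0]
    linarith
  have hbd := norm_bound (lam := 1 / ϑ) (κ := β / ϑ ^ 2) (W := w) hlam (by positivity) hw1
    (fun u => (fg ϑ β w u).1 / ϑ ^ (2 * u)) (fun u => (fg ϑ β w u).2 / ϑ ^ (2 * u))
    (by simp [fg]) (by simp [fg]) (fun u => (fg_norm hϑ0 hw0 u).1) (fun u => (fg_norm hϑ0 hw0 u).2)
    L hL L le_rfl
  obtain ⟨h1, h2, h3, h4⟩ := hbd
  obtain ⟨O, hO⟩ := exists_offsets_second_moment (q := q) (w := w) hq hp1 L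
  rw [hsum, ← hβ] at hO
  refine ⟨O, ?_⟩
  have hPZ := prob_exists_path (w := w) hp1 hp0 L O hsum hϑ0 hO
  set P := ∑ env : Fin L → Fin w → Fin w → Fin q, wPi (wL p) env *
        (if ∃ a, 0 < pc L O env a then (1 : ℝ) else 0) with hP
  -- normalized bound for the right side
  set lam := 1 / ϑ with hlamdef
  set A := 2 * (β / ϑ ^ 2) / (lam - 1) with hA
  have hlam1 : 0 < lam - 1 := by linarith
  have hlam2 : lam ≤ 2 := by
    rw [hlamdef, div_le_iff₀ hϑ0]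
    linarith
  have hA0 : 0 ≤ A := by positivity
  set F := (fg ϑ β (w : ℝ) L).1 / ϑ ^ (2 * L) with hF
  set G := (fg ϑ β (w : ℝ) L).2 / ϑ ^ (2 * L) with hG
  have hpow2 : 0 < ϑ ^ (2 * L) := pow_pos hϑ0 _
  have hf : (fg ϑ β (w : ℝ) L).1 = F * ϑ ^ (2 * L) := by
    rw [hF]; field_simp
  have hg : (fg ϑ β (w : ℝ) L).2 = G * ϑ ^ (2 * L) := by
    rw [hG]; field_simp
  have hC0 : 0 < (1 + A) := by linarith
  have hlampow : 0 < lam ^ L := pow_pos (by linarith) _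
  have hbig : (1 + A) * lam ^ L ≤ (w : ℝ) * (lam - 1) := by
    rw [div_le_one (by positivity)] at hL
    exact hL
  have hF2 : F ≤ 2 := by
    have h5 : (1 + A) / ((w : ℝ) * (lam - 1)) * (lam ^ L - 1) ≤ 1 := by
      rw [div_mul_eq_mul_div, div_le_one (by positivity)]
      nlinarith
    linarith
  have hGle : G ≤ (w : ℝ) := by
    have h5 : G ≤ (1 + A) * lam ^ L := by linarith
    have h6 : (w : ℝ) * (lam - 1) ≤ w := by
      have : lam - 1 ≤ 1 := by linarith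
      nlinarith
    linarith
  have hZ : (w : ℝ) * ((fg ϑ β (w : ℝ) L).2 + ((w : ℝ) - 1) * (fg ϑ β (w : ℝ) L).1) ≤
      3 * ((w : ℝ) * ϑ ^ L) ^ 2 := by
    rw [hf, hg]
    have h5 : (ϑ ^ L) ^ 2 = ϑ ^ (2 * L) := by rw [← pow_mul, mul_comm]
    have h6 : 3 * ((w : ℝ) * ϑ ^ L) ^ 2 = (w : ℝ) * ((3 * (w : ℝ)) * ϑ ^ (2 * L)) := by
      rw [mul_pow, h5]; ring
    rw [h6]
    refine mul_le_mul_of_nonneg_left ?_ hw0.le
    have h7 : G + ((w : ℝ) - 1) * F ≤ 3 * (w : ℝ) := by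
      have h8 : ((w : ℝ) - 1) * F ≤ ((w : ℝ) - 1) * 2 :=
        mul_le_mul_of_nonneg_left hF2 (by linarith)
      linarith
    have h9 : G * ϑ ^ (2 * L) + ((w : ℝ) - 1) * (F * ϑ ^ (2 * L)) =
        (G + ((w : ℝ) - 1) * F) * ϑ ^ (2 * L) := by ring
    rw [h9]
    exact mul_le_mul_of_nonneg_right h7 hpow2.le
  have hP0 : 0 ≤ P := Finset.sum_nonneg fun env _ =>
    mul_nonneg (wPi_nonneg (fun b => wPi_nonneg (fun b' => wPi_nonneg hp0 _) _) _)
      (by split_ifs <;> norm_num)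
  have hfinal : ((w : ℝ) * ϑ ^ L) ^ 2 ≤ 3 * ((w : ℝ) * ϑ ^ L) ^ 2 * P :=
    hPZ.trans (mul_le_mul_of_nonneg_right hZ hP0)
  have hpos : 0 < ((w : ℝ) * ϑ ^ L) ^ 2 := by positivity
  have h10 : (1 : ℝ) ≤ 3 * P := by
    by_contra hcon
    push Not at hcon
    nlinarith
  have h11 : (1 / 3 : ℝ) ≤ P := by linarith
  convert h11 using 3

end final

end Vale.Agent.Lib.P346
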