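import Vale.Agent.Lib.P346.ImmEval

/-!
Paths through layered graphs with offsets: expansion of matrix products and block structure.
-/

noncomputable section

open MvPolynomial Finset

set_option linter.unusedSectionVars false
set_option linter.unusedSimpArgs false
set_option linter.unusedVariables false

namespace Vale.Agent.Lib.P346

section sums

variable {A : Type} [Fintype A] {β : Type} [AddCommMonoid β]

lemma sum_snoc {L : ℕ} (F : (Fin (L + 1) → A) → β) :
    ∑ ρ, F ρ = ∑ ρ' : Fin L → A, ∑ r : A, F (Fin.snoc ρ' r) := by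
  rw [← (Fin.snocEquiv fun _ : Fin (L + 1) => A).sum_comp, Fintype.sum_prod_type, Finset.sum_comm]
  rfl

lemma sum_cons {L : ℕ} (F : (Fin (L + 1) → A) → β) :
    ∑ ρ, F ρ = ∑ r : A, ∑ ρ' : Fin L → A, F (Fin.cons r ρ') := by
  rw [← (Fin.consEquiv fun _ : Fin (L + 1) => A).sum_comp, Fintype.sum_prod_type]
  rfl

end sums

section vtx

variable {w : ℕ} [NeZero w]

/-- Vertices of a path with rank sequence `ρ`, starting at `v`. -/
def vtx (O : ℕ → Fin w → Fin w) {L : ℕ} (v : Fin w) (ρ : Fin L → Fin w) : ℕ → Fin w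
  | 0 => v
  | l + 1 => if h : l < L then O l (vtx O v ρ l) + ρ ⟨l, h⟩ else vtx O v ρ l

lemma vtx_succ_of_lt (O : ℕ → Fin w → Fin w) {L : ℕ} (v : Fin w) (ρ : Fin L → Fin w) {l : ℕ}
    (h : l < L) : vtx O v ρ (l + 1) = O l (vtx O v ρ l) + ρ ⟨l, h⟩ := by
  rw [vtx, dif_pos h]

lemma vtx_congr (O : ℕ → Fin w → Fin w) {L : ℕ} (v : Fin w) (ρ ρ' : Fin L → Fin w) (m : ℕ)
    (h : ∀ l : Fin L, l.val < m → ρ l = ρ' l) (l : ℕ) (hl : l ≤ m) :
    vtx O v ρ l = vtx O v ρ' l := by
  induction l with
  | zero => rfl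
  | succ l ih =>
    have h1 := ih (by omega)
    by_cases hL : l < L
    · rw [vtx_succ_of_lt O v ρ hL, vtx_succ_of_lt O v ρ' hL, h1, h ⟨l, hL⟩ (by simpa using hl)]
    · rw [vtx, vtx, dif_neg hL, dif_neg hL, h1]

lemma vtx_snoc (O : ℕ → Fin w → Fin w) {L : ℕ} (v : Fin w) (ρ : Fin L → Fin w) (r : Fin w) (l : ℕ)
    (hl : l ≤ L) : vtx O v (Fin.snoc ρ r : Fin (L + 1) → Fin w) l = vtx O v ρ l := by
  induction l with
  | zero => rfl
  | succ l ih =>
    have hlt : l < L := by omega
    rw [vtx_succ_of_lt O v ρ hlt, vtx_succ_of_lt O v _ (by omega : l < L + 1), ih (by omega)]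
    congr 1
    have : (⟨l, by omega⟩ : Fin (L + 1)) = Fin.castSucc ⟨l, hlt⟩ := rfl
    rw [this, Fin.snoc_castSucc]

lemma vtx_snoc_last (O : ℕ → Fin w → Fin w) {L : ℕ} (v : Fin w) (ρ : Fin L → Fin w) (r : Fin w) :
    vtx O v (Fin.snoc ρ r : Fin (L + 1) → Fin w) (L + 1) = O L (vtx O v ρ L) + r := by
  rw [vtx_succ_of_lt O v _ (by omega : L < L + 1), vtx_snoc O v ρ r L le_rfl]
  congr 1
  have : (⟨L, by omega⟩ : Fin (L + 1)) = Fin.last L := rfl
  rw [this, Fin.snoc_last]

variable {R : Type} [CommSemiring R]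

/-- The layer matrix: entry `(a, a')` reads the variable of rank `a' - O l a` at vertex `a`. -/
def layerMat (O : ℕ → Fin w → Fin w) (y : ℕ → Fin w → Fin w → R) (l : ℕ) :
    Matrix (Fin w) (Fin w) R := fun a a' => y l a (a' - O l a)

/-- Expansion of a product of layer matrices as a sum over paths. -/
lemma path_expansion (O : ℕ → Fin w → Fin w) (y : ℕ → Fin w → Fin w → R) (L : ℕ) (a a' : Fin w) :
    (prd (layerMat O y) 0 L) a a' =
      ∑ ρ : Fin L → Fin w, if vtx O a ρ L = a' then
        ∏ l : Fin L, y l (vtx O a ρ l) (ρ l) else 0 := by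
  classical
  induction L generalizing a' with
  | zero =>
    have : (fun ρ : Fin 0 → Fin w => if vtx O a ρ 0 = a' then
        ∏ l : Fin 0, y l (vtx O a ρ l) (ρ l) else 0) = fun _ => if a = a' then 1 else 0 := by
      funext ρ
      simp [vtx]
    rw [this]
    simp [Matrix.one_apply]
  | succ L ih =>
    rw [prd_succ_right, Matrix.mul_apply, sum_snoc]
    simp only [ih, Finset.sum_mul]
    rw [Finset.sum_comm]
    refine Finset.sum_congr rfl fun ρ _ => ?_
    rw [Finset.sum_eq_single (vtx O a ρ L), if_pos rfl,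
      Finset.sum_eq_single (a' - O L (vtx O a ρ L))]
    · have h1 : O L (vtx O a ρ L) + (a' - O L (vtx O a ρ L)) = a' := by
        rw [add_comm, sub_add_cancel]
      rw [vtx_snoc_last, h1, if_pos rfl, Fin.prod_univ_castSucc]
      congr 1
      · refine Finset.prod_congr rfl fun l _ => ?_
        rw [Fin.snoc_castSucc, Fin.val_castSucc, vtx_snoc O a ρ _ l l.2.le]
      · simp only [Fin.val_last, Fin.snoc_last, vtx_snoc O a ρ _ L le_rfl, zero_add, layerMat]
    · intro r _ hr
      have h1 : O L (vtx O a ρ L) + r ≠ a' := by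
        intro h2
        apply hr
        rw [← h2]
        abel
      rw [vtx_snoc_last, if_neg h1]
    · simp
    · intro b _ hb
      rw [if_neg (Ne.symm hb), zero_mul]
    · simp

end vtx

section block

variable {R : Type} [CommSemiring R] {n w : ℕ}

/-- Products of matrices that act on a block as prescribed matrices. -/
lemma block_prd (e : Fin w → Fin n) (he : Function.Injective e)
    (N : ℕ → Matrix (Fin n) (Fin n) R) (Mt : ℕ → Matrix (Fin w) (Fin w) R)
    (h1 : ∀ l a a', N l (e a) (e a') = Mt l a a')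
    (h0 : ∀ l a b, (∀ a', b ≠ e a') → N l (e a) b = 0) (L : ℕ) (a : Fin w) :
    (∀ a', (prd N 0 L) (e a) (e a') = (prd Mt 0 L) a a') ∧
      ∀ b, (∀ a', b ≠ e a') → (prd N 0 L) (e a) b = 0 := by
  classical
  induction L with
  | zero =>
    constructor
    · intro a'
      simp [Matrix.one_apply, he.eq_iff]
    · intro b hb
      have : e a ≠ b := fun h => hb a h.symm
      simp [Matrix.one_apply, this]
  | succ L ih =>
    obtain ⟨ih1, ih2⟩ := ih
    have key : ∀ b, (prd N 0 (L + 1)) (e a) b =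
        ∑ a'', (prd Mt 0 L) a a'' * N L (e a'') b := by
      intro b
      rw [prd_succ_right, Matrix.mul_apply, zero_add]
      symm
      refine Fintype.sum_of_injective e he _ _ ?_ ?_
      · intro c hc
        rw [ih2 c (fun a' h => hc ⟨a', h.symm⟩), zero_mul]
      · intro a''
        rw [ih1]
    constructor
    · intro a'
      rw [key, prd_succ_right, Matrix.mul_apply, zero_add]
      exact Finset.sum_congr rfl fun c _ => by rw [h1]
    · intro b hb
      rw [key]
      refine Finset.sum_eq_zero fun c _ => ?_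
      rw [h0 L c b hb, mul_zero]

end block

end Vale.Agent.Lib.P346
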