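import Vale.Agent.Lib.P346.MainIneq

/-!
The weight of the good exponent vectors under the product measure.
-/

noncomputable section

open Finset

set_option linter.unusedSectionVars false
set_option linter.unusedSimpArgs false
set_option linter.unusedVariables false

namespace Vale.Agent.Lib.P346

section uncurry

variable {Ks t L w : ℕ} {α : Type}

/-- Exponent vectors as nested functions. -/
def uncurVar : (Fin Ks → Fin t → Fin L → Fin w → Fin w → α) ≃ (Var Ks t L w → α) where
  toFun F v := F v.1 v.2.1 v.2.2.1 v.2.2.2.1 v.2.2.2.2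
  invFun B j c l a r := B (Var.mk j c l a r)
  left_inv F := rfl
  right_inv B := by
    funext v
    rfl

lemma wPi_uncur (p : α → ℝ) (F : Fin Ks → Fin t → Fin L → Fin w → Fin w → α) :
    wPi p (uncurVar F) = wPi (wPi (wPi (wPi (wPi p)))) F := by
  show ∏ v : Fin Ks × Fin t × Fin L × Fin w × Fin w,
    p (F v.1 v.2.1 v.2.2.1 v.2.2.2.1 v.2.2.2.2) = _
  simp only [Fintype.prod_prod_type]
  rfl

end uncurry

section good

variable {q Ks t L w : ℕ} [NeZero w]

open Classical in
/-- The weight of environments with an allowed path. -/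
def nuOf (p : Fin q → ℝ) (O : Fin L → Fin w → Fin w) : ℝ :=
  ∑ env : Fin L → Fin w → Fin w → Fin q, wPi (wL p) env *
    (if ∃ a, 0 < pc L O env a then 1 else 0)

open Classical in
/-- Exponent vectors such that every segment has a component with an allowed path. -/
def goodSet (q Ks t : ℕ) (O : Fin L → Fin w → Fin w) : Finset (Var Ks t L w → Fin q) :=
  univ.filter fun B => ∀ j : Fin Ks, ∃ c : Fin t, ∃ a,
    0 < pc L O (fun l a r => B (Var.mk j c l a r)) a

open Classical in
/-- The weight of the good set. -/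
lemma goodSet_weight {p : Fin q → ℝ} (hp : ∑ a, p a = 1) (O : Fin L → Fin w → Fin w) :
    ∑ B ∈ goodSet q Ks t O, wPi p B = (1 - (1 - nuOf p O) ^ t) ^ Ks := by
  have hwE : ∑ env : Fin L → Fin w → Fin w → Fin q, wPi (wL p) env = 1 :=
    wPi_sum (sum_wL hp)
  let χ : (Fin L → Fin w → Fin w → Fin q) → ℝ := fun env =>
    if ∃ a, 0 < pc L O env a then 1 else 0
  have hχ : ∀ env, χ env = 0 ∨ χ env = 1 := by
    intro env
    simp only [χ]
    split_ifs
    · exact Or.inr rfl
    · exact Or.inl rfl
  let ψ : (Fin t → Fin L → Fin w → Fin w → Fin q) → ℝ := fun G => 1 - ∏ c, (1 - χ (G c))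
  have hψ : ∀ G, ψ G = if ∃ c, ∃ a, 0 < pc L O (G c) a then 1 else 0 := by
    intro G
    by_cases h : ∃ c, ∃ a, 0 < pc L O (G c) a
    · rw [if_pos h]
      obtain ⟨c, hc⟩ := h
      have h0 : 1 - χ (G c) = 0 := by
        simp only [χ]
        rw [if_pos hc]
        ring
      simp only [ψ]
      rw [Finset.prod_eq_zero (mem_univ c) h0, sub_zero]
    · rw [if_neg h]
      have h0 : ∀ c, 1 - χ (G c) = 1 := by
        intro c
        have h1 : ¬ ∃ a, 0 < pc L O (G c) a := fun h2 => h ⟨c, h2⟩
        simp only [χ]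
        rw [if_neg h1]
        ring
      simp only [ψ, h0]
      simp
  have hind : ∀ B : Var Ks t L w → Fin q, (if B ∈ goodSet q Ks t O then (1 : ℝ) else 0) =
      ∏ j : Fin Ks, ψ (fun c l a r => B (Var.mk j c l a r)) := by
    intro B
    simp only [hψ]
    by_cases h : B ∈ goodSet q Ks t O
    · rw [if_pos h]
      symm
      refine Finset.prod_eq_one fun j _ => ?_
      rw [if_pos]
      exact (Finset.mem_filter.1 h).2 j
    · rw [if_neg h]
      symm
      have h1 : ¬ ∀ j : Fin Ks, ∃ c : Fin t, ∃ a,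
          0 < pc L O (fun l a r => B (Var.mk j c l a r)) a := fun h2 =>
        h (Finset.mem_filter.2 ⟨mem_univ _, h2⟩)
      push Not at h1
      obtain ⟨j, hj⟩ := h1
      refine Finset.prod_eq_zero (mem_univ j) ?_
      rw [if_neg]
      push Not
      exact hj
  have h1 : ∑ B ∈ goodSet q Ks t O, wPi p B =
      ∑ B : Var Ks t L w → Fin q, wPi p B * (if B ∈ goodSet q Ks t O then 1 else 0) := by
    rw [← Finset.sum_filter_add_sum_filter_not univ (fun B => B ∈ goodSet q Ks t O)]
    have h2 : (univ.filter fun B => B ∈ goodSet q Ks t O) = goodSet q Ks t O := by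
      ext B; simp
    rw [h2]
    have h3 : ∑ B ∈ univ.filter (fun B => ¬ B ∈ goodSet q Ks t O),
        wPi p B * (if B ∈ goodSet q Ks t O then (1 : ℝ) else 0) = 0 := by
      refine Finset.sum_eq_zero fun B hB => ?_
      rw [if_neg (Finset.mem_filter.1 hB).2, mul_zero]
    have h4 : ∑ B ∈ goodSet q Ks t O, wPi p B * (if B ∈ goodSet q Ks t O then (1 : ℝ) else 0) =
        ∑ B ∈ goodSet q Ks t O, wPi p B := by
      refine Finset.sum_congr rfl fun B hB => ?_
      rw [if_pos hB, mul_one]
    rw [h3, h4, add_zero]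
  rw [h1]
  simp only [hind]
  rw [← Equiv.sum_comp (uncurVar (Ks := Ks) (t := t) (L := L) (w := w) (α := Fin q))]
  simp only [wPi_uncur]
  have h5 : ∀ F : Fin Ks → Fin t → Fin L → Fin w → Fin w → Fin q,
      ∏ j : Fin Ks, ψ (fun c l a r => uncurVar F (Var.mk j c l a r)) = ∏ j, ψ (F j) := fun F => rfl
  simp only [h5]
  rw [wPi_indep (wPi (wPi (wPi (wPi p)))) (fun _ => ψ)]
  simp only [Finset.prod_const, Finset.card_univ, Fintype.card_fin]
  congr 1
  -- one segment
  have h6 : ∑ G : Fin t → Fin L → Fin w → Fin w → Fin q, wPi (wPi (wPi (wPi p))) G * ψ G =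
      ∑ G : Fin t → Fin L → Fin w → Fin w → Fin q, wPi (wPi (wPi (wPi p))) G -
      ∑ G : Fin t → Fin L → Fin w → Fin w → Fin q, wPi (wPi (wPi (wPi p))) G * ∏ c, (1 - χ (G c)) := by
    rw [← Finset.sum_sub_distrib]
    refine Finset.sum_congr rfl fun G _ => ?_
    simp only [ψ]
    ring
  rw [h6, wPi_sum hwE, wPi_indep (wPi (wPi (wPi p))) (fun _ env => 1 - χ env)]
  simp only [Finset.prod_const, Finset.card_univ, Fintype.card_fin]
  congr 2
  have h7 : ∑ env : Fin L → Fin w → Fin w → Fin q, wPi (wPi (wPi p)) env * (1 - χ env) =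
      ∑ env : Fin L → Fin w → Fin w → Fin q, wPi (wL p) env -
      ∑ env : Fin L → Fin w → Fin w → Fin q, wPi (wL p) env * χ env := by
    rw [← Finset.sum_sub_distrib]
    refine Finset.sum_congr rfl fun env _ => ?_
    ring
  rw [h7, hwE]
  rfl

end good

end Vale.Agent.Lib.P346
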