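import Vale.Agent.Lib.P346.Defs

namespace Vale.Agent.Lib.P346

open MvPolynomial Finset

/-- Boolean cube over `F_2`. -/
abbrev Cube (m : ℕ) : Type := Fin m → ZMod 2

/-- multilinear monomial as a function on the cube -/
def mon {m : ℕ} (S : Finset (Fin m)) : Cube m → ZMod 2 := fun x => ∏ i ∈ S, x i

/-- functions of degree at most `d` -/
noncomputable def V (m d : ℕ) : Submodule (ZMod 2) (Cube m → ZMod 2) :=
  Submodule.span (ZMod 2) {f | ∃ S : Finset (Fin m), S.card ≤ d ∧ f = mon S}

lemma zmod2_eq_zero_or_one (a : ZMod 2) : a = 0 ∨ a = 1 := by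
  revert a; decide

lemma zmod2_mul_self (a : ZMod 2) : a * a = a := by
  revert a; decide

lemma zmod2_pow_of_ne_zero (a : ZMod 2) {k : ℕ} (hk : k ≠ 0) : a ^ k = a := by
  rcases zmod2_eq_zero_or_one a with rfl | rfl
  · exact zero_pow hk
  · exact one_pow k

lemma mon_apply {m : ℕ} (S : Finset (Fin m)) (x : Cube m) :
    mon S x = if ∀ i ∈ S, x i = 1 then 1 else 0 := by
  unfold mon
  split_ifs with h
  · exact Finset.prod_eq_one h
  · push Not at h
    obtain ⟨i, hi, hne⟩ := h
    refine Finset.prod_eq_zero hi ?_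
    rcases zmod2_eq_zero_or_one (x i) with h0 | h1
    · exact h0
    · exact absurd h1 hne

lemma mon_mul {m : ℕ} (S T : Finset (Fin m)) : mon S * mon T = mon (S ∪ T) := by
  funext x
  simp only [Pi.mul_apply, mon_apply]
  by_cases hS : ∀ i ∈ S, x i = 1 <;> by_cases hT : ∀ i ∈ T, x i = 1
  · have h : ∀ i ∈ S ∪ T, x i = 1 := by
      intro i hi
      rcases Finset.mem_union.1 hi with h | h
      · exact hS i h
      · exact hT i h
    rw [if_pos hS, if_pos hT, if_pos h, one_mul]
  · have h : ¬ ∀ i ∈ S ∪ T, x i = 1 := fun h => hT fun i hi => h i (Finset.mem_union_right _ hi)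
    rw [if_neg hT, if_neg h, mul_zero]
  · have h : ¬ ∀ i ∈ S ∪ T, x i = 1 := fun h => hS fun i hi => h i (Finset.mem_union_left _ hi)
    rw [if_neg hS, if_neg h, zero_mul]
  · have h : ¬ ∀ i ∈ S ∪ T, x i = 1 := fun h => hS fun i hi => h i (Finset.mem_union_left _ hi)
    rw [if_neg hS, if_neg h, zero_mul]

lemma mon_mem_V {m d : ℕ} {S : Finset (Fin m)} (h : S.card ≤ d) : mon S ∈ V m d :=
  Submodule.subset_span ⟨S, h, rfl⟩

lemma V_mono {m a b : ℕ} (h : a ≤ b) : V m a ≤ V m b := by
  apply Submodule.span_mono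
  rintro f ⟨S, hS, rfl⟩
  exact ⟨S, hS.trans h, rfl⟩

lemma one_mem_V (m d : ℕ) : (1 : Cube m → ZMod 2) ∈ V m d := by
  have : (1 : Cube m → ZMod 2) = mon ∅ := by
    funext x; simp [mon]
  rw [this]
  exact mon_mem_V (by simp)

lemma const_mem_V (m d : ℕ) (c : ZMod 2) : (fun _ => c : Cube m → ZMod 2) ∈ V m d := by
  have : (fun _ => c : Cube m → ZMod 2) = c • (1 : Cube m → ZMod 2) := by
    funext x; simp
  rw [this]
  exact Submodule.smul_mem _ _ (one_mem_V m d)

lemma mul_mem_V {m a b : ℕ} {f g : Cube m → ZMod 2} (hf : f ∈ V m a) (hg : g ∈ V m b) :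
    f * g ∈ V m (a + b) := by
  induction hf using Submodule.span_induction with
  | mem f hf =>
    obtain ⟨S, hS, rfl⟩ := hf
    induction hg using Submodule.span_induction with
    | mem g hg =>
      obtain ⟨T, hT, rfl⟩ := hg
      rw [mon_mul]
      exact mon_mem_V ((Finset.card_union_le _ _).trans (Nat.add_le_add hS hT))
    | zero => simp
    | add g h _ _ h1 h2 => rw [mul_add]; exact Submodule.add_mem _ h1 h2
    | smul c g _ h1 =>
      have : mon S * (c • g) = c • (mon S * g) := by
        funext x; simp [mul_left_comm]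
      rw [this]
      exact Submodule.smul_mem _ _ h1
  | zero => simp
  | add f h _ _ h1 h2 => rw [add_mul]; exact Submodule.add_mem _ h1 h2
  | smul c f _ h1 =>
    have : (c • f) * g = c • (f * g) := by
      funext x; simp [mul_assoc]
    rw [this]
    exact Submodule.smul_mem _ _ h1

lemma prod_mem_V {m e : ℕ} {ι : Type} (s : Finset ι) (f : ι → Cube m → ZMod 2)
    (hf : ∀ i ∈ s, f i ∈ V m e) : (∏ i ∈ s, f i) ∈ V m (s.card * e) := by
  classical
  induction s using Finset.induction_on with
  | empty => simpa using one_mem_V m 0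
  | insert a s ha ih =>
    rw [Finset.prod_insert ha, Finset.card_insert_of_notMem ha]
    have h1 := mul_mem_V (hf a (Finset.mem_insert_self a s))
      (ih fun i hi => hf i (Finset.mem_insert_of_mem hi))
    have : e + s.card * e = (s.card + 1) * e := by ring
    rwa [this] at h1


section Razborov

variable {m : ℕ} {J : Type} [Fintype J] [DecidableEq J]

/-- the random subset sum of the negated inputs -/
def subsetSum (g : J → Cube m → ZMod 2) (S : Finset J) : Cube m → ZMod 2 :=
  fun x => ∑ j ∈ S, (1 - g j x)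

/-- the approximating polynomial attached to a tuple of subsets -/
def approxOf {t : ℕ} (g : J → Cube m → ZMod 2) (σ : Fin t → Finset J) : Cube m → ZMod 2 :=
  ∏ k, (1 - subsetSum g (σ k))

lemma subsetSum_mem {e : ℕ} (g : J → Cube m → ZMod 2) (hg : ∀ j, g j ∈ V m e) (S : Finset J) :
    subsetSum g S ∈ V m e := by
  have : subsetSum g S = ∑ j ∈ S, (1 - g j) := by
    funext x; simp [subsetSum, Finset.sum_apply]
  rw [this]
  exact Submodule.sum_mem _ fun j _ => Submodule.sub_mem _ (one_mem_V m e) (hg j)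

lemma approxOf_mem {e t : ℕ} (g : J → Cube m → ZMod 2) (hg : ∀ j, g j ∈ V m e)
    (σ : Fin t → Finset J) : approxOf g σ ∈ V m (t * e) := by
  have := prod_mem_V (Finset.univ : Finset (Fin t)) (fun k => 1 - subsetSum g (σ k)) (e := e)
    (fun k _ => Submodule.sub_mem _ (one_mem_V m e) (subsetSum_mem g hg (σ k)))
  simpa [approxOf] using this

lemma subsetSum_flip (g : J → Cube m → ZMod 2) (x : Cube m) (j₀ : J) (h0 : g j₀ x = 0)
    (S : Finset J) :
    subsetSum g (if j₀ ∈ S then S.erase j₀ else insert j₀ S) x = subsetSum g S x + 1 := by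
  unfold subsetSum
  split_ifs with h
  · rw [← Finset.add_sum_erase S _ h, h0]
    have : ∀ a : ZMod 2, a = 1 - 0 + a + 1 := by decide
    exact this _
  · rw [Finset.sum_insert h, h0]
    have : ∀ a : ZMod 2, 1 - 0 + a = a + 1 := by decide
    exact this _

lemma card_zero_sum (g : J → Cube m → ZMod 2) (x : Cube m) (j₀ : J) (h0 : g j₀ x = 0) :
    ((Finset.univ : Finset (Finset J)).filter fun S => subsetSum g S x = 0).card * 2
      = 2 ^ Fintype.card J := by
  set φ : Finset J → Finset J := fun S => if j₀ ∈ S then S.erase j₀ else insert j₀ S with hφ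
  have hinv : ∀ S, φ (φ S) = S := by
    intro S
    by_cases h : j₀ ∈ S
    · simp [hφ, h, Finset.insert_erase]
    · simp [hφ, h]
  have hflip : ∀ S, subsetSum g (φ S) x = subsetSum g S x + 1 := subsetSum_flip g x j₀ h0
  have hc : ((Finset.univ : Finset (Finset J)).filter fun S => subsetSum g S x = 0).card
      = ((Finset.univ : Finset (Finset J)).filter fun S => ¬ subsetSum g S x = 0).card := by
    refine Finset.card_nbij' φ φ ?_ ?_ (fun S _ => hinv S) (fun S _ => hinv S)
    · intro S hS
      simp only [Finset.coe_filter, Finset.mem_univ, true_and, Set.mem_ofPred_eq] at hS ⊢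
      rw [hflip, hS]; decide
    · intro S hS
      simp only [Finset.coe_filter, Finset.mem_univ, true_and, Set.mem_ofPred_eq] at hS ⊢
      rw [hflip]
      rcases zmod2_eq_zero_or_one (subsetSum g S x) with h | h
      · exact absurd h hS
      · rw [h]; decide
  have hu := Finset.card_filter_add_card_filter_not (s := (Finset.univ : Finset (Finset J)))
    (fun S => subsetSum g S x = 0)
  rw [Finset.card_univ, Fintype.card_finset] at hu
  omega

/-- error count at a fixed input -/
lemma err_at_point {t : ℕ} (g : J → Cube m → ZMod 2) (x : Cube m) :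
    ((Finset.univ : Finset (Fin t → Finset J)).filter
        fun σ => approxOf g σ x ≠ ∏ j, g j x).card * 2 ^ t
      ≤ Fintype.card (Fin t → Finset J) := by
  by_cases hall : ∀ j, g j x = 1
  · have hprod : ∏ j, g j x = 1 := Finset.prod_eq_one fun j _ => hall j
    have : ∀ σ : Fin t → Finset J, approxOf g σ x = 1 := by
      intro σ
      unfold approxOf
      rw [Finset.prod_apply]
      refine Finset.prod_eq_one fun k _ => ?_
      simp [subsetSum, hall]
    have hempty : (Finset.univ : Finset (Fin t → Finset J)).filter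
        (fun σ => approxOf g σ x ≠ ∏ j, g j x) = ∅ := by
      apply Finset.filter_false_of_mem
      intro σ _
      rw [this σ, hprod]
      simp
    rw [hempty]
    simp
  · push Not at hall
    obtain ⟨j₀, hj₀⟩ := hall
    have h0 : g j₀ x = 0 := by
      rcases zmod2_eq_zero_or_one (g j₀ x) with h | h
      · exact h
      · exact absurd h hj₀
    have hprod : ∏ j, g j x = 0 := Finset.prod_eq_zero (Finset.mem_univ j₀) h0
    set A := (Finset.univ : Finset (Finset J)).filter fun S => subsetSum g S x = 0 with hA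
    have hcard : A.card * 2 = 2 ^ Fintype.card J := card_zero_sum g x j₀ h0
    have hsub : (Finset.univ : Finset (Fin t → Finset J)).filter
        (fun σ => approxOf g σ x ≠ ∏ j, g j x) ⊆ Fintype.piFinset (fun _ => A) := by
      intro σ hσ
      simp only [Finset.mem_filter, Finset.mem_univ, true_and, hprod] at hσ
      rw [Fintype.mem_piFinset]
      intro k
      simp only [hA, Finset.mem_filter, Finset.mem_univ, true_and]
      by_contra hne
      apply hσ
      unfold approxOf
      rw [Finset.prod_apply]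
      refine Finset.prod_eq_zero (Finset.mem_univ k) ?_
      have h1 : subsetSum g (σ k) x = 1 := by
        rcases zmod2_eq_zero_or_one (subsetSum g (σ k) x) with h | h
        · exact absurd h hne
        · exact h
      simp [h1]
    have hle := Finset.card_le_card hsub
    rw [Fintype.card_piFinset] at hle
    simp only [Finset.prod_const, Finset.card_univ, Fintype.card_fin] at hle
    have hpi : Fintype.card (Fin t → Finset J) = (2 ^ Fintype.card J) ^ t := by
      simp [Fintype.card_pi, Fintype.card_finset]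
    rw [hpi, ← hcard, mul_pow]
    exact Nat.mul_le_mul_right _ hle

/-- Razborov's approximation of a product of low-degree functions over `F_2`. -/
theorem razborov {e : ℕ} (t : ℕ) (g : J → Cube m → ZMod 2) (hg : ∀ j, g j ∈ V m e) :
    ∃ p ∈ V m (t * e),
      ((Finset.univ : Finset (Cube m)).filter fun x => p x ≠ ∏ j, g j x).card * 2 ^ t ≤ 2 ^ m := by
  have key : ∑ σ : Fin t → Finset J,
      ((Finset.univ : Finset (Cube m)).filter fun x => approxOf g σ x ≠ ∏ j, g j x).card * 2 ^ t
      ≤ ∑ _σ : Fin t → Finset J, 2 ^ m := by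
    rw [← Finset.sum_mul]
    have hdc : ∑ σ : Fin t → Finset J,
        ((Finset.univ : Finset (Cube m)).filter fun x => approxOf g σ x ≠ ∏ j, g j x).card
        = ∑ x : Cube m, ((Finset.univ : Finset (Fin t → Finset J)).filter
            fun σ => approxOf g σ x ≠ ∏ j, g j x).card := by
      simp only [Finset.card_filter]
      rw [Finset.sum_comm]
    rw [hdc, Finset.sum_mul]
    calc ∑ x : Cube m, ((Finset.univ : Finset (Fin t → Finset J)).filter
            fun σ => approxOf g σ x ≠ ∏ j, g j x).card * 2 ^ t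
        ≤ ∑ _x : Cube m, Fintype.card (Fin t → Finset J) :=
          Finset.sum_le_sum fun x _ => err_at_point g x
      _ = ∑ _σ : Fin t → Finset J, 2 ^ m := by
          simp [Finset.card_univ, ZMod.card, mul_comm]
  obtain ⟨σ, -, hσ⟩ := Finset.exists_le_of_sum_le (Finset.univ_nonempty) key
  exact ⟨approxOf g σ, approxOf_mem g hg σ, hσ⟩

end Razborov


section Smolensky

variable {m : ℕ}

/-- Hamming weight -/
def wt (x : Cube m) : ℕ := ((Finset.univ : Finset (Fin m)).filter fun i => x i = 1).card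

/-- the majority function, with value `1` on more than half of the ones -/
def tau (x : Cube m) : ZMod 2 := if m < 2 * wt x then 1 else 0

lemma coord_mem_V (i : Fin m) : (fun x : Cube m => x i) ∈ V m 1 := by
  have : (fun x : Cube m => x i) = mon {i} := by
    funext x; simp [mon]
  rw [this]
  exact mon_mem_V (by simp)

lemma V_top (f : Cube m → ZMod 2) : f ∈ V m m := by
  have hdelta : ∀ a : Cube m, (fun x : Cube m => ∏ i, (1 + x i + a i)) ∈ V m m := by
    intro a
    have h := prod_mem_V (Finset.univ : Finset (Fin m))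
      (fun i => (1 : Cube m → ZMod 2) + (fun x : Cube m => x i) + (fun _ => a i)) (e := 1)
      (fun i _ => Submodule.add_mem _ (Submodule.add_mem _ (one_mem_V m 1) (coord_mem_V i))
        (const_mem_V m 1 (a i)))
    simp only [Finset.card_univ, Fintype.card_fin, mul_one] at h
    convert h using 1
    funext x
    simp [Finset.prod_apply]
  have hval : ∀ a x : Cube m, (∏ i, (1 + x i + a i)) = if x = a then 1 else 0 := by
    intro a x
    split_ifs with h
    · subst h
      refine Finset.prod_eq_one fun i _ => ?_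
      have : ∀ b : ZMod 2, 1 + b + b = 1 := by decide
      exact this _
    · have : ∃ i, x i ≠ a i := by
        by_contra hc
        push Not at hc
        exact h (funext hc)
      obtain ⟨i, hi⟩ := this
      refine Finset.prod_eq_zero (Finset.mem_univ i) ?_
      have : ∀ b c : ZMod 2, b ≠ c → 1 + b + c = 0 := by decide
      exact this _ _ hi
  have hf : f = ∑ a : Cube m, f a • (fun x : Cube m => ∏ i, (1 + x i + a i)) := by
    funext x
    simp only [Finset.sum_apply, Pi.smul_apply, hval, smul_eq_mul]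
    simp
  rw [hf]
  exact Submodule.sum_mem _ fun a _ => Submodule.smul_mem _ _ (hdelta a)

lemma low_of_tau_zero (f : Cube m → ZMod 2) :
    ∃ h ∈ V m (m / 2), ∀ x, tau x = 0 → h x = f x := by
  have hf := V_top f
  induction hf using Submodule.span_induction with
  | mem f hf =>
    obtain ⟨S, -, rfl⟩ := hf
    by_cases hS : S.card ≤ m / 2
    · exact ⟨mon S, mon_mem_V hS, fun _ _ => rfl⟩
    · refine ⟨0, Submodule.zero_mem _, fun x hx => ?_⟩
      rw [mon_apply, if_neg]
      · rfl
      · intro hall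
        have hsub : S ⊆ (Finset.univ : Finset (Fin m)).filter fun i => x i = 1 := by
          intro i hi
          simp [hall i hi]
        have hle : S.card ≤ wt x := Finset.card_le_card hsub
        unfold tau at hx
        rw [if_pos (by omega)] at hx
        exact one_ne_zero hx
  | zero => exact ⟨0, Submodule.zero_mem _, fun _ _ => rfl⟩
  | add f g _ _ h1 h2 =>
    obtain ⟨a, ha, ha'⟩ := h1
    obtain ⟨b, hb, hb'⟩ := h2
    refine ⟨a + b, Submodule.add_mem _ ha hb, fun x hx => ?_⟩
    simp [ha' x hx, hb' x hx]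
  | smul c f _ h1 =>
    obtain ⟨a, ha, ha'⟩ := h1
    refine ⟨c • a, Submodule.smul_mem _ _ ha, fun x hx => ?_⟩
    simp [ha' x hx]

/-- complement of a point of the cube -/
def flipC (x : Cube m) : Cube m := fun i => 1 - x i

lemma flipC_flipC (x : Cube m) : flipC (flipC x) = x := by
  funext i; simp [flipC]

lemma V_flip {d : ℕ} {f : Cube m → ZMod 2} (hf : f ∈ V m d) :
    (fun x => f (flipC x)) ∈ V m d := by
  induction hf using Submodule.span_induction with
  | mem f hf =>
    obtain ⟨S, hS, rfl⟩ := hf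
    have h := prod_mem_V S
      (fun i => (1 : Cube m → ZMod 2) - (fun x : Cube m => x i)) (e := 1)
      (fun i _ => Submodule.sub_mem _ (one_mem_V m 1) (coord_mem_V i))
    rw [mul_one] at h
    have : (fun x => mon S (flipC x)) = ∏ i ∈ S, ((1 : Cube m → ZMod 2) - (fun x : Cube m => x i)) := by
      funext x
      simp [mon, flipC, Finset.prod_apply]
    rw [this]
    exact V_mono hS h
  | zero => exact Submodule.zero_mem _
  | add f g _ _ h1 h2 => exact Submodule.add_mem _ h1 h2
  | smul c f _ h1 => exact Submodule.smul_mem _ c h1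

lemma wt_flipC (x : Cube m) : wt (flipC x) + wt x = m := by
  unfold wt flipC
  have h : ((Finset.univ : Finset (Fin m)).filter fun i => 1 - x i = 1)
      = (Finset.univ : Finset (Fin m)).filter fun i => ¬ x i = 1 := by
    ext i
    simp only [Finset.mem_filter, Finset.mem_univ, true_and]
    rcases zmod2_eq_zero_or_one (x i) with h | h <;> simp [h]
  rw [h]
  have := Finset.card_filter_add_card_filter_not (s := (Finset.univ : Finset (Fin m)))
    (fun i => x i = 1)
  simp only [Finset.card_univ, Fintype.card_fin] at this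
  omega

lemma tau_flip_of_one {x : Cube m} (hx : tau x = 1) : tau (flipC x) = 0 := by
  have h1 : m < 2 * wt x := by
    unfold tau at hx
    by_contra hc
    rw [if_neg hc] at hx
    exact zero_ne_one hx
  have h2 := wt_flipC x
  unfold tau
  rw [if_neg (by omega)]

lemma low_of_tau_one (f : Cube m → ZMod 2) :
    ∃ g ∈ V m (m / 2), ∀ x, tau x = 1 → g x = f x := by
  obtain ⟨h, hh, hh'⟩ := low_of_tau_zero (fun y => f (flipC y))
  refine ⟨fun x => h (flipC x), V_flip hh, fun x hx => ?_⟩
  have := hh' (flipC x) (tau_flip_of_one hx)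
  simpa [flipC_flipC] using this

lemma interpolate {D : ℕ} {p : Cube m → ZMod 2} (hp : p ∈ V m D) (G : Finset (Cube m))
    (hG : ∀ x ∈ G, p x = tau x) (f : Cube m → ZMod 2) :
    ∃ q ∈ V m (D + m / 2), ∀ x ∈ G, q x = f x := by
  obtain ⟨g, hg, hg'⟩ := low_of_tau_one f
  obtain ⟨h, hh, hh'⟩ := low_of_tau_zero f
  refine ⟨p * g + (1 - p) * h, ?_, ?_⟩
  · exact Submodule.add_mem _ (mul_mem_V hp hg)
      (mul_mem_V (Submodule.sub_mem _ (one_mem_V m D) hp) hh)
  · intro x hx
    have hpx := hG x hx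
    simp only [Pi.add_apply, Pi.mul_apply, Pi.sub_apply, Pi.one_apply, hpx]
    unfold tau at hpx ⊢
    split_ifs with hc
    · have : tau x = 1 := by unfold tau; rw [if_pos hc]
      simp [hg' x this]
    · have : tau x = 0 := by unfold tau; rw [if_neg hc]
      simp [hh' x this]

lemma card_le_of_interpolate {A : ℕ} (G : Finset (Cube m))
    (hq : ∀ f : Cube m → ZMod 2, ∃ q ∈ V m A, ∀ x ∈ G, q x = f x) :
    G.card ≤ ((Finset.univ : Finset (Finset (Fin m))).filter fun S => S.card ≤ A).card := by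
  classical
  set L : V m A →ₗ[ZMod 2] (G → ZMod 2) :=
    (LinearMap.funLeft (ZMod 2) (ZMod 2) (Subtype.val : G → Cube m)).comp (V m A).subtype with hL
  have hsurj : Function.Surjective L := by
    intro y
    obtain ⟨q, hq1, hq2⟩ := hq (fun x => if h : x ∈ G then y ⟨x, h⟩ else 0)
    refine ⟨⟨q, hq1⟩, ?_⟩
    funext z
    have := hq2 z.1 z.2
    simpa [hL, LinearMap.funLeft] using this
  have h1 : Module.finrank (ZMod 2) (G → ZMod 2) ≤ Module.finrank (ZMod 2) (V m A) := by
    have := LinearMap.finrank_range_le L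
    rwa [LinearMap.range_eq_top.2 hsurj, finrank_top] at this
  rw [Module.finrank_fintype_fun_eq_card, Fintype.card_coe] at h1
  have h2 : Module.finrank (ZMod 2) (V m A)
      ≤ ((Finset.univ : Finset (Finset (Fin m))).filter fun S => S.card ≤ A).card := by
    have hset : {f : Cube m → ZMod 2 | ∃ S : Finset (Fin m), S.card ≤ A ∧ f = mon S}
        = ↑(((Finset.univ : Finset (Finset (Fin m))).filter fun S => S.card ≤ A).image mon) := by
      ext f
      simp only [Set.mem_ofPred_eq, Finset.coe_image, Set.mem_image, Finset.coe_filter,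
        Finset.mem_univ, true_and]
      constructor
      · rintro ⟨S, hS, rfl⟩; exact ⟨S, hS, rfl⟩
      · rintro ⟨S, hS, rfl⟩; exact ⟨S, hS, rfl⟩
    have h3 := finrank_span_finset_le_card (R := ZMod 2)
      (((Finset.univ : Finset (Finset (Fin m))).filter fun S => S.card ≤ A).image mon)
    have h4 : V m A = Submodule.span (ZMod 2)
        (↑(((Finset.univ : Finset (Finset (Fin m))).filter fun S => S.card ≤ A).image mon)) := by
      unfold V; rw [hset]
    calc Module.finrank (ZMod 2) (V m A) = Set.finrank (ZMod 2)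
          (↑(((Finset.univ : Finset (Finset (Fin m))).filter fun S => S.card ≤ A).image mon) :
            Set (Cube m → ZMod 2)) := by
          rw [h4]; rfl
      _ ≤ _ := h3
      _ ≤ _ := Finset.card_image_le
  exact h1.trans h2

lemma card_low_add_choose_le (A : ℕ) :
    ((Finset.univ : Finset (Finset (Fin m))).filter fun S => S.card ≤ A).card
      + m.choose (A + 1) ≤ 2 ^ m := by
  classical
  have hdisj : Disjoint ((Finset.univ : Finset (Finset (Fin m))).filter fun S => S.card ≤ A)
      (Finset.powersetCard (A + 1) (Finset.univ : Finset (Fin m))) := by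
    rw [Finset.disjoint_left]
    intro S hS hS'
    simp only [Finset.mem_filter, Finset.mem_univ, true_and] at hS
    have := (Finset.mem_powersetCard.1 hS').2
    omega
  have hcard := Finset.card_le_univ (((Finset.univ : Finset (Finset (Fin m))).filter
    fun S => S.card ≤ A) ∪ (Finset.powersetCard (A + 1) (Finset.univ : Finset (Fin m))))
  rw [Finset.card_union_of_disjoint hdisj, Finset.card_powersetCard, Finset.card_univ,
    Fintype.card_fin, Fintype.card_finset, Fintype.card_fin] at hcard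
  exact hcard

/-- Smolensky-type error bound: a degree `D` function errs on majority on at least
`binom(m, m/2 + D + 1)` points. -/
theorem majority_error {D : ℕ} {p : Cube m → ZMod 2} (hp : p ∈ V m D) :
    m.choose (D + m / 2 + 1) ≤
      ((Finset.univ : Finset (Cube m)).filter fun x => p x ≠ tau x).card := by
  classical
  set E := (Finset.univ : Finset (Cube m)).filter fun x => p x ≠ tau x with hE
  set G := (Finset.univ : Finset (Cube m)).filter fun x => ¬ p x ≠ tau x with hGdef
  have hG : ∀ x ∈ G, p x = tau x := by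
    intro x hx
    simpa [hGdef] using hx
  have h1 := card_le_of_interpolate G (interpolate hp G hG)
  have h2 := card_low_add_choose_le (m := m) (D + m / 2)
  have h3 : E.card + G.card = 2 ^ m := by
    have := Finset.card_filter_add_card_filter_not (s := (Finset.univ : Finset (Cube m)))
      (fun x => p x ≠ tau x)
    rw [this, Finset.card_univ]
    simp [ZMod.card]
  omega

end Smolensky


section CircuitApprox

open SPSPSCircuit

variable {m : ℕ} {W : Type} (D : SPSPSCircuit (ZMod 2) W) (α : W → Cube m → ZMod 2)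

lemma pow_eq_ite_mem (a : ZMod 2) (k : ℕ) : a ^ k = if k = 0 then 1 else a := by
  split_ifs with h
  · simp [h]
  · exact zmod2_pow_of_ne_zero a h

lemma leaf_mem (hα : ∀ v, α v ∈ V m 1) (l : D.Leaf) :
    (fun x : Cube m => eval (fun v => α v x) (D.leafPoly l)) ∈ V m 1 := by
  unfold leafPoly
  split
  · simp only [eval_X]
    exact hα _
  · simp only [eval_C]
    exact const_mem_V m 1 _

lemma poly1_mem (hα : ∀ v, α v ∈ V m 1) (i : D.S1) :
    (fun x : Cube m => eval (fun v => α v x) (D.poly1 i)) ∈ V m 1 := by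
  have : (fun x : Cube m => eval (fun v => α v x) (D.poly1 i))
      = ∑ l, D.a1 i l • (fun x : Cube m => eval (fun v => α v x) (D.leafPoly l)) := by
    funext x
    simp [poly1, Finset.sum_apply]
  rw [this]
  exact Submodule.sum_mem _ fun l _ => Submodule.smul_mem _ _ (leaf_mem D α hα l)

/-- Approximation of a depth-five circuit over `F_2`, under an affine substitution, by a
polynomial of degree `t^2`. -/
theorem circuit_approx (hα : ∀ v, α v ∈ V m 1) (t : ℕ) :
    ∃ P ∈ V m (t * (t * 1)),
      ((Finset.univ : Finset (Cube m)).filter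
        fun x => P x ≠ eval (fun v => α v x) D.output).card * 2 ^ t
      ≤ (Fintype.card D.P2 + Fintype.card D.P4) * 2 ^ m := by
  classical
  -- lower product gates
  let g2 : D.P2 → D.S1 → Cube m → ZMod 2 := fun i j =>
    if D.m2 i j = 0 then 1 else fun x => eval (fun v => α v x) (D.poly1 j)
  have hg2 : ∀ i j, g2 i j ∈ V m 1 := by
    intro i j
    by_cases h : D.m2 i j = 0
    · simp only [g2, if_pos h]; exact one_mem_V m 1
    · simp only [g2, if_neg h]; exact poly1_mem D α hα j
  have hval2 : ∀ i x, eval (fun v => α v x) (D.poly2 i) = ∏ j, g2 i j x := by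
    intro i x
    simp only [poly2, map_prod, map_pow]
    refine Finset.prod_congr rfl fun j _ => ?_
    rw [pow_eq_ite_mem]
    by_cases h : D.m2 i j = 0
    · simp [g2, h]
    · simp [g2, h]
  choose p2 hp2 herr2 using fun i => razborov t (g2 i) (hg2 i)
  -- middle sum gates
  let q3 : D.S3 → Cube m → ZMod 2 := fun i => ∑ j, D.a3 i j • p2 j
  have hq3 : ∀ i, q3 i ∈ V m (t * 1) := fun i =>
    Submodule.sum_mem _ fun j _ => Submodule.smul_mem _ _ (hp2 j)
  -- upper product gates
  let g4 : D.P4 → D.S3 → Cube m → ZMod 2 := fun i j =>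
    if D.m4 i j = 0 then 1 else q3 j
  have hg4 : ∀ i j, g4 i j ∈ V m (t * 1) := by
    intro i j
    by_cases h : D.m4 i j = 0
    · simp only [g4, if_pos h]; exact one_mem_V m _
    · simp only [g4, if_neg h]; exact hq3 j
  choose p4 hp4 herr4 using fun i => razborov t (g4 i) (hg4 i)
  -- final polynomial
  let P : Cube m → ZMod 2 := ∑ i, D.a5 i • p4 i
  have hP : P ∈ V m (t * (t * 1)) :=
    Submodule.sum_mem _ fun i _ => Submodule.smul_mem _ _ (hp4 i)
  refine ⟨P, hP, ?_⟩
  let E2 : D.P2 → Finset (Cube m) := fun i =>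
    (Finset.univ : Finset (Cube m)).filter fun x => p2 i x ≠ ∏ j, g2 i j x
  let E4 : D.P4 → Finset (Cube m) := fun i =>
    (Finset.univ : Finset (Cube m)).filter fun x => p4 i x ≠ ∏ j, g4 i j x
  have hsub : (Finset.univ : Finset (Cube m)).filter
      (fun x => P x ≠ eval (fun v => α v x) D.output)
      ⊆ (Finset.univ.biUnion E2) ∪ (Finset.univ.biUnion E4) := by
    intro x hx
    simp only [Finset.mem_filter, Finset.mem_univ, true_and] at hx
    by_contra hnot
    simp only [Finset.mem_union, Finset.mem_biUnion, Finset.mem_univ, true_and, not_or,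
      not_exists, E2, E4, Finset.mem_filter, not_not] at hnot
    obtain ⟨h2, h4⟩ := hnot
    apply hx
    have h3val : ∀ i, q3 i x = eval (fun v => α v x) (D.poly3 i) := by
      intro i
      simp only [q3, poly3, map_sum, map_mul, eval_C, Finset.sum_apply, Pi.smul_apply,
        smul_eq_mul]
      refine Finset.sum_congr rfl fun j _ => ?_
      rw [h2 j, hval2]
    have h4val : ∀ i, p4 i x = eval (fun v => α v x) (D.poly4 i) := by
      intro i
      rw [h4 i]
      simp only [poly4, map_prod, map_pow]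
      refine Finset.prod_congr rfl fun j _ => ?_
      rw [pow_eq_ite_mem, ← h3val]
      by_cases h : D.m4 i j = 0
      · simp [g4, h]
      · simp [g4, h]
    simp only [P, output, map_sum, map_mul, eval_C, Finset.sum_apply, Pi.smul_apply,
      smul_eq_mul]
    refine Finset.sum_congr rfl fun i _ => ?_
    rw [h4val]
  have hcard : ((Finset.univ.biUnion E2) ∪ (Finset.univ.biUnion E4)).card * 2 ^ t
      ≤ (Fintype.card D.P2 + Fintype.card D.P4) * 2 ^ m := by
    have h1 : (Finset.univ.biUnion E2).card * 2 ^ t ≤ Fintype.card D.P2 * 2 ^ m := by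
      calc (Finset.univ.biUnion E2).card * 2 ^ t ≤ (∑ i, (E2 i).card) * 2 ^ t :=
            Nat.mul_le_mul_right _ Finset.card_biUnion_le
        _ = ∑ i, (E2 i).card * 2 ^ t := Finset.sum_mul _ _ _
        _ ≤ ∑ _i : D.P2, 2 ^ m := Finset.sum_le_sum fun i _ => herr2 i
        _ = Fintype.card D.P2 * 2 ^ m := by simp [Finset.card_univ]
    have h2 : (Finset.univ.biUnion E4).card * 2 ^ t ≤ Fintype.card D.P4 * 2 ^ m := by
      calc (Finset.univ.biUnion E4).card * 2 ^ t ≤ (∑ i, (E4 i).card) * 2 ^ t :=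
            Nat.mul_le_mul_right _ Finset.card_biUnion_le
        _ = ∑ i, (E4 i).card * 2 ^ t := Finset.sum_mul _ _ _
        _ ≤ ∑ _i : D.P4, 2 ^ m := Finset.sum_le_sum fun i _ => herr4 i
        _ = Fintype.card D.P4 * 2 ^ m := by simp [Finset.card_univ]
    have h3 := Finset.card_union_le (Finset.univ.biUnion E2) (Finset.univ.biUnion E4)
    calc ((Finset.univ.biUnion E2) ∪ (Finset.univ.biUnion E4)).card * 2 ^ t
        ≤ ((Finset.univ.biUnion E2).card + (Finset.univ.biUnion E4).card) * 2 ^ t :=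
          Nat.mul_le_mul_right _ h3
      _ = (Finset.univ.biUnion E2).card * 2 ^ t + (Finset.univ.biUnion E4).card * 2 ^ t :=
          add_mul _ _ _
      _ ≤ Fintype.card D.P2 * 2 ^ m + Fintype.card D.P4 * 2 ^ m := Nat.add_le_add h1 h2
      _ = _ := (add_mul _ _ _).symm
  exact (Nat.mul_le_mul_right _ (Finset.card_le_card hsub)).trans hcard

end CircuitApprox


section ImmEval

variable {m : ℕ}

/-- bit `r` of `x` (zero if `r ≥ m`) -/
def bit (x : Cube m) (r : ℕ) : ZMod 2 := if h : r < m then x ⟨r, h⟩ else 0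

/-- weight of the first `r` bits -/
def pwt (x : Cube m) (r : ℕ) : ℕ :=
  ((Finset.univ : Finset (Fin m)).filter fun i => i.val < r ∧ x i = 1).card

/-- the transition matrices of the branching program counting ones and finally comparing with
half of the length -/
def stepMat (x : Cube m) (r : ℕ) : Matrix (Fin (m + 1)) (Fin (m + 1)) (ZMod 2) :=
  fun i j =>
    if r < m then
      (if j = i then 1 - bit x r else 0) + (if j.val = i.val + 1 then bit x r else 0)
    else if j.val = 0 ∧ m < 2 * i.val then 1 else 0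

lemma pwt_zero (x : Cube m) : pwt x 0 = 0 := by
  simp [pwt]

lemma pwt_le (x : Cube m) (r : ℕ) : pwt x r ≤ r := by
  unfold pwt
  have h := Finset.card_le_card_of_injOn (s := (Finset.univ : Finset (Fin m)).filter
    fun i => i.val < r ∧ x i = 1) (t := Finset.range r) (fun i => i.val)
    (fun i hi => by
      simp only [Finset.coe_filter, Finset.mem_univ, true_and, Set.mem_ofPred_eq] at hi
      simpa using hi.1)
    (fun a _ b _ hab => Fin.ext hab)
  simpa using h

lemma pwt_succ (x : Cube m) (r : ℕ) (hr : r < m) :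
    pwt x (r + 1) = pwt x r + (if bit x r = 1 then 1 else 0) := by
  unfold pwt bit
  rw [dif_pos hr]
  have hset : ((Finset.univ : Finset (Fin m)).filter fun i => i.val < r + 1 ∧ x i = 1)
      = ((Finset.univ : Finset (Fin m)).filter fun i => i.val < r ∧ x i = 1)
        ∪ (if x ⟨r, hr⟩ = 1 then {⟨r, hr⟩} else ∅) := by
    ext i
    simp only [Finset.mem_filter, Finset.mem_univ, true_and, Finset.mem_union]
    constructor
    · rintro ⟨h1, h2⟩
      by_cases h : i.val < r
      · exact Or.inl ⟨h, h2⟩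
      · right
        have hi : i = ⟨r, hr⟩ := Fin.ext (by simp; omega)
        subst hi
        simp [h2]
    · rintro (⟨h1, h2⟩ | h)
      · exact ⟨by omega, h2⟩
      · split_ifs at h with hc
        · simp only [Finset.mem_singleton] at h
          subst h
          exact ⟨by simp, hc⟩
        · simp at h
  rw [hset]
  split_ifs with hc
  · rw [Finset.card_union_of_disjoint]
    · simp
    · rw [Finset.disjoint_singleton_right]
      simp
  · simp

lemma pwt_last (x : Cube m) : pwt x m = wt x := by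
  unfold pwt wt
  congr 1
  ext i
  simp

lemma prod_range_apply (x : Cube m) (r : ℕ) (hr : r ≤ m) (j : Fin (m + 1)) :
    (((List.range r).map (stepMat x)).prod : Matrix (Fin (m + 1)) (Fin (m + 1)) (ZMod 2)) 0 j
      = if j.val = pwt x r then 1 else 0 := by
  induction r generalizing j with
  | zero =>
    simp only [List.range_zero, List.map_nil, List.prod_nil, pwt_zero, Matrix.one_apply]
    by_cases h : j = 0
    · simp [h]
    · have hj : j.val ≠ 0 := fun h' => h (Fin.ext h')
      simp [hj, Ne.symm h]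
  | succ r ih =>
    have hrm : r < m := hr
    rw [List.range_succ, List.map_append, List.prod_append]
    simp only [List.map_cons, List.map_nil, List.prod_cons, List.prod_nil, mul_one]
    rw [Matrix.mul_apply]
    have hw : pwt x r < m + 1 := by
      have := pwt_le x r; omega
    rw [Finset.sum_eq_single (⟨pwt x r, hw⟩ : Fin (m + 1))]
    · rw [ih (by omega)]
      simp only [if_true]
      rw [one_mul, pwt_succ x r hrm]
      simp only [stepMat, if_pos hrm]
      rcases zmod2_eq_zero_or_one (bit x r) with hb | hb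
      · rw [hb]
        by_cases hj : j.val = pwt x r
        · have : j = ⟨pwt x r, hw⟩ := Fin.ext hj
          simp [this]
        · have : j ≠ ⟨pwt x r, hw⟩ := fun h => hj (by rw [h])
          simp [this, hj]
      · rw [hb]
        by_cases hj : j.val = pwt x r + 1
        · have : j ≠ ⟨pwt x r, hw⟩ := fun h => by
            rw [h] at hj; simp at hj
          simp [this, hj]
        · by_cases hj' : j = ⟨pwt x r, hw⟩
          · simp [hj']
          · simp [hj, hj']
    · intro l _ hl
      rw [ih (by omega)]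
      have : l.val ≠ pwt x r := fun h => hl (Fin.ext h)
      simp [this]
    · simp

lemma stepMat_prod_apply (x : Cube m) :
    ((List.ofFn fun k : Fin (m + 1) => stepMat x k.val).prod :
      Matrix (Fin (m + 1)) (Fin (m + 1)) (ZMod 2)) 0 0 = tau x := by
  have hlist : (List.ofFn fun k : Fin (m + 1) => stepMat x k.val)
      = (List.range (m + 1)).map (stepMat x) := by
    apply List.ext_getElem
    · simp
    · intro i h1 h2
      simp only [List.getElem_ofFn, List.getElem_map, List.getElem_range]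
  rw [hlist, List.range_succ, List.map_append, List.prod_append]
  simp only [List.map_cons, List.map_nil, List.prod_cons, List.prod_nil, mul_one]
  rw [Matrix.mul_apply]
  have hw : pwt x m < m + 1 := by
    have := pwt_le x m; omega
  rw [Finset.sum_eq_single (⟨pwt x m, hw⟩ : Fin (m + 1))]
  · rw [prod_range_apply x m le_rfl]
    simp only [if_true, one_mul, stepMat, lt_irrefl, if_false]
    have htau : tau x = if m < 2 * pwt x m then 1 else 0 := by
      rw [pwt_last]; rfl
    rw [htau]
    simp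
  · intro l _ hl
    rw [prod_range_apply x m le_rfl]
    have : l.val ≠ pwt x m := fun h => hl (Fin.ext h)
    simp [this]
  · simp

end ImmEval



section Final

open SPSPSCircuit

variable {m : ℕ}

/-- the affine substitution turning `IMM_{m+1,m+1}` into majority -/
def immSub (m : ℕ) : ImmVar (m + 1) (m + 1) → Cube m → ZMod 2 :=
  fun v x => stepMat x v.1.val v.2.1 v.2.2

lemma bit_mem (r : ℕ) : (fun x : Cube m => bit x r) ∈ V m 1 := by
  by_cases h : r < m
  · simpa [bit, h] using coord_mem_V (⟨r, h⟩ : Fin m)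
  · simpa [bit, h] using const_mem_V m 1 0

lemma immSub_mem (v : ImmVar (m + 1) (m + 1)) : immSub m v ∈ V m 1 := by
  rcases v with ⟨k, i, j⟩
  unfold immSub stepMat
  by_cases hk : k.val < m
  · simp only [if_pos hk]
    refine Submodule.add_mem _ ?_ ?_
    · by_cases hij : j = i
      · simp only [if_pos hij]
        exact Submodule.sub_mem _ (one_mem_V m 1) (bit_mem k.val)
      · simp only [if_neg hij]
        exact const_mem_V m 1 0
    · by_cases hij : j.val = i.val + 1
      · simp only [if_pos hij]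
        exact bit_mem k.val
      · simp only [if_neg hij]
        exact const_mem_V m 1 0
  · simp only [if_neg hk]
    exact const_mem_V m 1 _

lemma eval_imm (x : Cube m) :
    eval (fun v => immSub m v x) (imm (ZMod 2) (m + 1) (m + 1) (Nat.succ_pos m)) = tau x := by
  rw [← stepMat_prod_apply x]
  unfold imm
  set f := eval (fun v => immSub m v x) with hf
  have h1 : f ((List.ofFn (immMatrix (ZMod 2) (m + 1) (m + 1))).prod ⟨0, Nat.succ_pos m⟩
        ⟨0, Nat.succ_pos m⟩)
      = (f.mapMatrix (List.ofFn (immMatrix (ZMod 2) (m + 1) (m + 1))).prod)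
        ⟨0, Nat.succ_pos m⟩ ⟨0, Nat.succ_pos m⟩ := by
    simp [RingHom.mapMatrix_apply, Matrix.map_apply]
  rw [h1, map_list_prod, List.map_ofFn]
  have h2 : (f.mapMatrix ∘ immMatrix (ZMod 2) (m + 1) (m + 1))
      = fun k : Fin (m + 1) => stepMat x k.val := by
    funext k
    ext i j
    simp [immMatrix, RingHom.mapMatrix_apply, Matrix.map_apply, hf, immSub]
  rw [h2]
  rfl

/-- The basic inequality for a circuit computing `IMM_{m+1,m+1}`. -/
theorem main_ineq (D : SPSPSCircuit (ZMod 2) (ImmVar (m + 1) (m + 1)))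
    (hD : D.output = imm (ZMod 2) (m + 1) (m + 1) (Nat.succ_pos m)) (t : ℕ) :
    m.choose (t * (t * 1) + m / 2 + 1) * 2 ^ t ≤ D.size * 2 ^ m := by
  obtain ⟨P, hP, herr⟩ := circuit_approx D (immSub m) immSub_mem t
  have hE := majority_error hP
  have hfilter : ((Finset.univ : Finset (Cube m)).filter
      fun x => P x ≠ eval (fun v => immSub m v x) D.output)
      = (Finset.univ : Finset (Cube m)).filter fun x => P x ≠ tau x := by
    ext x
    simp only [Finset.mem_filter, Finset.mem_univ, true_and, hD, eval_imm]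
  rw [hfilter] at herr
  have hsize : Fintype.card D.P2 + Fintype.card D.P4 ≤ D.size := by
    unfold SPSPSCircuit.size; omega
  calc m.choose (t * (t * 1) + m / 2 + 1) * 2 ^ t
      ≤ ((Finset.univ : Finset (Cube m)).filter fun x => P x ≠ tau x).card * 2 ^ t :=
        Nat.mul_le_mul_right _ hE
    _ ≤ (Fintype.card D.P2 + Fintype.card D.P4) * 2 ^ m := herr
    _ ≤ D.size * 2 ^ m := Nat.mul_le_mul_right _ hsize

lemma choose_ratio (m J i : ℕ) (hJ : 2 * (2 * J + 1) ≤ m / 2) (hi : i < J) :
    (1 - ((2 * J + 1 : ℕ) : ℝ) / ((m / 2 : ℕ) : ℝ)) * (m.choose (m / 2 + i) : ℝ)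
      ≤ (m.choose (m / 2 + i + 1) : ℝ) := by
  set h := m / 2 with hh
  have hm : 2 * h ≤ m := by omega
  have hid := Nat.choose_succ_right_eq m (h + i)
  have hpos : (0 : ℝ) < (h : ℝ) := by
    have : 0 < h := by omega
    exact_mod_cast this
  have hid' : (m.choose (h + i + 1) : ℝ) * ((h : ℝ) + i + 1)
      = (m.choose (h + i) : ℝ) * ((m : ℝ) - h - i) := by
    have hle : h + i ≤ m := by omega
    have := congrArg (fun n : ℕ => (n : ℝ)) hid
    simp only [Nat.cast_mul, Nat.cast_add, Nat.cast_one, Nat.cast_sub hle] at this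
    rw [this]; ring
  have hC : (0 : ℝ) ≤ (m.choose (h + i) : ℝ) := Nat.cast_nonneg _
  have hden : (0 : ℝ) < (h : ℝ) + i + 1 := by positivity
  rw [← mul_le_mul_iff_of_pos_right hden, hid']
  have hu : (((2 * J + 1 : ℕ) : ℝ) / (h : ℝ)) * ((h : ℝ) + i + 1) ≥ 2 * (i : ℝ) + 1 := by
    have h1 : (((2 * J + 1 : ℕ) : ℝ) / (h : ℝ)) * (h : ℝ) = ((2 * J + 1 : ℕ) : ℝ) := by
      field_simp
    have h2 : (0 : ℝ) ≤ ((2 * J + 1 : ℕ) : ℝ) / (h : ℝ) := by positivity
    have h3 : ((2 * (i : ℝ) + 1)) ≤ ((2 * J + 1 : ℕ) : ℝ) := by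
      have : 2 * i + 1 ≤ 2 * J + 1 := by omega
      exact_mod_cast this
    have h4 : (0 : ℝ) ≤ (i : ℝ) + 1 := by positivity
    nlinarith [mul_nonneg h2 h4]
  have hmr : (2 : ℝ) * h ≤ m := by exact_mod_cast hm
  have key : (1 - ((2 * J + 1 : ℕ) : ℝ) / (h : ℝ)) * ((h : ℝ) + i + 1) ≤ (m : ℝ) - h - i := by
    nlinarith
  calc (1 - ((2 * J + 1 : ℕ) : ℝ) / (h : ℝ)) * (m.choose (h + i) : ℝ) * ((h : ℝ) + i + 1)
      = (m.choose (h + i) : ℝ) * ((1 - ((2 * J + 1 : ℕ) : ℝ) / (h : ℝ)) * ((h : ℝ) + i + 1)) := by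
        ring
    _ ≤ (m.choose (h + i) : ℝ) * ((m : ℝ) - h - i) := mul_le_mul_of_nonneg_left key hC

lemma one_sub_ge_exp {u : ℝ} (h0 : 0 ≤ u) (h1 : u ≤ 1 / 2) : Real.exp (-(2 * u)) ≤ 1 - u := by
  have h2 : 1 + 2 * u ≤ Real.exp (2 * u) := by linarith [Real.add_one_le_exp (2 * u)]
  have h3 : (0 : ℝ) < 1 + 2 * u := by linarith
  rw [Real.exp_neg, inv_eq_one_div, div_le_iff₀ (Real.exp_pos _)]
  have h4 : (1 - u) * (1 + 2 * u) ≤ (1 - u) * Real.exp (2 * u) :=
    mul_le_mul_of_nonneg_left h2 (by linarith)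
  nlinarith [mul_nonneg h0 (by linarith : (0 : ℝ) ≤ 1 - 2 * u)]

lemma choose_lower (m J : ℕ) (hJ : 2 * (2 * J + 1) ≤ m / 2) :
    Real.exp (-(2 * (((2 * J + 1 : ℕ) : ℝ) / ((m / 2 : ℕ) : ℝ)) * J)) * (m.choose (m / 2) : ℝ)
      ≤ (m.choose (m / 2 + J) : ℝ) := by
  set u : ℝ := ((2 * J + 1 : ℕ) : ℝ) / ((m / 2 : ℕ) : ℝ) with hu
  have hpos : (0 : ℝ) < ((m / 2 : ℕ) : ℝ) := by
    have : 0 < m / 2 := by omega
    exact_mod_cast this
  have hu0 : 0 ≤ u := by positivity
  have hu1 : u ≤ 1 / 2 := by
    rw [hu, div_le_iff₀ hpos]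
    have : ((2 * (2 * J + 1) : ℕ) : ℝ) ≤ ((m / 2 : ℕ) : ℝ) := by exact_mod_cast hJ
    push_cast at this ⊢
    linarith
  have hstep : ∀ i, i ≤ J → (1 - u) ^ i * (m.choose (m / 2) : ℝ) ≤ (m.choose (m / 2 + i) : ℝ) := by
    intro i
    induction i with
    | zero => intro _; simp
    | succ i ih =>
      intro hi
      have h1 := ih (by omega)
      have h2 := choose_ratio m J i hJ (by omega)
      have h3 : (0 : ℝ) ≤ 1 - u := by linarith
      calc (1 - u) ^ (i + 1) * (m.choose (m / 2) : ℝ)
          = (1 - u) * ((1 - u) ^ i * (m.choose (m / 2) : ℝ)) := by ring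
        _ ≤ (1 - u) * (m.choose (m / 2 + i) : ℝ) := mul_le_mul_of_nonneg_left h1 h3
        _ ≤ (m.choose (m / 2 + i + 1) : ℝ) := h2
        _ = (m.choose (m / 2 + (i + 1)) : ℝ) := by rw [Nat.add_assoc]
  have h1 := hstep J le_rfl
  have h2 : Real.exp (-(2 * u * J)) ≤ (1 - u) ^ J := by
    have h3 := one_sub_ge_exp hu0 hu1
    calc Real.exp (-(2 * u * J)) = (Real.exp (-(2 * u))) ^ J := by
          rw [← Real.exp_nat_mul]; congr 1; ring
      _ ≤ (1 - u) ^ J := pow_le_pow_left₀ (Real.exp_pos _).le h3 J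
  calc Real.exp (-(2 * u * J)) * (m.choose (m / 2) : ℝ)
      ≤ (1 - u) ^ J * (m.choose (m / 2) : ℝ) :=
        mul_le_mul_of_nonneg_right h2 (Nat.cast_nonneg _)
    _ ≤ _ := h1

lemma two_pow_le_middle (m : ℕ) : (2 : ℝ) ^ m ≤ (m + 1) * (m.choose (m / 2) : ℝ) := by
  have h := Nat.sum_range_choose m
  have h2 : ∑ i ∈ Finset.range (m + 1), m.choose i ≤ (m + 1) * m.choose (m / 2) := by
    calc ∑ i ∈ Finset.range (m + 1), m.choose i
        ≤ ∑ _i ∈ Finset.range (m + 1), m.choose (m / 2) :=
          Finset.sum_le_sum fun i _ => Nat.choose_le_middle i m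
      _ = (m + 1) * m.choose (m / 2) := by simp
  rw [h] at h2
  exact_mod_cast h2

/-- Lower bound for the size in terms of a free parameter `t`. -/
theorem size_lower (D : SPSPSCircuit (ZMod 2) (ImmVar (m + 1) (m + 1)))
    (hD : D.output = imm (ZMod 2) (m + 1) (m + 1) (Nat.succ_pos m)) (t : ℕ)
    (ht : 2 * (2 * (t ^ 2 + 1) + 1) ≤ m / 2) :
    Real.exp ((t : ℝ) * Real.log 2
        - 2 * (((2 * (t ^ 2 + 1) + 1 : ℕ) : ℝ) / ((m / 2 : ℕ) : ℝ)) * ((t ^ 2 + 1 : ℕ) : ℝ)
        - Real.log (m + 1)) ≤ (D.size : ℝ) := by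
  set J := t ^ 2 + 1 with hJ
  have h1 := main_ineq D hD t
  have hidx : t * (t * 1) + m / 2 + 1 = m / 2 + J := by
    rw [hJ]; ring
  rw [hidx] at h1
  have h1' : (m.choose (m / 2 + J) : ℝ) * 2 ^ t ≤ (D.size : ℝ) * 2 ^ m := by
    exact_mod_cast h1
  have h2 := choose_lower m J ht
  have h3 := two_pow_le_middle m
  set E := 2 * (((2 * J + 1 : ℕ) : ℝ) / ((m / 2 : ℕ) : ℝ)) * (J : ℝ) with hE
  have hm1 : (0 : ℝ) < (m : ℝ) + 1 := by positivity
  have h2m : (0 : ℝ) < (2 : ℝ) ^ m := by positivity
  -- exp(-E) * 2^m / (m+1) ≤ choose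
  have h4 : Real.exp (-E) * ((2 : ℝ) ^ m / ((m : ℝ) + 1)) ≤ (m.choose (m / 2 + J) : ℝ) := by
    have : (2 : ℝ) ^ m / ((m : ℝ) + 1) ≤ (m.choose (m / 2) : ℝ) := by
      rw [div_le_iff₀ hm1]; linarith
    calc Real.exp (-E) * ((2 : ℝ) ^ m / ((m : ℝ) + 1))
        ≤ Real.exp (-E) * (m.choose (m / 2) : ℝ) :=
          mul_le_mul_of_nonneg_left this (Real.exp_pos _).le
      _ ≤ _ := h2
  have h5 : Real.exp (-E) * ((2 : ℝ) ^ m / ((m : ℝ) + 1)) * 2 ^ t ≤ (D.size : ℝ) * 2 ^ m :=
    (mul_le_mul_of_nonneg_right h4 (by positivity)).trans h1'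
  have h6 : Real.exp (-E) * (2 ^ t / ((m : ℝ) + 1)) ≤ (D.size : ℝ) := by
    have h7 : Real.exp (-E) * (2 ^ t / ((m : ℝ) + 1)) * 2 ^ m ≤ (D.size : ℝ) * 2 ^ m := by
      calc Real.exp (-E) * (2 ^ t / ((m : ℝ) + 1)) * 2 ^ m
          = Real.exp (-E) * ((2 : ℝ) ^ m / ((m : ℝ) + 1)) * 2 ^ t := by ring
        _ ≤ _ := h5
    exact le_of_mul_le_mul_right h7 h2m
  have h8 : Real.exp ((t : ℝ) * Real.log 2 - E - Real.log ((m : ℝ) + 1))
      = Real.exp (-E) * (2 ^ t / ((m : ℝ) + 1)) := by
    have h2t : (2 : ℝ) ^ t = Real.exp ((t : ℝ) * Real.log 2) := by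
      rw [Real.exp_nat_mul, Real.exp_log (by norm_num)]
    have hlog : ((m : ℝ) + 1) = Real.exp (Real.log ((m : ℝ) + 1)) := (Real.exp_log hm1).symm
    rw [h2t]
    conv_rhs => rw [hlog]
    rw [← Real.exp_sub, ← Real.exp_add]
    congr 1
    ring
  rw [h8]
  exact h6

/-- The final bound: `exp(n^(1/3)/10) ≤ size` for `n = m + 1 ≥ 10^9`. -/
theorem final_bound (hm : 1000000000 ≤ m + 1)
    (D : SPSPSCircuit (ZMod 2) (ImmVar (m + 1) (m + 1)))
    (hD : D.output = imm (ZMod 2) (m + 1) (m + 1) (Nat.succ_pos m)) :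
    Real.exp ((((m + 1 : ℕ) : ℝ) ^ ((1 : ℝ) / 3)) / 10) ≤ (D.size : ℝ) := by
  set n : ℝ := ((m + 1 : ℕ) : ℝ) with hn
  have hn0 : (0 : ℝ) < n := by rw [hn]; positivity
  set x : ℝ := n ^ ((1 : ℝ) / 3) with hx
  have hx0 : 0 ≤ x := Real.rpow_nonneg hn0.le _
  have hx3 : x ^ 3 = n := by
    rw [hx, ← Real.rpow_natCast, ← Real.rpow_mul hn0.le]
    norm_num
  have hn9 : (1000000000 : ℝ) ≤ n := by
    rw [hn]; exact_mod_cast hm
  clear hm
  have hx1000 : 1000 ≤ x := by
    by_contra hc
    push Not at hc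
    have : x ^ 3 < 1000 ^ 3 := pow_lt_pow_left₀ hc hx0 (by norm_num)
    rw [hx3] at this
    norm_num at this
    linarith
  set t : ℕ := ⌊x / 3⌋₊ with ht
  have ht1 : (t : ℝ) ≤ x / 3 := Nat.floor_le (by positivity)
  have ht2 : x / 3 < (t : ℝ) + 1 := Nat.lt_floor_add_one _
  have ht0 : (0 : ℝ) ≤ (t : ℝ) := Nat.cast_nonneg _
  have ht3 : (t : ℝ) ^ 2 ≤ x ^ 2 / 9 := by
    have h := pow_le_pow_left₀ ht0 ht1 2
    have e : (x / 3) ^ 2 = x ^ 2 / 9 := by ring
    rwa [e] at h
  have hmr : (m : ℝ) + 1 = n := by rw [hn]; push_cast; ring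
  have hcond : 2 * (2 * (t ^ 2 + 1) + 1) ≤ m / 2 := by
    rw [Nat.le_div_iff_mul_le (by norm_num)]
    have : ((2 * (2 * (t ^ 2 + 1) + 1) * 2 : ℕ) : ℝ) ≤ (m : ℝ) := by
      push_cast
      have : (m : ℝ) = x ^ 3 - 1 := by rw [hx3, ← hmr]; ring
      rw [this]
      have h2 : 1000 * x ^ 2 ≤ x ^ 3 := by
        have : x ^ 3 = x * x ^ 2 := by ring
        rw [this]
        exact mul_le_mul_of_nonneg_right hx1000 (by positivity)
      have h3 : (1000 : ℝ) ^ 2 ≤ x ^ 2 := pow_le_pow_left₀ (by norm_num) hx1000 2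
      linarith
    exact_mod_cast this
  have hmain := size_lower D hD t hcond
  refine le_trans (Real.exp_le_exp.2 ?_) hmain
  -- bound on the exponent
  have hmod : m = 2 * (m / 2) + m % 2 := (Nat.div_add_mod m 2).symm
  have hlt : m % 2 < 2 := Nat.mod_lt _ (by norm_num)
  have hh : ((m : ℝ) - 1) / 2 ≤ ((m / 2 : ℕ) : ℝ) := by
    have : m ≤ 2 * (m / 2) + 1 := by omega
    have h' : (m : ℝ) ≤ 2 * ((m / 2 : ℕ) : ℝ) + 1 := by exact_mod_cast this
    linarith
  have hm' : (m : ℝ) = x ^ 3 - 1 := by rw [hx3, ← hmr]; ring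
  have hh2 : (x ^ 3 - 2) / 2 ≤ ((m / 2 : ℕ) : ℝ) := by
    rw [hm'] at hh
    linarith
  have hhpos : (0 : ℝ) < ((m / 2 : ℕ) : ℝ) := by
    refine lt_of_lt_of_le ?_ hh2
    rw [hx3]
    linarith
  set J : ℕ := t ^ 2 + 1 with hJ
  have hJr : (J : ℝ) ≤ x ^ 2 / 9 + 1 := by
    rw [hJ]; push_cast; linarith
  have hJ0 : (0 : ℝ) ≤ (J : ℝ) := Nat.cast_nonneg _
  have hE : 2 * (((2 * J + 1 : ℕ) : ℝ) / ((m / 2 : ℕ) : ℝ)) * (J : ℝ) ≤ x / 10 := by
    have h1 : 2 * (((2 * J + 1 : ℕ) : ℝ) / ((m / 2 : ℕ) : ℝ)) * (J : ℝ)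
        = (2 * ((2 * J + 1 : ℕ) : ℝ) * (J : ℝ)) / ((m / 2 : ℕ) : ℝ) := by ring
    rw [h1, div_le_iff₀ hhpos]
    push_cast
    have hB : (2 * (J : ℝ) + 1) * (J : ℝ) ≤ (2 * (x ^ 2 / 9 + 1) + 1) * (x ^ 2 / 9 + 1) := by
      apply mul_le_mul <;> first | linarith | positivity
    have hrhs : x / 10 * ((x ^ 3 - 2) / 2) ≤ x / 10 * ((m / 2 : ℕ) : ℝ) :=
      mul_le_mul_of_nonneg_left hh2 (by positivity)
    have hx2 : (1000 : ℝ) ^ 2 ≤ x ^ 2 := pow_le_pow_left₀ (by norm_num) hx1000 2
    have hpoly : 2 * ((2 * (x ^ 2 / 9 + 1) + 1) * (x ^ 2 / 9 + 1)) ≤ x / 10 * ((x ^ 3 - 2) / 2) := by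
      have e : x / 10 * ((x ^ 3 - 2) / 2) - 2 * ((2 * (x ^ 2 / 9 + 1) + 1) * (x ^ 2 / 9 + 1))
          = (x ^ 2) * (x ^ 2) / 1620 - 10 * x ^ 2 / 9 - 6 - x / 10 := by ring
      have : 0 ≤ (x ^ 2) * (x ^ 2) / 1620 - 10 * x ^ 2 / 9 - 6 - x / 10 := by
        have h4 : (1000 : ℝ) ^ 2 * x ^ 2 ≤ (x ^ 2) * (x ^ 2) :=
          mul_le_mul_of_nonneg_right hx2 (by positivity)
        have h5 : x ≤ x ^ 2 := by
          have : x * 1 ≤ x * x := mul_le_mul_of_nonneg_left (by linarith) hx0
          have e : x ^ 2 = x * x := by ring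
          rw [e]; linarith
        linarith
      linarith
    linarith
  have hlog2 : (0.6931 : ℝ) ≤ Real.log 2 := by
    have := Real.log_two_gt_d9
    linarith
  have hlog2' : Real.log 2 ≤ 0.6932 := by
    have := Real.log_two_lt_d9
    linarith
  have hlogn : Real.log ((m : ℝ) + 1) = 3 * Real.log x := by
    rw [hmr, ← hx3, Real.log_pow]; norm_num
  have hxpos : 0 < x := by linarith
  have hlogx : Real.log x ≤ 6.932 - 1 + x / 1000 := by
    have h1 := Real.log_le_sub_one_of_pos (show 0 < x / 1000 by positivity)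
    rw [Real.log_div hxpos.ne' (by norm_num)] at h1
    have h2 : Real.log 1000 ≤ 10 * Real.log 2 := by
      have : Real.log ((2 : ℝ) ^ 10) = 10 * Real.log 2 := by
        rw [Real.log_pow]; norm_num
      rw [← this]
      exact Real.log_le_log (by norm_num) (by norm_num)
    linarith
  have htlog : (x / 3 - 1) * 0.6931 ≤ (t : ℝ) * Real.log 2 := by
    apply mul_le_mul <;> first | linarith | positivity
  rw [hlogn]
  have hJcast : ((2 * (t ^ 2 + 1) + 1 : ℕ) : ℝ) = ((2 * J + 1 : ℕ) : ℝ) := by rw [hJ]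
  have hJcast' : ((t ^ 2 + 1 : ℕ) : ℝ) = (J : ℝ) := by rw [hJ]
  rw [hJcast, hJcast']
  linarith

end Final

end Vale.Agent.Lib.P346
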