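import Vale.Agent.Lib.P346.Paths

/-!
The segment variables, the substitution and the triangular structure of the target functions.
-/

noncomputable section

open MvPolynomial Finset

set_option linter.unusedSectionVars false
set_option linter.unusedSimpArgs false
set_option linter.unusedVariables false

namespace Vale.Agent.Lib.P346

/-- Edge variables: segment, component, layer, vertex, rank. -/
def Var (Ks t Lg w : ℕ) : Type := Fin Ks × Fin t × Fin Lg × Fin w × Fin w

section aff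

lemma IsAff.coord {K ι : Type} [Field K] [Fintype ι] [DecidableEq ι] (e : ι) :
    IsAff (fun x : ι → K => x e) := by
  refine ⟨fun i => if i = e then 1 else 0, 0, fun x => ?_⟩
  rw [add_zero, Finset.sum_eq_single e]
  · simp
  · intro b _ hb
    simp [hb]
  · simp

end aff

section order

variable {Ks t Lg w : ℕ}

instance : Fintype (Var Ks t Lg w) :=
  inferInstanceAs (Fintype (Fin Ks × Fin t × Fin Lg × Fin w × Fin w))

instance : DecidableEq (Var Ks t Lg w) :=
  inferInstanceAs (DecidableEq (Fin Ks × Fin t × Fin Lg × Fin w × Fin w))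

/-- Lexicographic key of an edge variable. -/
def Var.key (e : Var Ks t Lg w) : Fin Ks ×ₗ Fin t ×ₗ Fin Lg ×ₗ Fin w ×ₗ Fin w :=
  toLex (e.1, toLex (e.2.1, toLex (e.2.2.1, toLex (e.2.2.2.1, e.2.2.2.2))))

lemma Var.key_inj : Function.Injective (Var.key (Ks := Ks) (t := t) (Lg := Lg) (w := w)) := by
  rintro ⟨j, c, l, a, r⟩ ⟨j', c', l', a', r'⟩ h
  have h1 : j = j' ∧ c = c' ∧ l = l' ∧ a = a' ∧ r = r' := by
    simpa [Var.key] using h
  obtain ⟨rfl, rfl, rfl, rfl, rfl⟩ := h1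
  rfl

/-- Constructor of edge variables. -/
def Var.mk (j : Fin Ks) (c : Fin t) (l : Fin Lg) (a r : Fin w) : Var Ks t Lg w := (j, c, l, a, r)

instance : LinearOrder (Var Ks t Lg w) := LinearOrder.lift' Var.key Var.key_inj

lemma Var.lt_mk {j j' : Fin Ks} {c c' : Fin t} {l l' : Fin Lg} {a a' r r' : Fin w}
    (h : Var.mk j c l a r < Var.mk j' c' l' a' r') :
    j < j' ∨ (j = j' ∧ (c < c' ∨ (c = c' ∧ (l < l' ∨ (l = l' ∧ (a < a' ∨ (a = a' ∧ r < r'))))))) := by
  have h1 : Var.key (Var.mk j c l a r) < Var.key (Var.mk j' c' l' a' r') := h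
  simpa [Var.key, Var.mk, Prod.Lex.toLex_lt_toLex] using h1

end order

section seg

variable {K : Type} [Field K] {Ks t Lg w n : ℕ} [NeZero w]

/-- Offsets extended to all natural numbers. -/
def OO (O : Fin Lg → Fin w → Fin w) : ℕ → Fin w → Fin w :=
  fun l => if h : l < Lg then O ⟨l, h⟩ else id

/-- The matrix of layer `l` of segment `j`: on each component a generic matrix with entries
indexed by rank. -/
def segMat (O : Fin Lg → Fin w → Fin w) (emb : Fin t → Fin w → Fin n)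
    (x : Var Ks t Lg w → K) (j l : ℕ) : Matrix (Fin n) (Fin n) K :=
  fun b b' => if h : j < Ks ∧ l < Lg then
    ∑ c, ∑ a, ∑ a', if emb c a = b ∧ emb c a' = b' then
      x (Var.mk ⟨j, h.1⟩ c ⟨l, h.2⟩ a (a' - O ⟨l, h.2⟩ a)) else 0
  else 0

lemma segMat_entry (O : Fin Lg → Fin w → Fin w) (emb : Fin t → Fin w → Fin n)
    (hemb : ∀ c a c' a', emb c a = emb c' a' → c = c' ∧ a = a') (x : Var Ks t Lg w → K)
    {j l : ℕ} (hj : j < Ks) (hl : l < Lg) (c : Fin t) (a a' : Fin w) :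
    segMat O emb x j l (emb c a) (emb c a') = x (Var.mk ⟨j, hj⟩ c ⟨l, hl⟩ a (a' - O ⟨l, hl⟩ a)) := by
  rw [segMat, dif_pos ⟨hj, hl⟩, Finset.sum_eq_single c, Finset.sum_eq_single a,
    Finset.sum_eq_single a', if_pos ⟨rfl, rfl⟩]
  · intro b _ hb
    rw [if_neg]
    rintro ⟨_, h2⟩
    exact hb (hemb _ _ _ _ h2).2
  · simp
  · intro b _ hb
    refine Finset.sum_eq_zero fun d _ => ?_
    rw [if_neg]
    rintro ⟨h1, _⟩
    exact hb (hemb _ _ _ _ h1).2
  · simp
  · intro d _ hd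
    refine Finset.sum_eq_zero fun b _ => Finset.sum_eq_zero fun b' _ => ?_
    rw [if_neg]
    rintro ⟨h1, _⟩
    exact hd (hemb _ _ _ _ h1).1
  · simp

lemma segMat_zero (O : Fin Lg → Fin w → Fin w) (emb : Fin t → Fin w → Fin n)
    (hemb : ∀ c a c' a', emb c a = emb c' a' → c = c' ∧ a = a') (x : Var Ks t Lg w → K)
    (j l : ℕ) (c : Fin t) (a : Fin w) (b : Fin n) (hb : ∀ a', b ≠ emb c a') :
    segMat O emb x j l (emb c a) b = 0 := by
  rw [segMat]
  split_ifs with h
  · refine Finset.sum_eq_zero fun d _ => Finset.sum_eq_zero fun e _ => Finset.sum_eq_zero fun f _ => ?_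
    rw [if_neg]
    rintro ⟨h1, h2⟩
    have h3 := (hemb _ _ _ _ h1).1
    subst h3
    exact hb f h2.symm
  · rfl

lemma isAff_segMat (O : Fin Lg → Fin w → Fin w) (emb : Fin t → Fin w → Fin n) (j l : ℕ)
    (b b' : Fin n) : IsAff (fun x : Var Ks t Lg w → K => segMat O emb x j l b b') := by
  classical
  unfold segMat
  by_cases h : j < Ks ∧ l < Lg
  · simp only [dif_pos h]
    refine IsAff.sum _ fun c _ => IsAff.sum _ fun a _ => IsAff.sum _ fun a' _ => ?_
    by_cases h2 : emb c a = b ∧ emb c a' = b'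
    · simp only [if_pos h2]
      exact IsAff.coord _
    · simp only [if_neg h2]
      exact IsAff.const 0
  · simp only [dif_neg h]
    exact IsAff.const 0

lemma isAff_sigmaSub (O : Fin Lg → Fin w → Fin w) (emb : Fin t → Fin w → Fin n)
    (v : ImmVar n n) :
    IsAff (fun x : Var Ks t Lg w → K => sigmaSub Ks Lg (segMat O emb) v x) := by
  unfold sigmaSub
  by_cases h1 : v.1.val < Ks * (Lg + 1) + 1
  · simp only [if_pos h1]
    by_cases h2 : v.1.val % (Lg + 1) = 0
    · simp only [if_pos h2]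
      exact IsAff.const 0
    · simp only [if_neg h2]
      exact isAff_segMat O emb _ _ _ _
  · simp only [if_neg h1]
    exact IsAff.const _

/-- The variables of segment `j`, component `c`, as a function of layer, vertex, rank. -/
def xRow (x : Var Ks t Lg w → K) (j : ℕ) (c : Fin t) : ℕ → Fin w → Fin w → K :=
  fun l a r => if h : j < Ks ∧ l < Lg then x (Var.mk ⟨j, h.1⟩ c ⟨l, h.2⟩ a r) else 0

lemma prd_segMat (O : Fin Lg → Fin w → Fin w) (emb : Fin t → Fin w → Fin n)
    (hemb : ∀ c a c' a', emb c a = emb c' a' → c = c' ∧ a = a') (x : Var Ks t Lg w → K)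
    (j : Fin Ks) (c : Fin t) (a a' : Fin w) :
    (prd (segMat O emb x j) 0 Lg) (emb c a) (emb c a') =
      ∑ ρ : Fin Lg → Fin w, if vtx (OO O) a ρ Lg = a' then
        ∏ l : Fin Lg, x (Var.mk j c l (vtx (OO O) a ρ l) (ρ l)) else 0 := by
  have h1 := (block_prd (emb c) (fun p p' h => (hemb _ _ _ _ h).2) (segMat O emb x j)
    (layerMat (OO O) (xRow x j c)) (fun l p p' => by
      by_cases hl : l < Lg
      · rw [segMat_entry O emb hemb x j.2 hl c p p']
        simp [layerMat, xRow, OO, hl, j.2]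
      · simp [segMat, layerMat, xRow, hl]) (fun l p b hb => segMat_zero O emb hemb x j l c p b hb)
    Lg a).1 a'
  rw [h1, path_expansion]
  refine Finset.sum_congr rfl fun ρ _ => ?_
  congr 1
  refine Finset.prod_congr rfl fun l _ => ?_
  simp [xRow, j.2, l.2]

/-- Start vertices of the cut edges. -/
def uOf (emb : Fin t → Fin w → Fin n) (hn : 0 < n) (c : Fin Ks → Fin t) (e₁ : Fin Ks → Fin w) :
    ℕ → Fin n
  | 0 => ⟨0, hn⟩
  | j + 1 => if h : j < Ks then emb (c ⟨j, h⟩) (e₁ ⟨j, h⟩) else ⟨0, hn⟩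

/-- End vertices of the cut edges. -/
def vOf (emb : Fin t → Fin w → Fin n) (hn : 0 < n) (c : Fin Ks → Fin t) (v₀ : Fin Ks → Fin w) :
    ℕ → Fin n :=
  fun j => if h : j < Ks then emb (c ⟨j, h⟩) (v₀ ⟨j, h⟩) else ⟨0, hn⟩

/-- The edge variable used by a path system at segment `j`, layer `l`. -/
def edge (O : Fin Lg → Fin w → Fin w) (c : Fin Ks → Fin t) (v₀ : Fin Ks → Fin w)
    (π' : Fin Ks → Fin Lg → Fin w) (jl : Fin Ks × Fin Lg) : Var Ks t Lg w :=
  Var.mk jl.1 (c jl.1) jl.2 (vtx (OO O) (v₀ jl.1) (π' jl.1) jl.2) (π' jl.1 jl.2)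

lemma edge_inj (O : Fin Lg → Fin w → Fin w) (c : Fin Ks → Fin t) (v₀ : Fin Ks → Fin w)
    (π' : Fin Ks → Fin Lg → Fin w) : Function.Injective (edge O c v₀ π') := by
  rintro ⟨j, l⟩ ⟨j', l'⟩ h
  have h1 := congrArg Prod.fst h
  have h2 := congrArg (fun e : Var Ks t Lg w => e.2.2.1) h
  simp only [edge, Var.mk] at h1 h2
  rw [h1, h2]

/-- The set of edge variables of a path system. -/
def pathSet (O : Fin Lg → Fin w → Fin w) (c : Fin Ks → Fin t) (v₀ : Fin Ks → Fin w)
    (π' : Fin Ks → Fin Lg → Fin w) : Finset (Var Ks t Lg w) :=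
  univ.image (edge O c v₀ π')

/-- Indicator exponent of a path system. -/
def oneOf (O : Fin Lg → Fin w → Fin w) (c : Fin Ks → Fin t) (v₀ : Fin Ks → Fin w)
    (π' : Fin Ks → Fin Lg → Fin w) (e : Var Ks t Lg w) : ℕ :=
  if e ∈ pathSet O c v₀ π' then 1 else 0

lemma sum_oneOf (O : Fin Lg → Fin w → Fin w) (c : Fin Ks → Fin t) (v₀ : Fin Ks → Fin w)
    (π' : Fin Ks → Fin Lg → Fin w) : ∑ e, oneOf O c v₀ π' e = Ks * Lg := by
  simp only [oneOf]
  rw [Finset.sum_boole]
  have h1 : (univ.filter fun e => e ∈ pathSet O c v₀ π') = pathSet O c v₀ π' := by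
    ext e
    simp
  rw [h1, pathSet, Finset.card_image_of_injective _ (edge_inj O c v₀ π')]
  simp

lemma prod_edges (O : Fin Lg → Fin w → Fin w) (c : Fin Ks → Fin t) (v₀ : Fin Ks → Fin w)
    (π' : Fin Ks → Fin Lg → Fin w) (x : Var Ks t Lg w → K) :
    ∏ j, ∏ l, x (edge O c v₀ π' (j, l)) = ∏ e, x e ^ oneOf O c v₀ π' e := by
  rw [← Fintype.prod_prod_type']
  have h1 : ∏ e, x e ^ oneOf O c v₀ π' e = ∏ e ∈ pathSet O c v₀ π', x e := by
    rw [← Finset.prod_subset (Finset.subset_univ (pathSet O c v₀ π'))]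
    · refine Finset.prod_congr rfl fun e he => ?_
      simp [oneOf, he]
    · intro e _ he
      simp [oneOf, he]
  rw [h1, pathSet, Finset.prod_image fun a _ b _ h => edge_inj O c v₀ π' h]

/-- Under the substitution with the given cut edges, `IMM` becomes a sum over path systems. -/
lemma cf_imm_paths (O : Fin Lg → Fin w → Fin w) (emb : Fin t → Fin w → Fin n)
    (hemb : ∀ c a c' a', emb c a = emb c' a' → c = c' ∧ a = a') (hn : 0 < n)
    (hsize : Ks * (Lg + 1) + 1 ≤ n) (c : Fin Ks → Fin t) (v₀ e₁ : Fin Ks → Fin w)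
    (x : Var Ks t Lg w → K) :
    cf univ (rho (sigmaSub Ks Lg (segMat O emb)) (cutSub Ks Lg (uOf emb hn c e₁) (vOf emb hn c v₀)) x
        (imm K n n hn)) =
      ∑ π' ∈ univ.filter (fun π' : Fin Ks → Fin Lg → Fin w =>
          ∀ j, vtx (OO O) (v₀ j) (π' j) Lg = e₁ j),
        ∏ e, x e ^ oneOf O c v₀ π' e := by
  classical
  rw [cf_rho_imm (segMat O emb) _ _ x hsize hn rfl (by simp [vOf]), Finset.prod_range]
  have h1 : ∀ j : Fin Ks, segVal (segMat O emb) Lg (uOf emb hn c e₁) (vOf emb hn c v₀) x j =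
      ∑ ρ : Fin Lg → Fin w, if vtx (OO O) (v₀ j) ρ Lg = e₁ j then
        ∏ l : Fin Lg, x (Var.mk j (c j) l (vtx (OO O) (v₀ j) ρ l) (ρ l)) else 0 := by
    intro j
    simp only [segVal, uOf, vOf, j.2, dif_pos, Fin.eta]
    exact prd_segMat O emb hemb x j (c j) (v₀ j) (e₁ j)
  simp only [h1]
  rw [Finset.prod_univ_sum, Fintype.piFinset_univ, Finset.sum_filter]
  refine Finset.sum_congr rfl fun π' _ => ?_
  rw [Finset.prod_ite_zero]
  by_cases h2 : ∀ j, vtx (OO O) (v₀ j) (π' j) Lg = e₁ j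
  · rw [if_pos fun j _ => h2 j, if_pos h2, ← prod_edges]
    rfl
  · have h3 : ¬ ∀ j ∈ (univ : Finset (Fin Ks)), vtx (OO O) (v₀ j) (π' j) Lg = e₁ j :=
      fun h => h2 fun j => h j (mem_univ j)
    rw [if_neg h3, if_neg h2]

end seg

end Vale.Agent.Lib.P346
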