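import Vale.Agent.Lib.P346.Target

/-!
Linear independence of the target functions by a triangular argument.
-/

noncomputable section

open MvPolynomial Finset

set_option linter.unusedSectionVars false
set_option linter.unusedSimpArgs false
set_option linter.unusedVariables false

namespace Vale.Agent.Lib.P346

section monoInd

variable {K : Type} [Field K] [Fintype K] {ι : Type} [Fintype ι]

/-- Exponent vector as a finitely supported function. -/
def toFs (E : ι → Fin (Fintype.card K)) : ι →₀ ℕ :=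
  Finsupp.equivFunOnFinite.symm fun i => (E i : ℕ)

lemma toFs_inj : Function.Injective (toFs (K := K) (ι := ι)) := by
  intro E E' h
  funext i
  have := DFunLike.congr_fun h i
  exact Fin.ext (by simpa [toFs] using this)

lemma mono_linearIndependent :
    LinearIndependent K (mono : (ι → Fin (Fintype.card K)) → (ι → K) → K) := by
  classical
  rw [Fintype.linearIndependent_iff]
  intro g hg E₀
  let P : MvPolynomial ι K := ∑ E, monomial (toFs E) (g E)
  have h1 : ∀ x, eval x P = 0 := by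
    intro x
    have h2 := congrFun hg x
    simp only [Finset.sum_apply, Pi.smul_apply, smul_eq_mul, Pi.zero_apply] at h2
    rw [← h2]
    simp only [P, map_sum, eval_monomial]
    refine Finset.sum_congr rfl fun E _ => ?_
    congr 1
    rw [Finsupp.prod_fintype _ _ (fun i => pow_zero _)]
    rfl
  have h3 : P ∈ restrictDegree ι K (Fintype.card K - 1) := by
    refine Submodule.sum_mem _ fun E _ => ?_
    rw [mem_restrictDegree]
    intro s hs i
    have h4 := support_monomial_subset hs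
    rw [Finset.mem_singleton] at h4
    rw [h4]
    have := (E i).2
    simp only [toFs, Finsupp.equivFunOnFinite_symm_apply_apply]
    omega
  have h5 := eq_zero_of_eval_eq_zero ι K P h1 h3
  have h6 : coeff (toFs E₀) P = g E₀ := by
    simp only [P, coeff_sum, coeff_monomial]
    rw [Finset.sum_eq_single E₀]
    · simp
    · intro E _ hE
      rw [if_neg fun h => hE (toFs_inj h)]
    · simp
  rw [← h6, h5]
  simp

/-- Independence from a triangular expansion in the monomial functions. -/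
theorem triangular_indep [LinearOrder ι] {Tp : Type} (S : Finset (ι → Fin (Fintype.card K))) (e : ℕ)
    (he : ∀ B ∈ S, dg K ι B = e) (T : (ι → Fin (Fintype.card K)) → Finset Tp)
    (r : (ι → Fin (Fintype.card K)) → Tp → (ι → Fin (Fintype.card K)))
    (t₀ : (ι → Fin (Fintype.card K)) → Tp)
    (h₀ : ∀ B ∈ S, t₀ B ∈ T B ∧ r B (t₀ B) = B)
    (hlt : ∀ B ∈ S, ∀ t ∈ T B, t ≠ t₀ B → dg K ι (r B t) < dg K ι B ∨ toLex (r B t) < toLex B) :
    LinearIndependent K (fun B : S => (fun x => ∑ t ∈ T B.1, mono (r B.1 t) x : (ι → K) → K)) := by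
  classical
  rw [Fintype.linearIndependent_iff]
  intro g hg B₀
  by_contra hne
  obtain ⟨B₁, hB₁, hmax⟩ := Finset.exists_max_image (univ.filter fun B : S => g B ≠ 0)
    (fun B => toLex B.1) ⟨B₀, by simp [hne]⟩
  have hB₁' : g B₁ ≠ 0 := (Finset.mem_filter.1 hB₁).2
  have h1 : ∀ B : S, (fun x => ∑ t ∈ T B.1, mono (r B.1 t) x : (ι → K) → K) =
      ∑ E, (((T B.1).filter fun t => r B.1 t = E).card : K) • mono E := by
    intro B
    funext x
    simp only [Finset.sum_apply, Pi.smul_apply, smul_eq_mul]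
    rw [← Finset.sum_fiberwise (T B.1) (fun t => r B.1 t)]
    refine Finset.sum_congr rfl fun E _ => ?_
    have h2 : ∀ t ∈ (T B.1).filter (fun t => r B.1 t = E), mono (r B.1 t) x = mono E x := by
      intro t ht
      rw [(Finset.mem_filter.1 ht).2]
    rw [Finset.sum_congr rfl h2, Finset.sum_const, nsmul_eq_mul]
  have h3 : ∑ E, (∑ B : S, g B * (((T B.1).filter fun t => r B.1 t = E).card : K)) • mono E = 0 := by
    rw [← hg]
    simp only [h1, Finset.smul_sum, Finset.sum_smul, mul_smul]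
    rw [Finset.sum_comm]
  have h4 := (Fintype.linearIndependent_iff.1 (mono_linearIndependent (K := K) (ι := ι))) _ h3 B₁.1
  have h5 : ∀ B : S, B ≠ B₁ → g B * (((T B.1).filter fun t => r B.1 t = B₁.1).card : K) = 0 := by
    intro B hB
    by_cases hg0 : g B = 0
    · rw [hg0, zero_mul]
    · have h6 : (T B.1).filter (fun t => r B.1 t = B₁.1) = ∅ := by
        rw [Finset.filter_eq_empty_iff]
        intro t ht hrt
        have h7 := hmax B (by simp [hg0])
        by_cases htt : t = t₀ B.1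
        · apply hB
          apply Subtype.ext
          rw [← hrt, htt, (h₀ B.1 B.2).2]
        · rcases hlt B.1 B.2 t ht htt with h8 | h8
          · rw [hrt, he _ B₁.2, he _ B.2] at h8
            exact lt_irrefl _ h8
          · rw [hrt] at h8
            exact absurd h8 (not_lt.2 h7)
      rw [h6]
      simp
  rw [Finset.sum_eq_single B₁ (fun B _ hB => h5 B hB) (by simp)] at h4
  have h9 : (T B₁.1).filter (fun t => r B₁.1 t = B₁.1) = {t₀ B₁.1} := by
    ext t
    simp only [Finset.mem_filter, Finset.mem_singleton]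
    constructor
    · rintro ⟨ht, hrt⟩
      by_contra htt
      rcases hlt B₁.1 B₁.2 t ht htt with h8 | h8
      · rw [hrt] at h8
        exact lt_irrefl _ h8
      · rw [hrt] at h8
        exact lt_irrefl _ h8
    · rintro rfl
      exact h₀ B₁.1 B₁.2
  rw [h9] at h4
  simp only [Finset.card_singleton, Nat.cast_one, mul_one] at h4
  exact hB₁' h4

end monoInd

section firstDiff

variable {Ks t Lg w : ℕ} [NeZero w]

/-- Rank `r` is allowed for the row `b`: all smaller ranks are saturated, and `b r` is nonzero. -/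
def Allowed (q : ℕ) (b : Fin w → Fin q) (r : Fin w) : Prop :=
  (∀ r', r' < r → (b r' : ℕ) + 1 = q) ∧ (b r : ℕ) ≠ 0

lemma Var.mk_inj {j j' : Fin Ks} {c c' : Fin t} {l l' : Fin Lg} {a a' r r' : Fin w}
    (h : Var.mk j c l a r = Var.mk j' c' l' a' r') :
    j = j' ∧ c = c' ∧ l = l' ∧ a = a' ∧ r = r' := by
  have h1 : ((j, c, l, a, r) : Fin Ks × Fin t × Fin Lg × Fin w × Fin w) = (j', c', l', a', r') := h
  simpa using h1

lemma mem_pathSet {O : Fin Lg → Fin w → Fin w} {c : Fin Ks → Fin t} {v₀ : Fin Ks → Fin w}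
    {π' : Fin Ks → Fin Lg → Fin w} {e : Var Ks t Lg w} :
    e ∈ pathSet O c v₀ π' ↔ ∃ j l, edge O c v₀ π' (j, l) = e := by
  simp [pathSet]

/-- First difference between two path systems from the same start vertices. -/
lemma first_diff {q : ℕ} (O : Fin Lg → Fin w → Fin w) (c : Fin Ks → Fin t) (v₀ : Fin Ks → Fin w)
    (π π' : Fin Ks → Fin Lg → Fin w) (B : Var Ks t Lg w → Fin q)
    (hvalid : ∀ j l, Allowed q (fun r => B (Var.mk j (c j) l (vtx (OO O) (v₀ j) (π j) l) r)) (π j l))
    (A : Var Ks t Lg w → ℕ) (hA : ∀ e, (B e : ℕ) = A e + oneOf O c v₀ π e) (hne : π' ≠ π)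
    (hlt : ∀ e, A e + oneOf O c v₀ π' e < q) :
    ∃ e₀, (∀ e, e < e₀ → A e + oneOf O c v₀ π' e = (B e : ℕ)) ∧
      A e₀ + oneOf O c v₀ π' e₀ < (B e₀ : ℕ) := by
  classical
  -- first segment where the systems differ
  have hS : (univ.filter fun j => π' j ≠ π j).Nonempty := by
    obtain ⟨j, hj⟩ := Function.ne_iff.1 hne
    exact ⟨j, by simp [hj]⟩
  obtain ⟨j₀, hj₀, hjmin⟩ := Finset.exists_min_image _ (fun j => j) hS
  have hj₀' : π' j₀ ≠ π j₀ := (Finset.mem_filter.1 hj₀).2
  have hjlt : ∀ j, j < j₀ → π' j = π j := by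
    intro j hj
    by_contra hcon
    exact absurd (hjmin j (by simp [hcon])) (not_le.2 hj)
  -- first layer where they differ
  have hS2 : (univ.filter fun l => π' j₀ l ≠ π j₀ l).Nonempty := by
    obtain ⟨l, hl⟩ := Function.ne_iff.1 hj₀'
    exact ⟨l, by simp [hl]⟩
  obtain ⟨l₀, hl₀, hlmin⟩ := Finset.exists_min_image _ (fun l => l) hS2
  have hl₀' : π' j₀ l₀ ≠ π j₀ l₀ := (Finset.mem_filter.1 hl₀).2
  have hllt : ∀ l, l < l₀ → π' j₀ l = π j₀ l := by
    intro l hl
    by_contra hcon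
    exact absurd (hlmin l (by simp [hcon])) (not_le.2 hl)
  have hvtx : ∀ m, m ≤ l₀.val →
      vtx (OO O) (v₀ j₀) (π' j₀) m = vtx (OO O) (v₀ j₀) (π j₀) m := by
    intro m hm
    exact vtx_congr _ _ _ _ l₀.val (fun l hl => hllt l hl) m hm
  set a := vtx (OO O) (v₀ j₀) (π j₀) l₀.val with ha
  have hedge : edge O c v₀ π (j₀, l₀) = Var.mk j₀ (c j₀) l₀ a (π j₀ l₀) := rfl
  have hedge' : edge O c v₀ π' (j₀, l₀) = Var.mk j₀ (c j₀) l₀ a (π' j₀ l₀) := by
    simp only [edge]
    rw [hvtx l₀.val le_rfl]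
  -- edges at earlier positions agree
  have hearly : ∀ j l, (j < j₀ ∨ (j = j₀ ∧ l < l₀)) →
      edge O c v₀ π (j, l) = edge O c v₀ π' (j, l) := by
    intro j l h
    rcases h with h | ⟨rfl, h⟩
    · simp only [edge]
      rw [hjlt j h]
    · simp only [edge]
      rw [hllt l h, hvtx l.val (le_of_lt h)]
  have hone : ∀ (π'' : Fin Ks → Fin Lg → Fin w) (r : Fin w),
      edge O c v₀ π'' (j₀, l₀) = Var.mk j₀ (c j₀) l₀ a (π'' j₀ l₀) → r ≠ π'' j₀ l₀ →
      oneOf O c v₀ π'' (Var.mk j₀ (c j₀) l₀ a r) = 0 := by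
    intro π'' r h1 h2
    simp only [oneOf]
    rw [if_neg]
    intro h3
    obtain ⟨j, l, h4⟩ := mem_pathSet.1 h3
    obtain ⟨rfl, _, rfl, _, h5⟩ := Var.mk_inj h4
    exact h2 h5.symm
  have hone' : ∀ (π'' : Fin Ks → Fin Lg → Fin w),
      edge O c v₀ π'' (j₀, l₀) = Var.mk j₀ (c j₀) l₀ a (π'' j₀ l₀) →
      oneOf O c v₀ π'' (Var.mk j₀ (c j₀) l₀ a (π'' j₀ l₀)) = 1 := by
    intro π'' h1
    simp only [oneOf]
    rw [if_pos]
    exact mem_pathSet.2 ⟨j₀, l₀, h1⟩
  rcases lt_or_gt_of_ne hl₀' with hcase | hcase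
  · -- the new path uses a saturated edge: impossible
    exfalso
    have h1 := (hvalid j₀ l₀).1 (π' j₀ l₀) hcase
    have h2 := hA (Var.mk j₀ (c j₀) l₀ a (π' j₀ l₀))
    rw [hone π (π' j₀ l₀) hedge hl₀', add_zero] at h2
    have h3 := hlt (Var.mk j₀ (c j₀) l₀ a (π' j₀ l₀))
    rw [hone' π' hedge'] at h3
    simp only at h1
    rw [← ha] at h1
    omega
  · refine ⟨Var.mk j₀ (c j₀) l₀ a (π j₀ l₀), fun e he => ?_, ?_⟩
    · have hoo : oneOf O c v₀ π' e = oneOf O c v₀ π e := by
        have hiff : e ∈ pathSet O c v₀ π' ↔ e ∈ pathSet O c v₀ π := by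
          constructor
          · intro h1
            obtain ⟨j, l, rfl⟩ := mem_pathSet.1 h1
            have h2 := Var.lt_mk (show Var.mk j (c j) l _ _ < Var.mk j₀ (c j₀) l₀ a (π j₀ l₀) from he)
            refine mem_pathSet.2 ⟨j, l, (hearly j l ?_)⟩
            rcases h2 with h2 | ⟨rfl, h2 | ⟨_, h2 | ⟨rfl, h2 | ⟨h3, h4⟩⟩⟩⟩
            · exact Or.inl h2
            · exact absurd h2 (lt_irrefl _)
            · exact Or.inr ⟨rfl, h2⟩
            · exfalso
              rw [hvtx _ le_rfl] at h2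
              exact lt_irrefl _ h2
            · exact absurd (lt_trans h4 hcase) (lt_irrefl _)
          · intro h1
            obtain ⟨j, l, rfl⟩ := mem_pathSet.1 h1
            have h2 := Var.lt_mk (show Var.mk j (c j) l _ _ < Var.mk j₀ (c j₀) l₀ a (π j₀ l₀) from he)
            refine mem_pathSet.2 ⟨j, l, (hearly j l ?_).symm⟩
            rcases h2 with h2 | ⟨rfl, h2 | ⟨_, h2 | ⟨rfl, h2 | ⟨h3, h4⟩⟩⟩⟩
            · exact Or.inl h2
            · exact absurd h2 (lt_irrefl _)
            · exact Or.inr ⟨rfl, h2⟩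
            · exact absurd h2 (lt_irrefl _)
            · exact absurd h4 (lt_irrefl _)
        simp only [oneOf, hiff]
      rw [hoo, hA e]
    · rw [hone π' (π j₀ l₀) hedge' (Ne.symm hl₀'), add_zero, hA _, hone' π hedge]
      omega

end firstDiff

section family

variable {K : Type} [Field K] [Fintype K] {Ks t Lg w n : ℕ} [NeZero w]

/-- Reduced exponent vector: exponent `q` becomes `1`. -/
def rr (E : Var Ks t Lg w → ℕ) (e : Var Ks t Lg w) : Fin (Fintype.card K) :=
  if h : E e < Fintype.card K then ⟨E e, h⟩ else ⟨1, Fintype.one_lt_card⟩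

lemma rr_val_of_lt {E : Var Ks t Lg w → ℕ} {e : Var Ks t Lg w} (h : E e < Fintype.card K) :
    (rr (K := K) E e : ℕ) = E e := by
  simp [rr, h]

lemma mono_rr (E : Var Ks t Lg w → ℕ) (hE : ∀ e, E e ≤ Fintype.card K) (x : Var Ks t Lg w → K) :
    mono (rr (K := K) E) x = ∏ e, x e ^ E e := by
  refine Finset.prod_congr rfl fun e _ => ?_
  by_cases h : E e < Fintype.card K
  · rw [rr_val_of_lt h]
  · have h1 : E e = Fintype.card K := le_antisymm (hE e) (not_lt.1 h)
    rw [h1, FiniteField.pow_card]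
    simp [rr, h]

lemma dg_rr_le (E : Var Ks t Lg w → ℕ) (hE : ∀ e, E e ≤ Fintype.card K) :
    dg K _ (rr (K := K) E) ≤ ∑ e, E e := by
  refine Finset.sum_le_sum fun e _ => ?_
  by_cases h : E e < Fintype.card K
  · rw [rr_val_of_lt h]
  · have h1 : 1 < Fintype.card K := Fintype.one_lt_card
    simp only [rr, h, dite_false]
    omega

lemma dg_rr_lt (E : Var Ks t Lg w → ℕ) (hE : ∀ e, E e ≤ Fintype.card K) (e₀ : Var Ks t Lg w)
    (he₀ : ¬ E e₀ < Fintype.card K) : dg K _ (rr (K := K) E) < ∑ e, E e := by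
  refine Finset.sum_lt_sum (fun e _ => ?_) ⟨e₀, mem_univ _, ?_⟩
  · by_cases h : E e < Fintype.card K
    · rw [rr_val_of_lt h]
    · have h1 : 1 < Fintype.card K := Fintype.one_lt_card
      simp only [rr, h, dite_false]
      omega
  · have h1 : 1 < Fintype.card K := Fintype.one_lt_card
    simp only [rr, he₀, dite_false]
    omega

/-- The data attached to a good exponent vector. -/
theorem target_family (O : Fin Lg → Fin w → Fin w) (emb : Fin t → Fin w → Fin n)
    (hemb : ∀ c a c' a', emb c a = emb c' a' → c = c' ∧ a = a') (hn : 0 < n)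
    (hsize : Ks * (Lg + 1) + 1 ≤ n) (B : Var Ks t Lg w → Fin (Fintype.card K))
    (hB : ∀ j, ∃ c v ρ, ∀ l, Allowed (Fintype.card K)
      (fun r => B (Var.mk j c l (vtx (OO O) v ρ l) r)) (ρ l)) :
    ∃ (u vv : ℕ → Fin n) (A : Var Ks t Lg w → Fin (Fintype.card K))
      (T : Finset (Fin Ks → Fin Lg → Fin w))
      (r : (Fin Ks → Fin Lg → Fin w) → Var Ks t Lg w → Fin (Fintype.card K))
      (t₀ : Fin Ks → Fin Lg → Fin w),
      dg K _ A + Ks * Lg = dg K _ B ∧ t₀ ∈ T ∧ r t₀ = B ∧
      (∀ s ∈ T, s ≠ t₀ → dg K _ (r s) < dg K _ B ∨ toLex (r s) < toLex B) ∧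
      (∀ s, dg K _ (r s) ≤ dg K _ B) ∧
      ∀ x : Var Ks t Lg w → K,
        mono A x * cf univ (rho (sigmaSub Ks Lg (segMat O emb)) (cutSub Ks Lg u vv) x
          (imm K n n hn)) = ∑ s ∈ T, mono (r s) x := by
  classical
  choose c v₀ π hvalid using hB
  let e₁ : Fin Ks → Fin w := fun j => vtx (OO O) (v₀ j) (π j) Lg
  have hq : 1 < Fintype.card K := Fintype.one_lt_card
  let Aₙ : Var Ks t Lg w → ℕ := fun e => (B e : ℕ) - oneOf O c v₀ π e
  have hoo : ∀ (π'' : Fin Ks → Fin Lg → Fin w) e, oneOf O c v₀ π'' e ≤ 1 := by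
    intro π'' e
    simp only [oneOf]
    split_ifs <;> omega
  have hA : ∀ e, (B e : ℕ) = Aₙ e + oneOf O c v₀ π e := by
    intro e
    simp only [Aₙ]
    by_cases he : e ∈ pathSet O c v₀ π
    · obtain ⟨j, l, rfl⟩ := mem_pathSet.1 he
      have h1 := (hvalid j l).2
      simp only [oneOf]
      rw [if_pos (mem_pathSet.2 ⟨j, l, rfl⟩)]
      have h2 : (B (edge O c v₀ π (j, l)) : ℕ) ≠ 0 := h1
      omega
    · simp [oneOf, he]
  have hAlt : ∀ e, Aₙ e < Fintype.card K := by
    intro e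
    have := (B e).2
    simp only [Aₙ]
    omega
  have hEle : ∀ (π'' : Fin Ks → Fin Lg → Fin w) e,
      Aₙ e + oneOf O c v₀ π'' e ≤ Fintype.card K := by
    intro π'' e
    have h1 := hAlt e
    have h2 := hoo π'' e
    omega
  have hsumB : dg K _ B = ∑ e, Aₙ e + Ks * Lg := by
    simp only [dg]
    rw [← sum_oneOf O c v₀ π, ← Finset.sum_add_distrib]
    exact Finset.sum_congr rfl fun e _ => hA e
  have hsumE : ∀ π'' : Fin Ks → Fin Lg → Fin w,
      ∑ e, (Aₙ e + oneOf O c v₀ π'' e) = dg K _ B := by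
    intro π''
    rw [Finset.sum_add_distrib, sum_oneOf, hsumB]
  refine ⟨uOf emb hn c e₁, vOf emb hn c v₀, fun e => ⟨Aₙ e, hAlt e⟩,
    univ.filter (fun π' : Fin Ks → Fin Lg → Fin w => ∀ j, vtx (OO O) (v₀ j) (π' j) Lg = e₁ j),
    fun π' => rr (K := K) fun e => Aₙ e + oneOf O c v₀ π' e, π, ?_, ?_, ?_, ?_, ?_, ?_⟩
  · rw [hsumB]
    rfl
  · simp [e₁]
  · funext e
    have h1 : Aₙ e + oneOf O c v₀ π e < Fintype.card K := by
      rw [← hA e]
      exact (B e).2
    apply Fin.ext
    rw [rr_val_of_lt h1, hA e]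
  · intro s _ hs
    by_cases hall : ∀ e, Aₙ e + oneOf O c v₀ s e < Fintype.card K
    · right
      obtain ⟨e₀, h1, h2⟩ := first_diff O c v₀ π s B hvalid Aₙ hA hs hall
      have h3 : Pi.Lex (· < ·) (· < ·) (rr (K := K) fun e => Aₙ e + oneOf O c v₀ s e) B :=
        ⟨e₀, fun e he => Fin.ext (by rw [rr_val_of_lt (hall e), h1 e he]), by
          show (rr (K := K) (fun e => Aₙ e + oneOf O c v₀ s e) e₀) < B e₀
          rw [Fin.lt_def, rr_val_of_lt (hall e₀)]
          exact h2⟩
      exact h3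
    · left
      push Not at hall
      obtain ⟨e₀, he₀⟩ := hall
      have h1 := dg_rr_lt (K := K) (fun e => Aₙ e + oneOf O c v₀ s e) (hEle s) e₀ (not_lt.2 he₀)
      rwa [hsumE s] at h1
  · intro s
    have h1 := dg_rr_le (K := K) (fun e => Aₙ e + oneOf O c v₀ s e) (hEle s)
    rwa [hsumE s] at h1
  · intro x
    rw [cf_imm_paths O emb hemb hn hsize c v₀ e₁ x, Finset.mul_sum]
    refine Finset.sum_congr rfl fun s _ => ?_
    rw [mono_rr _ (hEle s) x, mono, ← Finset.prod_mul_distrib]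
    refine Finset.prod_congr rfl fun e _ => ?_
    rw [pow_add]

end family

end Vale.Agent.Lib.P346
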